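import Vale.Agent.P114.Dim.Stationary

/-!
# Dimension bounds for stationary measures
-/

namespace Vale.Agent.P114

open MeasureTheory Filter
open scoped ENNReal Topology

variable {κ : Type*} [Fintype κ]

theorem exists_shift_tail (V : ℝ) {δ : ℝ≥0∞} (hδ : δ ≠ 0) (k₁ : ℕ) :
    ∃ k₀ : ℕ, k₁ ≤ k₀ ∧ ∑' k : ℕ, ENNReal.ofReal (V / (((k + k₀ + 1) ^ 2 : ℕ) : ℝ)) < δ := by
  have hs : Summable fun k : ℕ => V / (((k + 1) ^ 2 : ℕ) : ℝ) := by
    have h := ((summable_nat_add_iff (f := fun k : ℕ => (1 : ℝ) / (k : ℝ) ^ 2) 1).2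
      (Real.summable_one_div_nat_pow.2 one_lt_two)).mul_left V
    simpa [div_eq_mul_inv] using h
  have hf : ∑' k : ℕ, ENNReal.ofReal (V / (((k + 1) ^ 2 : ℕ) : ℝ)) ≠ ∞ := hs.tsum_ofReal_ne_top
  have h := ((ENNReal.tendsto_sum_nat_add _ hf).eventually (gt_mem_nhds hδ.bot_lt)).and
    (eventually_ge_atTop k₁)
  obtain ⟨k₀, hk, hk₁⟩ := h.exists
  exact ⟨k₀, hk₁, hk⟩

theorem tendsto_sq_shift (k₀ : ℕ) : Tendsto (fun k : ℕ => (k + k₀ + 1) ^ 2) atTop atTop :=
  tendsto_atTop_mono (fun k => le_trans (by omega : k ≤ k + k₀ + 1)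
    (Nat.le_self_pow two_ne_zero _)) tendsto_id

/-- The covering estimate at one depth. -/
theorem cover_step {q : κ → ℝ} (hq : ∀ i, 0 < q i) (h1 : ∑ i, q i = 1) {r : ℝ} (hr : 0 < r)
    {c : κ → ℝ} {μ : Measure ℝ} [IsProbabilityMeasure μ] (h : Stationary q r c μ)
    {R : ℝ} (hsupp : μ {x | R < |x|} = 0) {ε : ℝ} (hε : 0 < ε) {m : ℕ} (hm : 1 ≤ m) :
    ∃ U : Finset ℝ, (U.card : ℝ) ≤ Real.exp (m * (entropy q c + ε)) ∧
      μ (⋃ v ∈ U, Set.Icc (v - r ^ m * R) (v + r ^ m * R))ᶜ ≤ ENNReal.ofReal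
        ((∑ i, q i * (-Real.log (fib q c i) - entropy q c) ^ 2) / ε ^ 2 / m) := by
  classical
  have hq' := fun i => (hq i).le
  set f : κ → ℝ := fun i => -Real.log (fib q c i) with hf
  have hE : entropy q c = ∑ i, q i * f i := entropy_eq_mean q c
  set B : Finset (Fin m → κ) :=
    Finset.univ.filter fun W => ε * m < |∑ j, f (W j) - m * ∑ i, q i * f i| with hB
  refine ⟨Bᶜ.image (wordSum r c), ?_, ?_⟩
  · set U := Bᶜ.image (wordSum r c)
    set e : ℝ := Real.exp (-(m * (entropy q c + ε))) with he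
    have hlow : ∀ v ∈ U, e ≤
        ∑ W ∈ Finset.univ.filter (fun W : Fin m → κ => wordSum r c W = v), wordWeight q W := by
      intro v hv
      obtain ⟨W, hW, rfl⟩ := Finset.mem_image.1 hv
      simp only [hB, Finset.mem_compl, Finset.mem_filter, Finset.mem_univ, true_and, not_lt] at hW
      refine le_trans ?_ ((prod_fib q c W).le.trans
        (Finset.sum_le_sum_of_subset_of_nonneg (fun W' hW' => ?_)
          fun _ _ _ => wordWeight_nonneg hq' _))
      · rw [prod_fib_eq_exp hq, he]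
        refine Real.exp_le_exp.2 (neg_le_neg ?_)
        have h2 := (abs_le.1 hW).2
        rw [← hE] at h2
        show ∑ j, f (W j) ≤ _
        linarith
      · simp only [Finset.mem_filter, Finset.mem_univ, true_and] at hW' ⊢
        exact Finset.sum_congr rfl fun j _ => by rw [hW' j]
    have hsum : (U.card : ℝ) * e ≤ 1 := by
      calc (U.card : ℝ) * e = ∑ _v ∈ U, e := by simp
        _ ≤ ∑ v ∈ U, ∑ W ∈ Finset.univ.filter (fun W : Fin m → κ => wordSum r c W = v),
              wordWeight q W := Finset.sum_le_sum hlow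
        _ ≤ 1 := by
            rw [← wordWeight_sum h1 m]
            exact Finset.sum_fiberwise_le_sum_of_sum_fiber_nonneg
              (fun v _ => Finset.sum_nonneg fun W _ => wordWeight_nonneg hq' W)
    rw [he, Real.exp_neg, mul_inv_le_iff₀ (Real.exp_pos _), one_mul] at hsum
    exact hsum
  · have hdev := word_deviation hq' h1 f hε hm
    rw [← hE] at hdev
    refine le_trans ((h.iterate hq' m).mass_le (wordWeight_nonneg hq') hsupp
      (Finset.measurableSet_biUnion _ fun _ _ => measurableSet_Icc).compl B fun W hW x hx => ?_)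
      (ENNReal.ofReal_le_ofReal ?_)
    · simp only [Set.mem_compl_iff, not_not, Set.mem_iUnion, Set.mem_Icc]
      refine ⟨wordSum r c W, Finset.mem_image_of_mem _ (Finset.mem_compl.2 hW), ?_, ?_⟩ <;>
        nlinarith [abs_le.1 hx, pow_pos hr m]
    · rw [hB, ← hE]
      exact hdev

/-- A stationary measure gives positive mass to a set of dimension at most the entropy of the
translations over `-log r`. -/
theorem dim_upper {q : κ → ℝ} (hq : ∀ i, 0 < q i) (h1 : ∑ i, q i = 1) {r : ℝ} (hr : 0 < r)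
    (hr1 : r < 1) {c : κ → ℝ} {μ : Measure ℝ} [IsProbabilityMeasure μ] (h : Stationary q r c μ)
    {R : ℝ} (hR0 : 0 ≤ R) (hR : ∀ i, |c i| + r * R ≤ R) {s : ℝ} (hs0 : 0 < s)
    (hs : entropy q c < s * -Real.log r) :
    ∃ E : Set ℝ, MeasurableSet E ∧ 0 < μ E ∧ dimH E ≤ ENNReal.ofReal s := by
  classical
  have hq' := fun i => (hq i).le
  have hsupp := h.supp hq' h1 hr hr1 hR
  set ε : ℝ := (s * -Real.log r - entropy q c) / 2 with hεd
  have hε : 0 < ε := by rw [hεd]; linarith
  set V : ℝ := (∑ i, q i * (-Real.log (fib q c i) - entropy q c) ^ 2) / ε ^ 2 with hV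
  have hV0 : 0 ≤ V := div_nonneg
    (Finset.sum_nonneg fun i _ => mul_nonneg (hq' i) (sq_nonneg _)) (sq_nonneg _)
  obtain ⟨k₀, -, hk₀⟩ := exists_shift_tail V (δ := 1) one_ne_zero 0
  set m : ℕ → ℕ := fun k => (k + k₀ + 1) ^ 2 with hm
  have hm1 : ∀ k, 1 ≤ m k := fun k => Nat.one_le_pow _ _ (by omega)
  choose U hUc hUm using fun k => cover_step hq h1 hr h hsupp hε (hm1 k)
  set A : ℕ → Set ℝ := fun k => ⋃ v ∈ U k, Set.Icc (v - r ^ m k * R) (v + r ^ m k * R) with hA
  have hAm : ∀ k, MeasurableSet (A k) := fun k =>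
    Finset.measurableSet_biUnion _ fun _ _ => measurableSet_Icc
  have hE : MeasurableSet (⋂ k, A k) := MeasurableSet.iInter hAm
  refine ⟨⋂ k, A k, hE, ?_, ?_⟩
  · have hc : μ (⋂ k, A k)ᶜ < 1 := by
      rw [Set.compl_iInter]
      exact lt_of_le_of_lt (measure_iUnion_le _)
        (lt_of_le_of_lt (ENNReal.tsum_le_tsum fun k => hUm k) hk₀)
    rw [pos_iff_ne_zero]
    intro h0
    rw [measure_compl hE (measure_ne_top μ _), h0, tsub_zero, measure_univ] at hc
    exact lt_irrefl _ hc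
  · have hH : μH[s] (⋂ k, A k) ≤ 0 := by
      refine le_trans (Measure.hausdorffMeasure_le_liminf_sum (ι := fun k => { v // v ∈ U k }) (l := atTop)
        s _ (fun k => ENNReal.ofReal (2 * (r ^ m k * R))) ?_
        (fun k v => Set.Icc ((v : ℝ) - r ^ m k * R) (v + r ^ m k * R))
        (Eventually.of_forall fun k v => ?_) (Eventually.of_forall fun k x hx => ?_)) ?_
      · rw [← ENNReal.ofReal_zero]
        refine ENNReal.tendsto_ofReal ?_
        have := ((tendsto_pow_atTop_nhds_zero_of_lt_one hr.le hr1).comp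
          (tendsto_sq_shift k₀)).mul_const (2 * R)
        rw [zero_mul] at this
        exact this.congr fun k => by simp only [Function.comp, hm]; ring
      · rw [Real.ediam_Icc]
        exact le_of_eq (by congr 1; ring)
      · have hx' := Set.mem_iInter.1 hx k
        simp only [hA, Set.mem_iUnion] at hx'
        obtain ⟨v, hv, hxv⟩ := hx'
        exact Set.mem_iUnion.2 ⟨⟨v, hv⟩, hxv⟩
      · have hterm : ∀ k, ∑ v : { v // v ∈ U k },
            Metric.ediam (Set.Icc ((v : ℝ) - r ^ m k * R) (v + r ^ m k * R)) ^ s ≤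
              ENNReal.ofReal ((2 * R) ^ s * Real.exp (-ε * (m k : ℕ))) := by
          intro k
          have hb : 0 ≤ 2 * (r ^ m k * R) := by positivity
          have he : ∀ v : { v // v ∈ U k },
              Metric.ediam (Set.Icc ((v : ℝ) - r ^ m k * R) (v + r ^ m k * R)) ^ s =
                ENNReal.ofReal ((2 * (r ^ m k * R)) ^ s) := fun v => by
            rw [Real.ediam_Icc, ← ENNReal.ofReal_rpow_of_nonneg hb hs0.le]
            congr 2
            ring
          simp only [he, Finset.sum_const, Finset.card_univ, Fintype.card_coe, nsmul_eq_mul]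
          rw [← ENNReal.ofReal_natCast, ← ENNReal.ofReal_mul (Nat.cast_nonneg _)]
          refine ENNReal.ofReal_le_ofReal ?_
          calc ((U k).card : ℝ) * (2 * (r ^ m k * R)) ^ s
              ≤ Real.exp (m k * (entropy q c + ε)) * (2 * (r ^ m k * R)) ^ s :=
                mul_le_mul_of_nonneg_right (hUc k) (Real.rpow_nonneg hb s)
            _ = (2 * R) ^ s * Real.exp (-ε * (m k : ℕ)) := by
                rw [show 2 * (r ^ m k * R) = (2 * R) * r ^ m k by ring,
                  Real.mul_rpow (by positivity) (by positivity),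
                  Real.rpow_def_of_pos (pow_pos hr (m k)), Real.log_pow, mul_left_comm,
                  ← Real.exp_add]
                congr 2
                rw [hεd]
                ring
        refine le_trans (liminf_le_liminf (Eventually.of_forall hterm)) (le_of_eq ?_)
        refine Tendsto.liminf_eq ?_
        rw [← ENNReal.ofReal_zero]
        refine ENNReal.tendsto_ofReal ?_
        have h2 : Tendsto (fun k => -ε * ((m k : ℕ) : ℝ)) atTop atBot :=
          (tendsto_const_mul_atBot_of_neg (neg_lt_zero.2 hε)).2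
            (tendsto_natCast_atTop_atTop.comp (tendsto_sq_shift k₀))
        have h3 := (Real.tendsto_exp_atBot.comp h2).const_mul ((2 * R) ^ s)
        rw [mul_zero] at h3
        exact h3
    refine le_trans (dimH_le_of_hausdorffMeasure_ne_top (d := ⟨s, hs0.le⟩) ?_) ?_
    · exact ne_top_of_le_ne_top ENNReal.zero_ne_top hH
    · rw [ENNReal.ofReal_eq_coe_nnreal hs0.le]
      rfl

/-- The mass of a short interval at one depth. -/
theorem small_step {β : Type*} {q : κ → ℝ} (hq : ∀ i, 0 < q i) (h1 : ∑ i, q i = 1) {r : ℝ}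
    (hr : 0 < r) {c : κ → ℝ} {μ : Measure ℝ} [IsProbabilityMeasure μ] (h : Stationary q r c μ)
    {R : ℝ} (hsupp : μ {x | R < |x|} = 0) (ψ : κ → β)
    (hsep : ∀ (n : ℕ) (W W' : Fin n → κ) (x x' : ℝ), |x| ≤ R → |x'| ≤ R →
      |(r ^ n * x + wordSum r c W) - (r ^ n * x' + wordSum r c W')| ≤ r ^ n →
      ∀ j, ψ (W j) = ψ (W' j))
    {ε : ℝ} (hε : 0 < ε) {m : ℕ} (hm : 1 ≤ m) :
    ∃ A : Set ℝ, MeasurableSet A ∧ μ Aᶜ ≤ ENNReal.ofReal
        ((∑ i, q i * (-Real.log (fib q ψ i) - entropy q ψ) ^ 2) / ε ^ 2 / m) ∧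
      ∀ y ∈ A, μ (Set.Icc (y - r ^ m) (y + r ^ m)) ≤
        ENNReal.ofReal (Real.exp (-(m * (entropy q ψ - ε)))) := by
  classical
  have hq' := fun i => (hq i).le
  set f : κ → ℝ := fun i => -Real.log (fib q ψ i) with hf
  have hE : entropy q ψ = ∑ i, q i * f i := entropy_eq_mean q ψ
  set B : Finset (Fin m → κ) :=
    Finset.univ.filter fun W => ε * m < |∑ j, f (W j) - m * ∑ i, q i * f i| with hB
  refine ⟨⋃ W ∈ Bᶜ, Set.Icc (wordSum r c W - r ^ m * R) (wordSum r c W + r ^ m * R),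
    Finset.measurableSet_biUnion _ fun _ _ => measurableSet_Icc, ?_, fun y hy => ?_⟩
  · have hdev := word_deviation hq' h1 f hε hm
    rw [← hE] at hdev
    refine le_trans ((h.iterate hq' m).mass_le (wordWeight_nonneg hq') hsupp
      (Finset.measurableSet_biUnion _ fun _ _ => measurableSet_Icc).compl B fun W hW x hx => ?_)
      (ENNReal.ofReal_le_ofReal ?_)
    · simp only [Set.mem_compl_iff, not_not, Set.mem_iUnion, Set.mem_Icc]
      refine ⟨W, Finset.mem_compl.2 hW, ?_, ?_⟩ <;> nlinarith [abs_le.1 hx, pow_pos hr m]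
    · rw [hB, ← hE]
      exact hdev
  · simp only [Set.mem_iUnion, Set.mem_Icc] at hy
    obtain ⟨W, hW, hy1, hy2⟩ := hy
    have hrm : 0 < r ^ m := pow_pos hr m
    simp only [hB, Finset.mem_compl, Finset.mem_filter, Finset.mem_univ, true_and, not_lt] at hW
    obtain ⟨x', hx', rfl⟩ : ∃ x', |x'| ≤ R ∧ r ^ m * x' + wordSum r c W = y := by
      refine ⟨(y - wordSum r c W) / r ^ m, ?_, by field_simp; ring⟩
      rw [abs_div, abs_of_pos hrm, div_le_iff₀ hrm, abs_le]
      constructor <;> linarith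
    refine le_trans ((h.iterate hq' m).mass_le (wordWeight_nonneg hq') hsupp measurableSet_Icc
      (Finset.univ.filter fun W' : Fin m → κ => ∀ j, ψ (W' j) = ψ (W j)) fun W' hW' x hx hmem => ?_)
      (ENNReal.ofReal_le_ofReal ?_)
    · refine hW' (Finset.mem_filter.2 ⟨Finset.mem_univ _, hsep m W' W x x' hx hx' ?_⟩)
      rw [abs_le]
      constructor <;> linarith [hmem.1, hmem.2]
    · rw [← prod_fib q ψ W, prod_fib_eq_exp hq]
      refine Real.exp_le_exp.2 (neg_le_neg ?_)
      have h2 := (abs_le.1 hW).1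
      rw [← hE] at h2
      show _ ≤ ∑ j, f (W j)
      linarith

/-- Mass bounds along the squares give a lower dimension bound. -/
theorem dim_of_scales {r : ℝ} (hr : 0 < r) (hr1 : r < 1) {μ : Measure ℝ} {V g : ℝ} {m₀ : ℕ}
    (hA : ∀ m, m₀ ≤ m → ∃ A : Set ℝ, MeasurableSet A ∧ μ Aᶜ ≤ ENNReal.ofReal (V / m) ∧
      ∀ y ∈ A, μ (Set.Icc (y - r ^ m) (y + r ^ m) ∩ A) ≤
        ENNReal.ofReal (Real.exp (-(m * g))))
    {s : ℝ} (hs0 : 0 ≤ s) (hs : s * -Real.log r < g) {E : Set ℝ} (hμE : 0 < μ E) :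
    ENNReal.ofReal s ≤ dimH E := by
  classical
  have hL : 0 < -Real.log r := neg_pos.2 (Real.log_neg hr hr1)
  set L : ℝ := -Real.log r with hLd
  set ε : ℝ := g - s * L with hεd
  have hε : 0 < ε := by rw [hεd]; linarith
  obtain ⟨k₂, hk₂⟩ := exists_nat_gt (3 * (s * L) / ε)
  set k₁ : ℕ := max k₂ m₀ with hk₁d
  have hk₁ : 3 * (s * L) / ε < k₁ := hk₂.trans_le (Nat.cast_le.2 (le_max_left _ _))
  obtain ⟨k₀, hk₁₀, hk₀⟩ := exists_shift_tail V (δ := μ E) hμE.ne' k₁
  set m : ℕ → ℕ := fun k => (k + k₀ + 1) ^ 2 with hm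
  have hm1 : ∀ k, 1 ≤ m k := fun k => Nat.one_le_pow _ _ (by omega)
  choose A hAm hAc hAy using fun k => hA (m k) ((le_max_right k₂ m₀).trans
    (le_trans (by omega : k₁ ≤ k + k₀ + 1) (Nat.le_self_pow two_ne_zero _)))
  set I : Set ℝ := ⋂ k, A k with hI
  have hIm : MeasurableSet I := MeasurableSet.iInter hAm
  have hpos : 0 < μ.restrict I E := by
    rw [Measure.restrict_apply' hIm, pos_iff_ne_zero]
    intro h0
    have h3 := measure_le_inter_add_sdiff μ E I
    rw [h0, zero_add] at h3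
    refine (lt_irrefl (μ E)) (lt_of_le_of_lt (h3.trans (measure_mono (fun x hx => hx.2))) ?_)
    show μ Iᶜ < _
    rw [hI, Set.compl_iInter]
    exact lt_of_le_of_lt (measure_iUnion_le _)
      (lt_of_le_of_lt (ENNReal.tsum_le_tsum fun k => hAc k) hk₀)
  have hmass : μ.restrict I ≤ μH[s] := by
    refine Measure.le_hausdorffMeasure s _ (ENNReal.ofReal (r ^ m 0))
      (ENNReal.ofReal_pos.2 (pow_pos hr _)) fun U hU => ?_
    rw [Measure.restrict_apply' hIm]
    rcases (U ∩ I).eq_empty_or_nonempty with he | ⟨y, hyU, hyI⟩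
    · simp [he]
    have hfin : Metric.ediam U ≠ ∞ := ne_top_of_le_ne_top ENNReal.ofReal_ne_top hU
    set δ : ℝ := (Metric.ediam U).toReal with hδ
    have hδ0 : 0 ≤ δ := ENNReal.toReal_nonneg
    have hsub : ∀ k, δ ≤ r ^ m k → μ (U ∩ I) ≤
        ENNReal.ofReal (Real.exp (-((m k : ℕ) * (g)))) := by
      intro k hk
      refine le_trans (measure_mono (t := Set.Icc (y - r ^ m k) (y + r ^ m k) ∩ A k)
        fun z hz => ⟨?_, Set.mem_iInter.1 hz.2 k⟩) (hAy k y (Set.mem_iInter.1 hyI k))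
      have hd : edist z y ≤ Metric.ediam U := Metric.edist_le_ediam_of_mem hz.1 hyU
      rw [edist_dist] at hd
      have h2 := (ENNReal.ofReal_le_iff_le_toReal hfin).1 hd
      rw [Real.dist_eq, abs_le] at h2
      constructor <;> linarith [h2.1, h2.2]
    have hgain : 0 < g := by nlinarith
    have hrate : ∀ k, s * L * ((m (k + 1) : ℕ) : ℝ) ≤ (m k : ℕ) * (g) := by
      intro k
      have hk : (k₁ : ℝ) ≤ (k : ℝ) + k₀ + 1 := by
        have : k₁ ≤ k + k₀ + 1 := by omega
        exact_mod_cast this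
      have h4 : (1 : ℝ) ≤ (k : ℝ) + k₀ + 1 := by
        have : 1 ≤ k + k₀ + 1 := by omega
        exact_mod_cast this
      rw [div_lt_iff₀ hε] at hk₁
      have h5 : 3 * (s * L) ≤ ((k : ℝ) + k₀ + 1) * ε := by nlinarith
      have h6 : g = s * L + ε := by rw [hεd]; ring
      rw [h6]
      simp only [hm]
      push_cast
      nlinarith [mul_le_mul_of_nonneg_left h5 (le_trans zero_le_one h4), mul_nonneg hs0 hL.le]
    rcases hδ0.lt_or_eq with hpos' | hzero
    · have hex : ∃ k, r ^ m k < δ := by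
        obtain ⟨k, hk⟩ := ((tendsto_pow_atTop_nhds_zero_of_lt_one hr.le hr1).comp
          (tendsto_sq_shift k₀)).eventually (gt_mem_nhds hpos') |>.exists
        exact ⟨k, hk⟩
      have h0 : δ ≤ r ^ m 0 :=
        (ENNReal.toReal_mono ENNReal.ofReal_ne_top hU).trans_eq
          (ENNReal.toReal_ofReal (pow_pos hr _).le)
      have hne : Nat.find hex ≠ 0 := fun e => by
        have := Nat.find_spec hex
        rw [e] at this
        linarith
      obtain ⟨k, hk⟩ := Nat.exists_eq_succ_of_ne_zero hne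
      have hlt : r ^ m (k + 1) < δ := by
        have := Nat.find_spec hex
        rwa [hk] at this
      have hle : δ ≤ r ^ m k := not_lt.1 (Nat.find_min hex (by omega : k < Nat.find hex))
      refine (hsub k hle).trans ?_
      rw [← ENNReal.ofReal_toReal hfin, ← hδ, ENNReal.ofReal_rpow_of_nonneg hδ0 hs0]
      refine ENNReal.ofReal_le_ofReal ?_
      refine le_trans ?_ (Real.rpow_le_rpow (pow_pos hr _).le hlt.le hs0)
      rw [Real.rpow_def_of_pos (pow_pos hr _), Real.log_pow]
      refine Real.exp_le_exp.2 ?_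
      have := hrate k
      rw [hLd] at this
      linarith
    · have hz : μ (U ∩ I) ≤ 0 := by
        refine ge_of_tendsto' (x := atTop) (f := fun k : ℕ =>
          ENNReal.ofReal (Real.exp (-((m k : ℕ) * (g))))) ?_
          fun k => hsub k (by rw [← hzero]; exact (pow_pos hr _).le)
        rw [← ENNReal.ofReal_zero]
        refine ENNReal.tendsto_ofReal (Real.tendsto_exp_neg_atTop_nhds_zero.comp ?_)
        exact (tendsto_natCast_atTop_atTop.comp (tendsto_sq_shift k₀)).atTop_mul_const hgain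
      exact hz.trans zero_le
  have hne : μH[s] E ≠ 0 := ne_of_gt (hpos.trans_le (hmass E))
  rw [ENNReal.ofReal_eq_coe_nnreal hs0]
  exact le_dimH_of_hausdorffMeasure_ne_zero hne

/-- Separation of the classes of `ψ` gives the lower dimension bound. -/
theorem dim_lower {β : Type*} {q : κ → ℝ} (hq : ∀ i, 0 < q i) (h1 : ∑ i, q i = 1) {r : ℝ}
    (hr : 0 < r) (hr1 : r < 1) {c : κ → ℝ} {μ : Measure ℝ} [IsProbabilityMeasure μ]
    (h : Stationary q r c μ) {R : ℝ} (hR : ∀ i, |c i| + r * R ≤ R) (ψ : κ → β)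
    (hsep : ∀ (n : ℕ) (W W' : Fin n → κ) (x x' : ℝ), |x| ≤ R → |x'| ≤ R →
      |(r ^ n * x + wordSum r c W) - (r ^ n * x' + wordSum r c W')| ≤ r ^ n →
      ∀ j, ψ (W j) = ψ (W' j))
    {s : ℝ} (hs0 : 0 ≤ s) (hs : s * -Real.log r < entropy q ψ)
    {E : Set ℝ} (hμE : 0 < μ E) :
    ENNReal.ofReal s ≤ dimH E := by
  have hsupp := h.supp (fun i => (hq i).le) h1 hr hr1 hR
  have hε : 0 < (entropy q ψ - s * -Real.log r) / 2 := by linarith
  refine dim_of_scales hr hr1
    (g := entropy q ψ - (entropy q ψ - s * -Real.log r) / 2) (m₀ := 1)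
    (V := (∑ i, q i * (-Real.log (fib q ψ i) - entropy q ψ) ^ 2) /
      ((entropy q ψ - s * -Real.log r) / 2) ^ 2)
    (fun m hm => ?_) hs0 (by linarith) hμE
  obtain ⟨A, h1', h2', h3'⟩ := small_step hq h1 hr h hsupp ψ hsep hε hm
  exact ⟨A, h1', h2', fun y hy => (measure_mono Set.inter_subset_left).trans (h3' y hy)⟩

end Vale.Agent.P114
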