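import Vale.Agent.P114.Walk

/-!
# Second moment of sums along words
-/

namespace Vale.Agent.P114

open Real

variable {κ : Type*} [Fintype κ]

theorem sum_word_succ {n : ℕ} (F : (Fin (n + 1) → κ) → ℝ) :
    ∑ W, F W = ∑ i, ∑ W' : Fin n → κ, F (Fin.cons i W') := by
  rw [← (Fin.consEquiv fun _ : Fin (n + 1) => κ).sum_comp, Fintype.sum_prod_type]
  rfl

omit [Fintype κ] in
theorem wordWeight_cons (q : κ → ℝ) {n : ℕ} (i : κ) (W : Fin n → κ) :
    wordWeight q (Fin.cons i W : Fin (n + 1) → κ) = q i * wordWeight q W := by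
  simp [wordWeight, Fin.prod_univ_succ]

theorem word_moments {q : κ → ℝ} (h1 : ∑ i, q i = 1) {g : κ → ℝ} (hg : ∑ i, q i * g i = 0) :
    ∀ n : ℕ, (∑ W : Fin n → κ, wordWeight q W * ∑ j, g (W j) = 0) ∧
      ∑ W : Fin n → κ, wordWeight q W * (∑ j, g (W j)) ^ 2 = n * ∑ i, q i * g i ^ 2
  | 0 => by simp
  | n + 1 => by
    obtain ⟨e1, e2⟩ := word_moments h1 hg n
    have hs : ∀ i (W : Fin n → κ),
        ∑ j, g ((Fin.cons i W : Fin (n + 1) → κ) j) = g i + ∑ j, g (W j) := fun i W => by
      simp [Fin.sum_univ_succ]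
    constructor
    · rw [sum_word_succ]
      simp only [wordWeight_cons, hs, mul_add, mul_assoc, Finset.sum_add_distrib,
        ← Finset.mul_sum, ← Finset.sum_mul, e1, wordWeight_sum h1 n]
      simp [hg]
    · rw [sum_word_succ]
      have key : ∀ i (W : Fin n → κ), wordWeight q (Fin.cons i W : Fin (n + 1) → κ) *
          (∑ j, g ((Fin.cons i W : Fin (n + 1) → κ) j)) ^ 2 =
          (q i * g i ^ 2) * wordWeight q W +
            (2 * (q i * g i)) * (wordWeight q W * ∑ j, g (W j)) +
            q i * (wordWeight q W * (∑ j, g (W j)) ^ 2) := fun i W => by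
        rw [wordWeight_cons, hs]
        ring
      simp only [key, Finset.sum_add_distrib, ← Finset.mul_sum, ← Finset.sum_mul, e1, e2,
        wordWeight_sum h1 n, h1]
      push_cast
      ring

/-- Chebyshev's inequality for the sum of `f` along a word. -/
theorem word_deviation {q : κ → ℝ} (hq : ∀ i, 0 ≤ q i) (h1 : ∑ i, q i = 1) (f : κ → ℝ) {ε : ℝ}
    (hε : 0 < ε) {n : ℕ} (hn : 1 ≤ n) :
    ∑ W ∈ Finset.univ.filter
        (fun W : Fin n → κ => ε * n < |∑ j, f (W j) - n * ∑ i, q i * f i|), wordWeight q W ≤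
      (∑ i, q i * (f i - ∑ k, q k * f k) ^ 2) / ε ^ 2 / n := by
  set E := ∑ k, q k * f k
  have hg : ∑ i, q i * (f i - E) = 0 := by
    simp only [mul_sub, Finset.sum_sub_distrib, ← Finset.sum_mul, h1, one_mul]
    exact sub_self E
  have h := (word_moments h1 hg n).2
  have hn0 : (0 : ℝ) < n := by exact_mod_cast hn
  rw [le_div_iff₀ hn0, le_div_iff₀ (by positivity), ← mul_le_mul_iff_of_pos_left hn0, ← h]
  calc _ = ∑ W ∈ Finset.univ.filter
          (fun W : Fin n → κ => ε * n < |∑ j, f (W j) - n * E|),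
            wordWeight q W * (ε * n) ^ 2 := by
        rw [← Finset.sum_mul]
        ring
    _ ≤ ∑ W ∈ Finset.univ.filter
          (fun W : Fin n → κ => ε * n < |∑ j, f (W j) - n * E|),
            wordWeight q W * (∑ j, (f (W j) - E)) ^ 2 := by
        refine Finset.sum_le_sum fun W hW => ?_
        refine mul_le_mul_of_nonneg_left ?_ (wordWeight_nonneg hq W)
        rw [← sq_abs (∑ j, (f (W j) - E)), Finset.sum_sub_distrib, Finset.sum_const,
          Finset.card_univ, Fintype.card_fin, nsmul_eq_mul]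
        exact pow_le_pow_left₀ (by positivity) (Finset.mem_filter.1 hW).2.le 2
    _ ≤ _ := Finset.sum_le_univ_sum_of_nonneg fun W =>
        mul_nonneg (wordWeight_nonneg hq W) (sq_nonneg _)

/-- The product of the class weights of the letters is the weight of the class of the word. -/
theorem prod_fib {β : Type*} [DecidableEq β] (q : κ → ℝ) (ψ : κ → β) {n : ℕ} (W : Fin n → κ) :
    ∏ j, fib q ψ (W j) = ∑ W' ∈ Finset.univ.filter (fun W' : Fin n → κ => ∀ j, ψ (W' j) = ψ (W j)),
      wordWeight q W' := by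
  classical
  simp only [fib_eq, Finset.prod_univ_sum, wordWeight]
  refine Finset.sum_congr ?_ fun _ _ => rfl
  ext W'
  simp [Fintype.mem_piFinset]

theorem prod_fib_eq_exp {β : Type*} {q : κ → ℝ} (hq : ∀ i, 0 < q i) (ψ : κ → β) {n : ℕ}
    (W : Fin n → κ) :
    ∏ j, fib q ψ (W j) = Real.exp (-∑ j, -Real.log (fib q ψ (W j))) := by
  rw [Finset.sum_neg_distrib, neg_neg, Real.exp_sum]
  exact Finset.prod_congr rfl fun j _ =>
    (Real.exp_log ((hq _).trans_le (le_fib (fun i => (hq i).le) ψ _))).symm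

theorem entropy_eq_mean {β : Type*} (q : κ → ℝ) (ψ : κ → β) :
    entropy q ψ = ∑ i, q i * -Real.log (fib q ψ i) := by
  simp [entropy_eq_sum]

end Vale.Agent.P114
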