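import Vale.Agent.P114.Dim.Window

/-!
# Increments along one split of the classes of a set of words
-/

namespace Vale.Agent.P114

variable {Ω : Type*}

/-- The unnormalised variance of an integer function. -/
noncomputable def vari (S : Finset Ω) (f : Ω → ℤ) : ℝ :=
  ∑ V ∈ S, ((f V : ℝ) - avg S fun V => (f V : ℝ)) ^ 2

theorem vari_nonneg (S : Finset Ω) (f : Ω → ℤ) : 0 ≤ vari S f :=
  Finset.sum_nonneg fun _ _ => sq_nonneg _

theorem vari_identity (S : Finset Ω) (f : Ω → ℤ) :
    2 * (S.card : ℝ) * vari S f = ∑ y ∈ S.image f, ∑ z ∈ S.image f,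
      ((S.filter fun V => f V = y).card : ℝ) * ((S.filter fun V => f V = z).card : ℝ) *
        ((y : ℝ) - z) ^ 2 := by
  have h := split_energy S f (fun V => (f V : ℝ))
  have hav : ∀ y ∈ S.image f, avg (S.filter fun V => f V = y) (fun V => (f V : ℝ)) = (y : ℝ) := by
    intro y hy
    obtain ⟨V, hV, rfl⟩ := Finset.mem_image.1 hy
    have hm : V ∈ S.filter (fun x => f x = f V) := Finset.mem_filter.2 ⟨hV, rfl⟩
    exact avg_const (S.filter fun x => f x = f V) ⟨V, hm⟩ _ _
      fun U hU => by rw [(Finset.mem_filter.1 hU).2]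
  rw [Finset.sum_congr rfl fun y hy => Finset.sum_congr rfl fun z hz => by
    rw [hav y hy, hav z hz]] at h
  rw [← h]
  have hch : ∑ z ∈ S.image f, (∑ V ∈ S.filter (fun V => f V = z), (f V : ℝ)) ^ 2 /
      ((S.filter fun V => f V = z).card : ℝ) = ∑ V ∈ S, (f V : ℝ) ^ 2 := by
    rw [← Finset.sum_fiberwise_of_maps_to (t := S.image f) (g := f)
      (fun V hV => Finset.mem_image_of_mem f hV) fun V => (f V : ℝ) ^ 2]
    refine Finset.sum_congr rfl fun z hz => ?_
    have hc : ((S.filter fun V => f V = z).card : ℝ) ≠ 0 := by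
      obtain ⟨V, hV, rfl⟩ := Finset.mem_image.1 hz
      have hm : V ∈ S.filter (fun x => f x = f V) := Finset.mem_filter.2 ⟨hV, rfl⟩
      exact Nat.cast_ne_zero.2 (Finset.card_pos.2 ⟨V, hm⟩).ne'
    have e1 : ∑ V ∈ S.filter (fun V => f V = z), (f V : ℝ) =
        ∑ _V ∈ S.filter (fun V => f V = z), (z : ℝ) :=
      Finset.sum_congr rfl fun V hV => by rw [(Finset.mem_filter.1 hV).2]
    have e2 : ∑ V ∈ S.filter (fun V => f V = z), (f V : ℝ) ^ 2 =
        ∑ _V ∈ S.filter (fun V => f V = z), (z : ℝ) ^ 2 :=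
      Finset.sum_congr rfl fun V hV => by rw [(Finset.mem_filter.1 hV).2]
    rw [e1, e2, Finset.sum_const, Finset.sum_const, nsmul_eq_mul, nsmul_eq_mul]
    field_simp
  rw [hch]
  congr 1
  rcases S.eq_empty_or_nonempty with rfl | hS
  · simp [vari]
  have hc : (S.card : ℝ) ≠ 0 := by exact_mod_cast hS.card_pos.ne'
  simp only [vari, sub_sq, Finset.sum_add_distrib, Finset.sum_sub_distrib, Finset.sum_const,
    nsmul_eq_mul, ← Finset.sum_mul, ← Finset.mul_sum, avg]
  field_simp
  ring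

theorem sum_classes_congr {β γ M : Type*} [DecidableEq β] [DecidableEq γ] [AddCommMonoid M]
    (S : Finset Ω) (φ : Ω → β) (ψ : Ω → γ)
    (h : ∀ a ∈ S, ∀ b ∈ S, φ a = φ b ↔ ψ a = ψ b) (G : Finset Ω → M) :
    ∑ z ∈ S.image φ, G (S.filter fun ω => φ ω = z) =
      ∑ z ∈ S.image ψ, G (S.filter fun ω => ψ ω = z) := by
  classical
  rw [sum_classes_refine S φ ψ (fun a ha b hb hab => (h a ha b hb).2 hab)]
  refine Finset.sum_congr rfl fun y hy => ?_
  obtain ⟨ω, hω, rfl⟩ := Finset.mem_image.1 hy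
  have himg : (S.filter fun x => φ x = φ ω).image ψ = {ψ ω} := by
    ext z
    simp only [Finset.mem_image, Finset.mem_filter, Finset.mem_singleton]
    constructor
    · rintro ⟨x, ⟨hx, hxe⟩, rfl⟩
      exact (h x hx ω hω).1 hxe
    · rintro rfl
      exact ⟨ω, ⟨hω, rfl⟩, rfl⟩
  rw [himg, Finset.sum_singleton]
  congr 1
  ext x
  simp only [Finset.mem_filter]
  exact ⟨fun hx => ⟨hx, (h x hx.1 ω hω).1 hx.2⟩, fun hx => hx.1⟩

variable {ι : Type*} {G : ℕ}

/-- The squared length of a difference of class means. -/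
noncomputable def gapMass (a b : ι → ℤ) (S S' : Finset (Fin G → ι)) : ℝ :=
  ∑ i ∈ Finset.range G, (meanGap a S S' i ^ 2 + meanGap b S S' i ^ 2)

theorem gapMass_nonneg (a b : ι → ℤ) (S S' : Finset (Fin G → ι)) : 0 ≤ gapMass a b S S' :=
  Finset.sum_nonneg fun _ _ => add_nonneg (sq_nonneg _) (sq_nonneg _)

theorem gapMass_comm (a b : ι → ℤ) (S S' : Finset (Fin G → ι)) :
    gapMass a b S S' = gapMass a b S' S :=
  Finset.sum_congr rfl fun i _ => by simp only [meanGap]; ring

/-- The energy of both digit coordinates over all positions. -/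
noncomputable def totalEnergy (a b : ι → ℤ) (W : Finset (Fin G → ι)) {β : Type*} [DecidableEq β]
    (φ : (Fin G → ι) → β) : ℝ :=
  ∑ i ∈ Finset.range G, (energy W φ (fun V => (dig a V i : ℝ)) +
    energy W φ (fun V => (dig b V i : ℝ)))

/-- Half the weighted squared distance of the child means, over the class size. -/
noncomputable def splitMass (a b : ι → ℤ) (S : Finset (Fin G → ι)) (f : (Fin G → ι) → ℤ) : ℝ :=
  (∑ y ∈ S.image f, ∑ z ∈ S.image f, ((S.filter fun V => f V = y).card : ℝ) *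
    ((S.filter fun V => f V = z).card : ℝ) *
    gapMass a b (S.filter fun V => f V = y) (S.filter fun V => f V = z)) / (2 * (S.card : ℝ))

theorem splitMass_nonneg (a b : ι → ℤ) (S : Finset (Fin G → ι)) (f : (Fin G → ι) → ℤ) :
    0 ≤ splitMass a b S f :=
  div_nonneg (Finset.sum_nonneg fun _ _ => Finset.sum_nonneg fun _ _ =>
    mul_nonneg (mul_nonneg (Nat.cast_nonneg _) (Nat.cast_nonneg _)) (gapMass_nonneg a b _ _))
    (mul_nonneg zero_le_two (Nat.cast_nonneg _))

/-- Refining classes along an integer function adds the split masses to the energy. -/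
theorem totalEnergy_split (a b : ι → ℤ) (W : Finset (Fin G → ι)) {β γ : Type*} [DecidableEq β]
    [DecidableEq γ] (φ : (Fin G → ι) → β) (ψ : (Fin G → ι) → γ) (f : (Fin G → ι) → ℤ)
    (href : ∀ V ∈ W, ∀ V' ∈ W, ψ V = ψ V' → φ V = φ V')
    (hcongr : ∀ y, ∀ V ∈ W.filter (fun V => φ V = y), ∀ V' ∈ W.filter (fun V => φ V = y),
      (ψ V = ψ V' ↔ f V = f V')) :
    totalEnergy a b W ψ - totalEnergy a b W φ =
      ∑ y ∈ W.image φ, splitMass a b (W.filter fun V => φ V = y) f := by
  have hx : ∀ x : (Fin G → ι) → ℝ, energy W ψ x - energy W φ x = ∑ y ∈ W.image φ,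
      (∑ z ∈ (W.filter fun V => φ V = y).image f, ∑ z' ∈ (W.filter fun V => φ V = y).image f,
        (((W.filter fun V => φ V = y).filter fun V => f V = z).card : ℝ) *
        (((W.filter fun V => φ V = y).filter fun V => f V = z').card : ℝ) *
        (avg ((W.filter fun V => φ V = y).filter fun V => f V = z) x -
          avg ((W.filter fun V => φ V = y).filter fun V => f V = z') x) ^ 2) /
        (2 * ((W.filter fun V => φ V = y).card : ℝ)) := by
    intro x
    rw [energy, energy,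
      sum_classes_refine W φ ψ href (fun U => (∑ V ∈ U, x V) ^ 2 / (U.card : ℝ)),
      ← Finset.sum_sub_distrib]
    refine Finset.sum_congr rfl fun y hy => ?_
    rw [sum_classes_congr _ ψ f (hcongr y) (fun U => (∑ V ∈ U, x V) ^ 2 / (U.card : ℝ)),
      ← split_energy, mul_div_cancel_left₀]
    obtain ⟨V, hV, rfl⟩ := Finset.mem_image.1 hy
    have hm : V ∈ W.filter (fun x => φ x = φ V) := Finset.mem_filter.2 ⟨hV, rfl⟩
    exact mul_ne_zero two_ne_zero (Nat.cast_ne_zero.2 (Finset.card_pos.2 ⟨V, hm⟩).ne')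
  simp only [totalEnergy, ← Finset.sum_sub_distrib, add_sub_add_comm, hx,
    ← Finset.sum_add_distrib]
  rw [Finset.sum_comm]
  refine Finset.sum_congr rfl fun y _ => ?_
  simp only [splitMass, gapMass, meanGap, ← add_div, ← Finset.sum_div, ← Finset.sum_add_distrib,
    Finset.mul_sum, mul_add]
  congr 1
  rw [Finset.sum_comm]
  exact Finset.sum_congr rfl fun z _ => Finset.sum_comm

/-- Refining classes along an integer function loses at most its variance in entropy. -/
theorem nlogn_split (W : Finset Ω) {β γ : Type*} [DecidableEq β] [DecidableEq γ] (φ : Ω → β)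
    (ψ : Ω → γ) (f : Ω → ℤ) (href : ∀ V ∈ W, ∀ V' ∈ W, ψ V = ψ V' → φ V = φ V')
    (hcongr : ∀ y, ∀ V ∈ W.filter (fun V => φ V = y), ∀ V' ∈ W.filter (fun V => φ V = y),
      (ψ V = ψ V' ↔ f V = f V')) {θ : ℝ} (hθ : 0 < θ) :
    nlogn W φ - nlogn W ψ ≤ 16 / θ * (W.card : ℝ) +
      4 * θ * ∑ y ∈ W.image φ, vari (W.filter fun V => φ V = y) f := by
  have hNy : (W.card : ℝ) = ∑ y ∈ W.image φ, ((W.filter fun V => φ V = y).card : ℝ) := by
    rw [← Nat.cast_sum, ← Finset.card_eq_sum_card_image]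
  rw [nlogn, nlogn, sum_classes_refine W φ ψ href
    (fun U => (U.card : ℝ) * Real.log (U.card : ℝ)), ← Finset.sum_sub_distrib, hNy,
    Finset.mul_sum, Finset.mul_sum, ← Finset.sum_add_distrib]
  refine Finset.sum_le_sum fun y _ => ?_
  rw [sum_classes_congr _ ψ f (hcongr y) (fun U => (U.card : ℝ) * Real.log (U.card : ℝ))]
  exact split_nlogn _ f hθ

end Vale.Agent.P114
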