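import Vale.Agent.P114.Dim.Chebyshev

/-!
# Stationary measures of homogeneous systems on the line
-/

namespace Vale.Agent.P114

open MeasureTheory Filter
open scoped ENNReal Topology

variable {κ : Type*} [Fintype κ]

/-- The translation part of the composition along a word. -/
noncomputable def wordSum (r : ℝ) (c : κ → ℝ) {n : ℕ} (W : Fin n → κ) : ℝ :=
  ∑ j : Fin n, r ^ (j : ℕ) * c (W j)

/-- Stationarity for the maps `x ↦ r x + c i` with weights `q i`, tested on measurable sets. -/
def Stationary (q : κ → ℝ) (r : ℝ) (c : κ → ℝ) (μ : Measure ℝ) : Prop :=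
  ∀ S : Set ℝ, MeasurableSet S →
    μ S = ∑ i, ENNReal.ofReal (q i) * μ ((fun x => r * x + c i) ⁻¹' S)

theorem stationary_iff (q : κ → ℝ) (r : ℝ) (c : κ → ℝ) (μ : Measure ℝ) :
    Stationary q r c μ ↔
      μ = ∑ i, ENNReal.ofReal (q i) • μ.map (fun x => r * x + c i) := by
  have hm : ∀ i, Measurable fun x : ℝ => r * x + c i := fun i => by fun_prop
  have key : ∀ S, MeasurableSet S →
      (∑ i, ENNReal.ofReal (q i) • μ.map (fun x => r * x + c i)) S =
        ∑ i, ENNReal.ofReal (q i) * μ ((fun x => r * x + c i) ⁻¹' S) := fun S hS => by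
    rw [Measure.finsetSum_apply]
    simp [Measure.map_apply (hm _) hS]
  refine ⟨fun h => Measure.ext fun S hS => ?_, fun h S hS => ?_⟩
  · rw [key S hS, ← h S hS]
  · conv_lhs => rw [h]
    exact key S hS

omit [Fintype κ] in
theorem wordSum_cons (r : ℝ) (c : κ → ℝ) {n : ℕ} (i : κ) (W : Fin n → κ) :
    wordSum r c (Fin.cons i W : Fin (n + 1) → κ) = c i + r * wordSum r c W := by
  simp only [wordSum, Fin.sum_univ_succ, Fin.cons_zero, Fin.cons_succ, Fin.val_zero,
    Fin.val_succ, pow_zero, one_mul, Finset.mul_sum, pow_succ']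
  simp [mul_assoc]

theorem Stationary.iterate {q : κ → ℝ} (hq : ∀ i, 0 ≤ q i) {r : ℝ} {c : κ → ℝ} {μ : Measure ℝ}
    (h : Stationary q r c μ) :
    ∀ n : ℕ, Stationary (wordWeight q (n := n)) (r ^ n) (wordSum r c) μ
  | 0 => fun S _ => by simp [wordWeight, wordSum]
  | n + 1 => fun S hS => by
    rw [h S hS, ← (Fin.consEquiv fun _ : Fin (n + 1) => κ).sum_comp, Fintype.sum_prod_type]
    refine Finset.sum_congr rfl fun i _ => ?_
    rw [Stationary.iterate hq h n _ ((by fun_prop : Measurable fun x : ℝ => r * x + c i) hS),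
      Finset.mul_sum]
    refine Finset.sum_congr rfl fun W _ => ?_
    simp only [Fin.consEquiv, Equiv.coe_fn_mk, wordWeight_cons, wordSum_cons,
      ENNReal.ofReal_mul (hq i), mul_assoc]
    congr 3
    ext x
    simp only [Set.mem_preimage]
    rw [show r * (r ^ n * x + wordSum r c W) + c i =
      r ^ (n + 1) * x + (c i + r * wordSum r c W) by ring]

theorem abs_wordSum_add_le {r : ℝ} (hr : 0 ≤ r) {c : κ → ℝ} {R : ℝ}
    (hR : ∀ i, |c i| + r * R ≤ R) :
    ∀ {n : ℕ} (W : Fin n → κ), |wordSum r c W| + r ^ n * R ≤ R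
  | 0, W => by simp [wordSum]
  | n + 1, W => by
    have ih := abs_wordSum_add_le hr hR (Fin.tail W)
    rw [← Fin.cons_self_tail W, wordSum_cons]
    have h1 := abs_add_le (c (W 0)) (r * wordSum r c (Fin.tail W))
    have h2 := mul_le_mul_of_nonneg_left ih hr
    rw [abs_mul, abs_of_nonneg hr] at h1
    rw [pow_succ']
    linarith [hR (W 0)]

/-- The mass of a set is at most the weight of the words whose interval can meet it. -/
theorem Stationary.mass_le {q : κ → ℝ} (hq : ∀ i, 0 ≤ q i) {r : ℝ} {c : κ → ℝ} {μ : Measure ℝ}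
    [IsProbabilityMeasure μ] (h : Stationary q r c μ) {R : ℝ}
    (hsupp : μ {x | R < |x|} = 0) {A : Set ℝ} (hA : MeasurableSet A) (T : Finset κ)
    (hT : ∀ i, i ∉ T → ∀ x, |x| ≤ R → r * x + c i ∉ A) :
    μ A ≤ ENNReal.ofReal (∑ i ∈ T, q i) := by
  classical
  rw [h A hA, ENNReal.ofReal_sum_of_nonneg fun i _ => hq i, ← Finset.sum_subset (Finset.subset_univ T)]
  · exact Finset.sum_le_sum fun i _ => mul_le_of_le_one_right zero_le prob_le_one
  · intro i _ hi
    rw [measure_mono_null (fun x hx => ?_) hsupp, mul_zero]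
    show R < |x|
    by_contra hc
    exact hT i hi x (not_lt.1 hc) hx

/-- A stationary probability measure lives on the invariant interval. -/
theorem Stationary.supp {q : κ → ℝ} (hq : ∀ i, 0 ≤ q i) (h1 : ∑ i, q i = 1) {r : ℝ}
    (hr : 0 < r) (hr1 : r < 1) {c : κ → ℝ} {μ : Measure ℝ} [IsProbabilityMeasure μ]
    (h : Stationary q r c μ) {R : ℝ} (hR : ∀ i, |c i| + r * R ≤ R) :
    μ {x | R < |x|} = 0 := by
  have hunion : {x : ℝ | R < |x|} ⊆ ⋃ k : ℕ, {x | R + 1 / ((k : ℝ) + 1) < |x|} := by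
    intro x hx
    obtain ⟨k, hk⟩ := exists_nat_one_div_lt (sub_pos.2 (show R < |x| from hx))
    exact Set.mem_iUnion.2 ⟨k, show R + 1 / ((k : ℝ) + 1) < |x| by linarith⟩
  refine measure_mono_null hunion (measure_iUnion_null fun k => ?_)
  have hR0 : 0 ≤ R := by
    obtain ⟨i, -, -⟩ := Finset.exists_ne_zero_of_sum_ne_zero (h1.trans_ne one_ne_zero)
    nlinarith [hR i, abs_nonneg (c i)]
  set ε : ℝ := 1 / ((k : ℝ) + 1) with hεd
  have hε : 0 < ε := by positivity
  have hm : ∀ b : ℝ, MeasurableSet {x : ℝ | b < |x|} := fun b =>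
    measurableSet_lt measurable_const (by fun_prop)
  have hle : ∀ n : ℕ, μ {x | R + ε < |x|} ≤ μ {x | ε / r ^ n < |x|} := by
    intro n
    rw [h.iterate hq n _ (hm _)]
    calc _ ≤ ∑ W : Fin n → κ, ENNReal.ofReal (wordWeight q W) * μ {x | ε / r ^ n < |x|} := by
          refine Finset.sum_le_sum fun W _ => ?_
          gcongr
          intro x hx
          have h2 := abs_add_le (r ^ n * x) (wordSum r c W)
          have h3 := abs_wordSum_add_le hr.le hR W
          have h4 : 0 ≤ r ^ n * R := by positivity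
          simp only [Set.mem_preimage, Set.mem_ofPred_eq] at hx ⊢
          rw [abs_mul, abs_of_pos (pow_pos hr n)] at h2
          rw [div_lt_iff₀ (pow_pos hr n)]
          linarith
      _ = μ {x | ε / r ^ n < |x|} := by
          rw [← Finset.sum_mul, ← ENNReal.ofReal_sum_of_nonneg fun W _ => wordWeight_nonneg hq W,
            wordWeight_sum h1 n, ENNReal.ofReal_one, one_mul]
  have hlim : Tendsto (fun n : ℕ => μ {x | ε / r ^ n < |x|}) atTop
      (𝓝 (μ (⋂ n : ℕ, {x | ε / r ^ n < |x|}))) := by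
    refine tendsto_measure_iInter_atTop (fun n => (hm _).nullMeasurableSet) ?_
      ⟨0, measure_ne_top μ _⟩
    intro m n hmn x hx
    simp only [Set.mem_ofPred_eq] at hx ⊢
    exact lt_of_le_of_lt (div_le_div_of_nonneg_left hε.le (pow_pos hr n)
      (pow_le_pow_of_le_one hr.le hr1.le hmn)) hx
  have hempty : (⋂ n : ℕ, {x : ℝ | ε / r ^ n < |x|}) = ∅ := by
    refine Set.eq_empty_of_forall_notMem fun x hx => ?_
    obtain ⟨n, hn⟩ := exists_pow_lt_of_lt_one (show 0 < ε / (|x| + 1) by positivity) hr1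
    have h2 : ε / r ^ n < |x| := Set.mem_iInter.1 hx n
    rw [lt_div_iff₀ (by positivity)] at hn
    rw [div_lt_iff₀ (pow_pos hr n)] at h2
    nlinarith [pow_pos hr n]
  rw [hempty, measure_empty] at hlim
  exact le_antisymm (ge_of_tendsto' hlim hle) zero_le

end Vale.Agent.P114
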