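import Vale.Agent.P114.Main
import Vale.Agent.P114.Dim.Stationary

/-!
# Unique expansions with small digits at a small contraction
-/

namespace Vale.Agent.P114

open Polynomial

theorem abs_aeval_small {lam : ℝ} (h0 : 0 ≤ lam) (h1 : lam ≤ 1 / 2) {M : ℕ} :
    ∀ (n : ℕ) (P : ℤ[X]), (∀ k, n ≤ k → P.coeff k = 0) → (∀ k, (P.coeff k).natAbs ≤ M) →
      |aeval lam P| ≤ 2 * M
  | 0, P, hd, _ => by
    have : P = 0 := Polynomial.ext fun k => by simpa using hd k (Nat.zero_le _)
    simp [this]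
  | n + 1, P, hd, hM => by
    have ih := abs_aeval_small h0 h1 n P.divX
      (fun k hk => by rw [coeff_divX]; exact hd _ (by omega))
      (fun k => by rw [coeff_divX]; exact hM _)
    have hP : aeval lam P = lam * aeval lam P.divX + (P.coeff 0 : ℝ) := by
      conv_lhs => rw [← X_mul_divX_add P]
      simp
    have hc : |((P.coeff 0 : ℤ) : ℝ)| ≤ M := by
      rw [← Int.cast_abs, Int.abs_eq_natAbs]
      exact_mod_cast hM 0
    rw [hP]
    refine (abs_add_le _ _).trans ?_
    rw [abs_mul, abs_of_nonneg h0]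
    have h2 := mul_le_mul h1 ih (abs_nonneg _) (by norm_num : (0 : ℝ) ≤ 1 / 2)
    linarith

theorem trailing_lower {lam : ℝ} (h0 : 0 < lam) {M : ℕ} (hlam : 4 * (M : ℝ) * lam ≤ 1)
    (h1 : lam ≤ 1 / 2) {Z : ℤ[X]} (hM : ∀ k, (Z.coeff k).natAbs ≤ M) {k : ℕ}
    (hk : Z.coeff k ≠ 0) : lam ^ k / 2 ≤ |aeval lam Z| := by
  have hZ : Z ≠ 0 := fun h => hk (by simp [h])
  set e := Z.natTrailingDegree
  have hek : e ≤ k := natTrailingDegree_le_of_ne_zero hk
  obtain ⟨Y, hY⟩ : X ^ e ∣ Z :=
    X_pow_dvd_iff.2 fun i hi => coeff_eq_zero_of_lt_natTrailingDegree hi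
  have hco : ∀ i, Y.coeff i = Z.coeff (i + e) := fun i => by rw [hY, coeff_X_pow_mul]
  have hY0 : Y.coeff 0 ≠ 0 := by
    rw [hco, zero_add]
    exact trailingCoeff_nonzero_iff_nonzero.2 hZ
  have htail := abs_aeval_small h0.le h1 (Y.divX.natDegree + 1) Y.divX
    (fun i hi => coeff_eq_zero_of_natDegree_lt (by omega))
    (fun i => by rw [coeff_divX, hco]; exact hM _)
  have hsplit : aeval lam Y = lam * aeval lam Y.divX + (Y.coeff 0 : ℝ) := by
    conv_lhs => rw [← X_mul_divX_add Y]
    simp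
  have hlow : (1 : ℝ) / 2 ≤ |aeval lam Y| := by
    have hone : (1 : ℝ) ≤ |((Y.coeff 0 : ℤ) : ℝ)| := by
      rw [← Int.cast_abs]
      exact_mod_cast Int.one_le_abs hY0
    have h2 := abs_sub_abs_le_abs_sub ((Y.coeff 0 : ℤ) : ℝ) (-(lam * aeval lam Y.divX))
    rw [sub_neg_eq_add, abs_neg, abs_mul, abs_of_pos h0, add_comm, ← hsplit] at h2
    have h3 := mul_le_mul_of_nonneg_left htail h0.le
    linarith
  rw [hY, map_mul, map_pow, aeval_X, abs_mul, abs_pow, abs_of_pos h0]
  have h4 := mul_le_mul (pow_le_pow_of_le_one h0.le (by linarith) hek) hlow (by norm_num)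
    (by positivity)
  linarith

variable {ι : Type*} [Fintype ι] (a b : ι → ℤ)

/-- The cross combination of a word. -/
noncomputable def crossPoly (P Q : ℤ[X]) {G : ℕ} (u : Fin G → ι) : ℤ[X] :=
  Q * digitPoly a u + P * digitPoly b u

/-- The blockwise concatenation of polynomials. -/
noncomputable def blockSum {m : ℕ} (G : ℕ) (F : Fin m → ℤ[X]) : ℤ[X] :=
  ∑ j : Fin m, X ^ (G * (j : ℕ)) * F j

omit [Fintype ι] in
theorem blockSum_digit_le (c : ι → ℤ) {B : ℕ} (hB : ∀ i, (c i).natAbs ≤ B) {m G : ℕ}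
    (W : Fin m → Fin G → ι) (k : ℕ) :
    ((blockSum G fun j => digitPoly c (W j)).coeff k).natAbs ≤ B := by
  rcases Nat.eq_zero_or_pos G with rfl | hG
  · simp [blockSum, digitPoly]
  simp only [blockSum, finsetSum_coeff, coeff_X_pow_mul', digitPoly_coeff]
  have hne : ∀ j : Fin m, (j : ℕ) ≠ k / G →
      (if G * (j : ℕ) ≤ k then
        (if h : k - G * j < G then c (W j ⟨k - G * j, h⟩) else 0) else 0) = 0 := by
    intro j hj
    split_ifs with h1 h2 <;> try rfl
    exfalso
    refine hj (Nat.div_eq_of_lt_le ?_ ?_).symm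
    · rw [mul_comm]; exact h1
    · rw [add_mul, one_mul, mul_comm (j : ℕ)]; omega
  by_cases hm : k / G < m
  · rw [Finset.sum_eq_single ⟨k / G, hm⟩ (fun j _ hj => hne j fun h => hj (Fin.ext h))
      (fun h => absurd (Finset.mem_univ _) h)]
    split_ifs <;> first | exact hB _ | simp
  · rw [Finset.sum_eq_zero fun j _ => hne j fun h => hm (h ▸ j.2)]
    simp

omit [Fintype ι] in
theorem crossPoly_high (P Q : ℤ[X]) {D G : ℕ} (hP : P.natDegree ≤ D) (hQ : Q.natDegree ≤ D)
    (u : Fin G → ι) {k : ℕ} (hk : G + D ≤ k) : (crossPoly a b P Q u).coeff k = 0 := by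
  have hz : ∀ (Z : ℤ[X]) (c : ι → ℤ), Z.natDegree ≤ D → (Z * digitPoly c u).coeff k = 0 := by
    intro Z c hZ
    rw [coeff_mul]
    refine Finset.sum_eq_zero fun x hx => ?_
    have := Finset.HasAntidiagonal.mem_antidiagonal.mp hx
    rw [digitPoly_coeff]
    by_cases hx2 : x.2 < G
    · rw [coeff_eq_zero_of_natDegree_lt (by omega), zero_mul]
    · rw [dif_neg hx2, mul_zero]
  simp [crossPoly, hz _ _ hP, hz _ _ hQ]

omit [Fintype ι] in
theorem blockSum_window (P Q : ℤ[X]) {D G : ℕ} (hP : P.natDegree ≤ D) (hQ : Q.natDegree ≤ D)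
    {m : ℕ} (W : Fin m → Fin G → ι) (j : Fin m) {i : ℕ} (hi : D ≤ i) (hiG : i < G) :
    (blockSum G fun l => crossPoly a b P Q (W l)).coeff (G * j + i) =
      (crossPoly a b P Q (W j)).coeff i := by
  simp only [blockSum, finsetSum_coeff, coeff_X_pow_mul']
  rw [Finset.sum_eq_single j]
  · simp
  · intro l _ hl
    split_ifs with h
    · refine crossPoly_high a b P Q hP hQ _ ?_
      rcases Nat.lt_or_gt_of_ne (fun h' => hl (Fin.ext h') : (l : ℕ) ≠ j) with h' | h'
      · have : G * (l : ℕ) + G ≤ G * j := by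
          rw [← Nat.mul_succ]; exact Nat.mul_le_mul_left G h'
        omega
      · have : G * (j : ℕ) + G ≤ G * l := by
          rw [← Nat.mul_succ]; exact Nat.mul_le_mul_left G h'
        omega
    · rfl
  · simp

/-- The coefficients of a block that depend on that block only and are fixed by its interval. -/
noncomputable def window (P Q : ℤ[X]) (D K : ℕ) {G : ℕ} (u : Fin G → ι) : Fin G → ℤ :=
  fun k => if D ≤ (k : ℕ) ∧ (k : ℕ) + K < G then (crossPoly a b P Q u).coeff k else 0

omit [Fintype ι] in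
theorem natAbs_cross_le {N B : ℕ} {P Q : ℤ[X]} (hPc : P.support.card ≤ N)
    (hPk : ∀ k, (P.coeff k).natAbs ≤ N) (hQc : Q.support.card ≤ N)
    (hQk : ∀ k, (Q.coeff k).natAbs ≤ N) {A A' : ℤ[X]} (hA : ∀ k, (A.coeff k).natAbs ≤ B)
    (hA' : ∀ k, (A'.coeff k).natAbs ≤ B) (k : ℕ) :
    ((Q * A + P * A').coeff k).natAbs ≤ 2 * (N * (N * B)) := by
  rw [coeff_add]
  have e1 := natAbs_coeff_mul_le hQc hQk hA k
  have e2 := natAbs_coeff_mul_le hPc hPk hA' k
  omega

omit [Fintype ι] in
theorem val_mul_cross {lam t : ℝ} {P Q : ℤ[X]} (hPQ : aeval lam P = t * aeval lam Q) {G : ℕ}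
    (u : Fin G → ι) : val a b lam t u * aeval lam Q = aeval lam (crossPoly a b P Q u) := by
  rw [val_eq, crossPoly, map_add, map_mul, map_mul, hPQ]
  ring

omit [Fintype ι] in
/-- Close points have equal windows in every block. -/
theorem window_separation {B N D G K : ℕ} (hB : ∀ i, (a i).natAbs ≤ B ∧ (b i).natAbs ≤ B)
    {P Q : ℤ[X]} (hPc : P.support.card ≤ N) (hPk : ∀ k, (P.coeff k).natAbs ≤ N)
    (hQc : Q.support.card ≤ N) (hQk : ∀ k, (Q.coeff k).natAbs ≤ N)
    (hP : P.natDegree ≤ D) (hQ : Q.natDegree ≤ D)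
    {lam t : ℝ} (h0 : 0 < lam) (h2 : lam ≤ 1 / 2)
    (hlam : 4 * ((4 * (N * (N * B)) : ℕ) : ℝ) * lam ≤ 1)
    (hPQ : aeval lam P = t * aeval lam Q) {R : ℝ}
    (hK : 2 * (|aeval lam Q| * (1 + 2 * R)) * lam ^ K < 1)
    (m : ℕ) (W W' : Fin m → Fin G → ι) (x x' : ℝ) (hx : |x| ≤ R) (hx' : |x'| ≤ R)
    (hclose : |((lam ^ G) ^ m * x + wordSum (lam ^ G) (val a b lam t) W) -
      ((lam ^ G) ^ m * x' + wordSum (lam ^ G) (val a b lam t) W')| ≤ (lam ^ G) ^ m) :
    ∀ j, window a b P Q D K (W j) = window a b P Q D K (W' j) := by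
  intro j
  funext i
  simp only [window]
  split_ifs with hi
  swap; · rfl
  by_contra hne
  set Z : ℤ[X] := blockSum G (fun l => crossPoly a b P Q (W l)) -
    blockSum G (fun l => crossPoly a b P Q (W' l)) with hZ
  have hbs : ∀ V : Fin m → Fin G → ι, blockSum G (fun l => crossPoly a b P Q (V l)) =
      Q * blockSum G (fun l => digitPoly a (V l)) + P * blockSum G (fun l => digitPoly b (V l)) := by
    intro V
    simp only [blockSum, crossPoly, Finset.mul_sum, ← Finset.sum_add_distrib]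
    exact Finset.sum_congr rfl fun l _ => by ring
  have hZM : ∀ k, (Z.coeff k).natAbs ≤ 4 * (N * (N * B)) := by
    intro k
    rw [hZ, hbs, hbs, coeff_sub]
    have e1 := natAbs_cross_le hPc hPk hQc hQk (blockSum_digit_le a (fun i => (hB i).1) W)
      (blockSum_digit_le b (fun i => (hB i).2) W) k
    have e2 := natAbs_cross_le hPc hPk hQc hQk (blockSum_digit_le a (fun i => (hB i).1) W')
      (blockSum_digit_le b (fun i => (hB i).2) W') k
    omega
  have hZk : Z.coeff (G * j + i) ≠ 0 := by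
    rw [hZ, coeff_sub, blockSum_window a b P Q hP hQ W j hi.1 i.2,
      blockSum_window a b P Q hP hQ W' j hi.1 i.2]
    exact sub_ne_zero.2 hne
  have hev : ∀ V : Fin m → Fin G → ι,
      aeval lam (blockSum G fun l => crossPoly a b P Q (V l)) =
        aeval lam Q * wordSum (lam ^ G) (val a b lam t) V := by
    intro V
    simp only [blockSum, wordSum, map_sum, map_mul, map_pow, aeval_X, Finset.mul_sum]
    refine Finset.sum_congr rfl fun l _ => ?_
    rw [← val_mul_cross a b hPQ, pow_mul]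
    ring
  have hlow := trailing_lower h0 hlam h2 hZM hZk
  rw [hZ, map_sub, hev, hev, ← mul_sub, abs_mul] at hlow
  set S := wordSum (lam ^ G) (val a b lam t) W
  set S' := wordSum (lam ^ G) (val a b lam t) W'
  set r := (lam ^ G) ^ m with hr
  have hr0 : 0 < r := pow_pos (pow_pos h0 G) m
  have hd : |S - S'| ≤ r * (1 + 2 * R) := by
    have h3 := abs_add_le ((r * x + S) - (r * x' + S')) (r * (x' - x))
    rw [show (r * x + S) - (r * x' + S') + r * (x' - x) = S - S' by ring, abs_mul,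
      abs_of_pos hr0] at h3
    have h4 : r * |x' - x| ≤ r * (R + R) :=
      mul_le_mul_of_nonneg_left ((abs_sub _ _).trans (add_le_add hx' hx)) hr0.le
    linarith
  have hexp : r ≤ lam ^ (G * j + i) * lam ^ K := by
    rw [hr, ← pow_mul, ← pow_add]
    refine pow_le_pow_of_le_one h0.le (by linarith) ?_
    have : G * ((j : ℕ) + 1) ≤ G * m := Nat.mul_le_mul_left G j.2
    rw [Nat.mul_succ] at this
    omega
  have hR : 0 ≤ 1 + 2 * R := by linarith [abs_nonneg x]
  have h5 := mul_le_mul_of_nonneg_left (hd.trans (mul_le_mul_of_nonneg_right hexp hR))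
    (abs_nonneg (aeval lam Q))
  have h6 := mul_lt_mul_of_pos_left hK (pow_pos h0 (G * j + i))
  linarith

/-- The window keeps the entropy of the block up to a constant. -/
theorem entropy_window {B N D G K : ℕ} (hB : ∀ i, (a i).natAbs ≤ B ∧ (b i).natAbs ≤ B)
    {P Q : ℤ[X]} (hPc : P.support.card ≤ N) (hPk : ∀ k, (P.coeff k).natAbs ≤ N)
    (hQc : Q.support.card ≤ N) (hQk : ∀ k, (Q.coeff k).natAbs ≤ N)
    (hP : P.natDegree ≤ D) (hQ : Q.natDegree ≤ D)
    {lam t : ℝ} (hQl : aeval lam Q ≠ 0) (hPQ : aeval lam P = t * aeval lam Q)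
    {p : ι → ℝ} (hp : ∀ i, 0 ≤ p i) (h1 : ∑ i, p i = 1) :
    walkEntropy a b p lam t G ≤ entropy (wordWeight p) (window a b P Q D K (G := G)) +
      ((D + D + K : ℕ) : ℝ) * Real.log ((4 * (N * (N * B)) + 1 : ℕ) : ℝ) := by
  classical
  rw [walkEntropy_eq a b hp, ← Real.log_pow]
  refine le_trans (entropy_le_of_factor (wordWeight_nonneg hp) _ (crossPoly a b P Q)
    fun x y h => ?_) ?_
  · refine mul_right_cancel₀ hQl ?_
    rw [val_mul_cross a b hPQ, val_mul_cross a b hPQ, h]
  refine entropy_le_add_log (wordWeight_nonneg hp) (wordWeight_sum h1 G) _ _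
    (fun x y h => by funext k; simp only [window, h]) _ fun x => ?_
  set S : Finset ℕ :=
    (Finset.range (G + D)).filter fun k => ¬(D ≤ k ∧ k + K < G) with hS
  set K' : ℕ := 2 * (N * (N * B)) with hK'
  set T : Finset (S → ℤ) := Fintype.piFinset fun _ => Finset.Icc (-(K' : ℤ)) (K' : ℤ) with hT
  have hSc : S.card ≤ D + D + K := by
    have hsub : S ⊆ Finset.range D ∪ Finset.Ico (G - K) (G + D) := by
      intro k hk
      simp only [hS, Finset.mem_filter, Finset.mem_range] at hk
      simp only [Finset.mem_union, Finset.mem_range, Finset.mem_Ico]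
      omega
    refine (Finset.card_le_card hsub).trans ((Finset.card_union_le _ _).trans ?_)
    simp only [Finset.card_range, Nat.card_Ico]
    omega
  have hTc : T.card ≤ (4 * (N * (N * B)) + 1) ^ (D + D + K) := by
    simp only [hT, Fintype.card_piFinset, Int.card_Icc, Finset.prod_const, Finset.card_univ,
      Fintype.card_coe]
    rw [show ((K' : ℤ) + 1 - -(K' : ℤ)).toNat = 4 * (N * (N * B)) + 1 by omega]
    exact Nat.pow_le_pow_right (by omega) hSc
  rw [← Nat.cast_pow]
  refine Nat.cast_le.mpr (le_trans ?_ hTc)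
  refine Finset.card_le_card_of_injOn (fun F => fun k : S => F.coeff k) ?_ ?_
  · intro F hF
    obtain ⟨y, -, rfl⟩ := Finset.mem_image.mp hF
    simp only [hT, Finset.mem_coe, Fintype.mem_piFinset, Finset.mem_Icc]
    intro k
    have hc : ∀ (c : ι → ℤ), (∀ i, (c i).natAbs ≤ B) → ∀ k,
        ((digitPoly c y).coeff k).natAbs ≤ B := by
      intro c hc k
      rw [digitPoly_coeff]
      split_ifs
      · exact hc _
      · simp
    have := natAbs_cross_le hPc hPk hQc hQk (hc a fun i => (hB i).1) (hc b fun i => (hB i).2)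
      (k : ℕ)
    simp only [crossPoly]
    omega
  · intro F hF F' hF' hFF
    obtain ⟨y, hy, rfl⟩ := Finset.mem_image.mp hF
    obtain ⟨y', hy', rfl⟩ := Finset.mem_image.mp hF'
    simp only [Finset.mem_filter, Finset.mem_univ, true_and] at hy hy'
    ext k
    by_cases hk : k < G + D
    · by_cases hkS : k ∈ S
      · exact congrFun hFF ⟨k, hkS⟩
      · simp only [hS, Finset.mem_filter, Finset.mem_range, hk, true_and, not_not] at hkS
        have := congrFun (hy.trans hy'.symm) ⟨k, by omega⟩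
        simpa [window, hkS] using this
    · rw [crossPoly_high a b P Q hP hQ _ (by omega), crossPoly_high a b P Q hP hQ _ (by omega)]

end Vale.Agent.P114
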