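import Vale.Agent.P114.Dim.Series
import Vale.Agent.P114.Dim.Digits

/-!
# Collapse forces an exact sparse relation
-/

namespace Vale.Agent.P114

open Polynomial

/-- Arbitrarily long nearly vanishing prefixes turn a sparse ratio into an exact value. -/
theorem exact_of_series {B : ℕ} (hB : 1 ≤ B) {lam t Cv Λ : ℝ} (h0 : 0 < lam) (h1 : lam ≤ 1 / 2)
    (hlam : 8 * B * lam ≤ 1) {Ea Eb : ℕ → ℤ}
    (happ : ∀ m, ∃ L, m ≤ L ∧ ∃ Ea' Eb', Witness B lam t Cv Λ L Ea' Eb' ∧
      ∀ k < m, Ea' k = Ea k ∧ Eb' k = Eb k)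
    {N : ℕ} {P Q : ℤ[X]} (hPc : P.support.card ≤ N) (hPk : ∀ k, (P.coeff k).natAbs ≤ N)
    (hQc : Q.support.card ≤ N) (hQk : ∀ k, (Q.coeff k).natAbs ≤ N)
    (hrel : ∀ k, ∑ i ∈ Finset.range (k + 1), Q.coeff i * Ea (k - i) =
      ∑ i ∈ Finset.range (k + 1), P.coeff i * Eb (k - i)) :
    aeval lam (-P) = t * aeval lam Q := by
  classical
  set e : ℝ := aeval lam P + t * aeval lam Q with he
  suffices hsmall : ∀ m : ℕ, |e| ≤
      lam ^ m * (2 * ((N : ℝ) * N * |Cv| + 4 * (2 * ((N : ℝ) * N * (2 * B))))) by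
    have hlim : Filter.Tendsto (fun m : ℕ =>
        lam ^ m * (2 * ((N : ℝ) * N * |Cv| + 4 * (2 * ((N : ℝ) * N * (2 * B))))))
        Filter.atTop (nhds 0) := by
      simpa using (tendsto_pow_atTop_nhds_zero_of_lt_one h0.le (by linarith)).mul_const
        (2 * ((N : ℝ) * N * |Cv| + 4 * (2 * ((N : ℝ) * N * (2 * B)))))
    have := ge_of_tendsto' hlim hsmall
    have he0 : e = 0 := abs_eq_zero.1 (le_antisymm this (abs_nonneg _))
    rw [map_neg]
    linarith
  intro m
  obtain ⟨L, hmL, Ea', Eb', ⟨hg, hEa, hEb, hvalE, -⟩, hag⟩ := happ m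
  set qR : ℝ[X] := rp Q with hqR
  set pR : ℝ[X] := rp P with hpR
  set EA := seriesPoly Ea' L with hEA
  set EB := seriesPoly Eb' L with hEB
  set R : ℝ[X] := qR * EA - pR * EB with hR
  have hev : ∀ Z : ℤ[X], (rp Z).eval lam = aeval lam Z := fun Z => by
    rw [rp, aeval_def, eval_map]; rfl
  have hRz : ∀ k < m, R.coeff k = 0 := by
    intro k hk
    rw [hR, coeff_sub, coeff_mul, coeff_mul,
      Finset.Nat.sum_antidiagonal_eq_sum_range_succ fun i l => qR.coeff i * EA.coeff l,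
      Finset.Nat.sum_antidiagonal_eq_sum_range_succ fun i l => pR.coeff i * EB.coeff l]
    have h2 : ((∑ i ∈ Finset.range (k + 1), Q.coeff i * Ea (k - i) : ℤ) : ℝ) =
        ((∑ i ∈ Finset.range (k + 1), P.coeff i * Eb (k - i) : ℤ) : ℝ) := by rw [hrel k]
    push_cast at h2
    rw [sub_eq_zero]
    refine (Finset.sum_congr rfl fun i _ => ?_).trans (h2.trans
      (Finset.sum_congr rfl fun i _ => ?_))
    · rw [hqR, rp, coeff_map, hEA, seriesPoly_coeff _ (by omega : k - i ≤ L),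
        (hag (k - i) (by omega)).1]
      rfl
    · rw [hpR, rp, coeff_map, hEB, seriesPoly_coeff _ (by omega : k - i ≤ L),
        (hag (k - i) (by omega)).2]
      rfl
  have hEc : ∀ E : ℕ → ℤ, (∀ k, (E k).natAbs ≤ 2 * B) → ∀ k,
      |(seriesPoly E L).coeff k| ≤ 2 * (B : ℝ) := by
    intro E hE k
    rcases lt_or_ge L k with h | h
    · rw [seriesPoly, finsetSum_coeff, Finset.sum_eq_zero fun i hi => by
        rw [coeff_monomial, if_neg (by have := Finset.mem_range.1 hi; omega)], abs_zero]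
      positivity
    · rw [seriesPoly_coeff _ h, ← Int.cast_abs, Int.abs_eq_natAbs]
      exact_mod_cast hE k
  have hprod : ∀ (Z : ℤ[X]) (Y : ℝ[X]), Z.support.card ≤ N → (∀ k, (Z.coeff k).natAbs ≤ N) →
      (∀ k, |Y.coeff k| ≤ 2 * (B : ℝ)) → ∀ k, |(rp Z * Y).coeff k| ≤ (N : ℝ) * N * (2 * B) := by
    intro Z Y hZc hZk hY k
    rw [coeff_mul, Finset.Nat.sum_antidiagonal_eq_sum_range_succ
      fun i l => (rp Z).coeff i * Y.coeff l]
    refine (Finset.abs_sum_le_sum_abs _ _).trans ?_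
    calc _ ≤ ∑ i ∈ Finset.range (k + 1), (if i ∈ Z.support then (N : ℝ) * (2 * B) else 0) := by
          refine Finset.sum_le_sum fun i _ => ?_
          rw [rp, coeff_map]
          by_cases hi : i ∈ Z.support
          · rw [if_pos hi, abs_mul]
            refine mul_le_mul ?_ (hY _) (abs_nonneg _) (Nat.cast_nonneg _)
            simp only [Int.coe_castRingHom]
            rw [← Int.cast_abs, Int.abs_eq_natAbs]
            exact_mod_cast hZk i
          · rw [if_neg hi, notMem_support_iff.1 hi]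
            simp
      _ ≤ _ := by
          rw [← Finset.sum_filter, Finset.sum_const, nsmul_eq_mul, mul_assoc]
          refine mul_le_mul_of_nonneg_right ?_ (by positivity)
          exact_mod_cast (Finset.card_le_card fun i hi => (Finset.mem_filter.1 hi).2).trans hZc
  have hRb : ∀ k, |R.coeff k| ≤ 2 * ((N : ℝ) * N * (2 * B)) := fun k => by
    rw [hR, coeff_sub]
    refine (abs_sub _ _).trans ?_
    linarith [hprod Q EA hQc hQk (hEc Ea' hEa) k, hprod P EB hPc hPk (hEc Eb' hEb) k]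
  have hRev : |R.eval lam| ≤ lam ^ m * (4 * (2 * ((N : ℝ) * N * (2 * B)))) := by
    obtain ⟨n, hn⟩ : ∃ n, R.natDegree < m + n := ⟨R.natDegree + 1, by omega⟩
    rw [eval_eq_sum_range' hn, Finset.sum_range_add,
      Finset.sum_eq_zero (fun k hk => by rw [hRz k (Finset.mem_range.1 hk), zero_mul]), zero_add]
    refine (Finset.abs_sum_le_sum_abs _ _).trans ?_
    calc _ ≤ ∑ i ∈ Finset.range n, lam ^ m * (2 * ((N : ℝ) * N * (2 * B))) * lam ^ i := by
          refine Finset.sum_le_sum fun i _ => ?_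
          rw [abs_mul, abs_pow, abs_of_pos h0, pow_add]
          have := mul_le_mul_of_nonneg_right (hRb (m + i))
            (show 0 ≤ lam ^ m * lam ^ i by positivity)
          linarith
      _ ≤ _ := by
          rw [← Finset.mul_sum]
          have hgeo : ∑ i ∈ Finset.range n, lam ^ i ≤ 2 := by
            rw [geom_sum_eq (by linarith) _, div_le_iff_of_neg (by linarith)]
            have := pow_nonneg h0.le n
            linarith
          have h4 : 0 ≤ lam ^ m * (2 * ((N : ℝ) * N * (2 * B))) := by positivity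
          have := mul_le_mul_of_nonneg_left hgeo h4
          linarith
  have hlow : 1 / 2 ≤ |EB.eval lam| := by
    have h := eval_trailing h0 h1 EB 0 (2 * B) (fun k hk => absurd hk (Nat.not_lt_zero k))
      (hEc Eb' hEb)
    rw [hEB, seriesPoly_coeff _ (Nat.zero_le _), pow_zero, one_mul] at h
    have hone : (1 : ℝ) ≤ |(Eb' 0 : ℝ)| := by
      rw [← Int.cast_abs]
      exact_mod_cast Int.one_le_abs hg
    rw [← hEB] at h
    linarith
  have hsplit : e * EB.eval lam =
      aeval lam Q * (EA.eval lam + t * EB.eval lam) - R.eval lam := by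
    rw [hR, eval_sub, eval_mul, eval_mul, hqR, hpR, hev, hev, he]
    ring
  have hQev := abs_aeval_le h0.le (by linarith : lam ≤ 1) hQc hQk
  have h5 : |e * EB.eval lam| ≤
      lam ^ m * ((N : ℝ) * N * |Cv| + 4 * (2 * ((N : ℝ) * N * (2 * B)))) := by
    rw [hsplit]
    refine (abs_sub _ _).trans ?_
    rw [abs_mul]
    have h7 := mul_le_mul hQev hvalE (abs_nonneg _) (by positivity)
    have h8 : Cv * lam ^ L ≤ |Cv| * lam ^ m := by
      refine (mul_le_mul_of_nonneg_right (le_abs_self Cv) (by positivity)).trans ?_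
      exact mul_le_mul_of_nonneg_left (pow_le_pow_of_le_one h0.le (by linarith) hmL)
        (abs_nonneg _)
    have h9 := mul_le_mul_of_nonneg_left h8 (show 0 ≤ (N : ℝ) * N by positivity)
    linarith
  rw [abs_mul] at h5
  have h10 := mul_le_mul_of_nonneg_left hlow (abs_nonneg e)
  linarith

/-- **Exact relation from collapse.** -/
theorem exact_of_collapse {η K : ℝ} (hη : 0 < η) (hK : 0 ≤ K) {B : ℕ} (hB : 1 ≤ B) :
    ∃ (N : ℕ) (lam1 : ℝ), 0 < lam1 ∧ ∀ {ι : Type} [Fintype ι] (a b : ι → ℤ),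
      (∀ x, (a x).natAbs ≤ B) → (∀ x, (b x).natAbs ≤ B) →
      Function.Injective (fun i => (a i, b i)) → ∀ lam t : ℝ, 0 < lam → lam < lam1 → |t| ≤ 1 →
      Collapse a b lam t η K →
      ∃ P Q : ℤ[X], P.support.card ≤ N ∧ (∀ k, (P.coeff k).natAbs ≤ N) ∧
        Q.support.card ≤ N ∧ (∀ k, (Q.coeff k).natAbs ≤ N) ∧
        aeval lam Q ≠ 0 ∧ aeval lam P = t * aeval lam Q := by
  have hB' : (1 : ℝ) ≤ B := by exact_mod_cast hB
  set θ : ℝ := 128 / η with hθd
  set Λ : ℝ := 256 * θ * (B : ℝ) ^ 4 / η + 1 with hΛd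
  have hθ : 0 < θ := by positivity
  have hΛ : 1 ≤ Λ := by
    rw [hΛd]
    have : 0 ≤ 256 * θ * (B : ℝ) ^ 4 / η := by positivity
    linarith
  obtain ⟨N, hN⟩ := sparse_series Λ hΛ
  set Cv : ℝ := 2 * K + 8 * B with hCvd
  set X0 : ℝ := 512 * θ * (B : ℝ) ^ 2 * (4 * (B : ℝ) ^ 2 * (1024 * (B : ℝ) ^ 4) + 1) * Λ * 8 / η
    with hX0d
  have hX00 : 0 ≤ X0 := by positivity
  set X : ℝ := X0 + 1 with hX
  set lam1 : ℝ := min (1 / 2) (min (1 / (32 * B * Cv))
    (min (1 / X) (min (1 / (8 * B)) (1 / (4 * (N : ℝ) + 1))))) with hlam1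
  have hCv0 : 0 < Cv := by rw [hCvd]; linarith
  refine ⟨N, lam1, by rw [hlam1]; positivity,
    fun {ι} _ a b ha hb hab lam t h0 hlt ht hcol => ?_⟩
  obtain ⟨hl1, hl2, hl3, hl4, hl5⟩ : lam < 1 / 2 ∧ lam < 1 / (32 * B * Cv) ∧ lam < 1 / X ∧
      lam < 1 / (8 * B) ∧ lam < 1 / (4 * (N : ℝ) + 1) := by
    simpa [hlam1] using hlt
  rw [lt_div_iff₀ (by positivity)] at hl2 hl3 hl4 hl5
  have hstep : ∀ (L : ℕ) (Ea Eb : ℕ → ℤ), Witness B lam t Cv Λ L Ea Eb →
      ∃ Ea' Eb', Witness B lam t Cv Λ (L + 1) Ea' Eb' := by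
    refine witness_step a b hB ha hb hab h0 hl1.le ht hK hCvd (by linarith) hη hθ
      (by rw [hθd, div_div_eq_mul_div, div_le_iff₀ (by norm_num)]; linarith) (by linarith) ?_ ?_
      hcol
    · rw [div_le_iff₀ (by linarith)]
      have : η / 8 * (256 * θ * (B : ℝ) ^ 4 / η) = 32 * θ * (B : ℝ) ^ 4 := by
        field_simp
        norm_num
      rw [hΛd]
      linarith [mul_add (η / 8) (256 * θ * (B : ℝ) ^ 4 / η) 1]
    · have h2 : lam ^ 2 * X ≤ 1 := by
        have : lam * (lam * X) ≤ 1 * 1 := mul_le_mul (by linarith) hl3.le (by positivity) zero_le_one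
        linarith [show lam ^ 2 * X = lam * (lam * X) by ring]
      have h3 : 512 * θ * (B : ℝ) ^ 2 * (4 * (B : ℝ) ^ 2 * (1024 * (B : ℝ) ^ 4) + 1) * lam ^ 2 * Λ
          = η / 8 * (lam ^ 2 * X0) := by
        rw [hX0d]
        field_simp
      rw [h3]
      refine mul_le_of_le_one_right (by positivity) (le_trans ?_ h2)
      exact mul_le_mul_of_nonneg_left (by rw [hX]; linarith) (sq_nonneg _)
  have hall : ∀ L, ∃ Ea Eb : ℕ → ℤ, Witness B lam t Cv Λ L Ea Eb := by
    intro L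
    induction L with
    | zero => exact ⟨_, _, witness_zero hB ht (by linarith : 1 ≤ Cv) hΛ⟩
    | succ L ih =>
      obtain ⟨Ea, Eb, h⟩ := ih
      exact hstep L Ea Eb h
  obtain ⟨Ea, Eb, g, hEb0, hg0, hgb, happ⟩ := exists_limit hall
  obtain ⟨P, Q, hQ, hPc, hPk, hQc, hQk, hrel⟩ := hN Ea Eb g hEb0 hg0 hgb
  refine ⟨-P, Q, by rw [support_neg]; exact hPc,
    fun k => by rw [coeff_neg, Int.natAbs_neg]; exact hPk k, hQc, hQk, ?_,
    exact_of_series hB h0 hl1.le (by linarith) happ hPc hPk hQc hQk hrel⟩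
  intro hz
  have h4N : 4 * (N : ℝ) * lam ≤ 1 := by nlinarith
  obtain ⟨k, hk⟩ : ∃ k, Q.coeff k ≠ 0 := by
    by_contra hc
    push Not at hc
    exact hQ (Polynomial.ext fun k => by simpa using hc k)
  have := trailing_lower h0 h4N hl1.le hQk hk
  rw [hz, abs_zero] at this
  have := pow_pos h0 k
  linarith

end Vale.Agent.P114
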