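import Vale.Agent.P114.Dim.Stationary

/-!
# Existence of the stationary measure
-/

namespace Vale.Agent.P114

open MeasureTheory Filter
open scoped ENNReal Topology

variable {ι : Type*} [Fintype ι]

theorem summable_geometric_digits {r : ℝ} (hr : 0 ≤ r) (hr1 : r < 1) (c : ι → ℝ) (x : ℕ → ι) :
    Summable fun k => r ^ k * c (x k) := by
  refine Summable.of_norm_bounded (g := fun k => r ^ k * ∑ i, |c i|)
    ((summable_geometric_of_lt_one hr hr1).mul_right _) fun k => ?_
  rw [Real.norm_eq_abs, abs_mul, abs_pow, abs_of_nonneg hr]
  refine mul_le_mul_of_nonneg_left ?_ (pow_nonneg hr k)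
  exact Finset.single_le_sum (f := fun i => |c i|) (fun i _ => abs_nonneg _) (Finset.mem_univ _)

theorem exists_stationary {p : ι → ℝ} (hp : ∀ i, 0 ≤ p i) (h1 : ∑ i, p i = 1) {r : ℝ}
    (hr : 0 ≤ r) (hr1 : r < 1) (c : ι → ℝ) :
    ∃ μ : Measure ℝ, IsProbabilityMeasure μ ∧ Stationary p r c μ := by
  classical
  let _ : MeasurableSpace ι := ⊤
  have hdisc : DiscreteMeasurableSpace ι := ⟨fun _ => trivial⟩
  set ν : Measure ι := ∑ i, ENNReal.ofReal (p i) • Measure.dirac i with hν
  have hνp : IsProbabilityMeasure ν := ⟨by
    rw [hν, Measure.finsetSum_apply]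
    simp [← ENNReal.ofReal_sum_of_nonneg fun i _ => hp i, h1]⟩
  set P : Measure (ℕ → ι) := Measure.infinitePi fun _ => ν with hP
  set π : (ℕ → ι) → ℝ := fun x => ∑' k, r ^ k * c (x k) with hπ
  have hπm : Measurable π := by
    refine measurable_of_tendsto_metrizable
      (f := fun n x => ∑ k ∈ Finset.range n, r ^ k * c (x k))
      (fun n => Finset.measurable_sum _ fun k _ => ?_)
      (tendsto_pi_nhds.2 fun x => ?_)
    · have hc : Measurable fun x : ℕ → ι => c (x k) :=
        (Measurable.of_discrete : Measurable c).comp (measurable_pi_apply (X := fun _ : ℕ => ι) k)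
      exact hc.const_mul _
    exact (summable_geometric_digits hr hr1 c x).hasSum.tendsto_sum_nat
  set T : ι × (ℕ → ι) → (ℕ → ι) := fun z k => Nat.casesOn k z.1 fun j => z.2 j with hT
  have hTm : Measurable T := by
    refine measurable_pi_lambda _ fun k => ?_
    cases k with
    | zero => exact measurable_fst
    | succ j => exact (measurable_pi_apply j).comp measurable_snd
  have hmap : (ν.prod P).map T = P := by
    refine Measure.eq_infinitePi _ fun s t ht => ?_
    set s' : Finset ℕ := s.preimage Nat.succ (Nat.succ_injective.injOn) with hs'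
    have hpre : T ⁻¹' Set.pi s t =
        (if 0 ∈ s then t 0 else Set.univ) ×ˢ Set.pi s' (fun k => t (k + 1)) := by
      ext ⟨i, x⟩
      simp only [Set.mem_preimage, Set.mem_pi, Finset.mem_coe, Set.mem_prod, hs',
        Finset.mem_preimage]
      constructor
      · intro h
        refine ⟨?_, fun k hk => h (k + 1) hk⟩
        split_ifs with h0
        · exact h 0 h0
        · trivial
      · rintro ⟨ha, hb⟩ k hk
        cases k with
        | zero =>
          rw [if_pos hk] at ha
          exact ha
        | succ j => exact hb j hk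
    rw [Measure.map_apply hTm (MeasurableSet.pi s.countable_toSet fun i _ => ht i), hpre,
      Measure.prod_prod, hP, Measure.infinitePi_pi _ (fun i _ => ht _)]
    by_cases h0 : 0 ∈ s
    · have hins : s = insert 0 (s'.image Nat.succ) := by
        ext k
        cases k with
        | zero => simp [h0]
        | succ j => simp [hs']
      rw [if_pos h0]
      conv_rhs => rw [hins]
      rw [Finset.prod_insert (by simp), Finset.prod_image Nat.succ_injective.injOn]
    · have hins : s = s'.image Nat.succ := by
        ext k
        cases k with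
        | zero => simp [h0]
        | succ j => simp [hs']
      rw [if_neg h0, measure_univ, one_mul]
      conv_rhs => rw [hins]
      rw [Finset.prod_image Nat.succ_injective.injOn]
  refine ⟨P.map π, Measure.isProbabilityMeasure_map hπm.aemeasurable, fun S hS => ?_⟩
  have hkey : ∀ (i : ι) (x : ℕ → ι), π (T (i, x)) = r * π x + c i := by
    intro i x
    simp only [hπ]
    rw [(summable_geometric_digits hr hr1 c _).tsum_eq_zero_add, ← tsum_mul_left, add_comm]
    congr 1
    · exact tsum_congr fun k => by
        show r ^ (k + 1) * c (x k) = r * (r ^ k * c (x k))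
        ring
    · show r ^ 0 * c i = c i
      simp
  have hf : ∀ i, Measurable fun x : ℝ => r * x + c i := fun i => by fun_prop
  conv_lhs => rw [Measure.map_apply hπm hS, ← hmap, Measure.map_apply hTm (hπm hS)]
  rw [Measure.prod_apply (hTm (hπm hS)), hν, lintegral_finsetSum_measure]
  refine Finset.sum_congr rfl fun i _ => ?_
  rw [lintegral_smul_measure, lintegral_dirac, Measure.map_apply hπm (hf i hS), smul_eq_mul]
  congr 2
  ext x
  simp [hkey]

end Vale.Agent.P114
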