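import Vale.Agent.P114.Dim.Bounds
import Vale.Agent.P114.Dim.Digits
import Vale.Agent.P114.Dim.Existence

/-!
# The dimension formula at small transcendental contractions with definite overlap
-/

namespace Vale.Agent.P114

open MeasureTheory Polynomial
open scoped ENNReal

variable {ι : Type*} [Fintype ι] (a b : ι → ℤ)

theorem formal_entropy_inj (hab : Function.Injective fun i => (a i, b i)) (p : ι → ℝ)
    (hp : ∀ i, 0 ≤ p i) (h1 : ∑ i, p i = 1) (n : ℕ) :
    entropy (wordWeight p (n := n)) (fun w => (digitPoly a w, digitPoly b w)) =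
      n * ∑ i, Real.negMulLog (p i) := by
  classical
  have hinj : ∀ {n : ℕ} (w w' : Fin n → ι), w = w' ↔
      (digitPoly a w, digitPoly b w) = (digitPoly a w', digitPoly b w') := by
    intro n w w'
    refine ⟨fun h => by rw [h], fun h => ?_⟩
    simp only [Prod.mk.injEq] at h
    funext i
    have ha := congrArg (fun P : ℤ[X] => P.coeff i) h.1
    have hb := congrArg (fun P : ℤ[X] => P.coeff i) h.2
    simp only [digitPoly_coeff, dif_pos i.2, Fin.eta] at ha hb
    exact hab (Prod.ext ha hb)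
  rw [entropy_congr (wordWeight_nonneg hp) _ (fun w : Fin n → ι => w) hinj]
  induction n with
  | zero => simp [entropy, wordWeight, Finset.filter_singleton]
  | succ n ih =>
    have hid : entropy p (fun i : ι => i) = ∑ i, Real.negMulLog (p i) := by
      rw [entropy_eq_sum]
      refine Finset.sum_congr rfl fun x _ => ?_
      rw [fib_eq, Finset.sum_eq_single x]
      · rw [Real.negMulLog, neg_mul]
      · intro y hy hne
        exact absurd (Finset.mem_filter.1 hy).2 hne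
      · simp
    rw [← entropy_equiv (Fin.consEquiv fun _ : Fin (n + 1) => ι)]
    have hw : ∀ q : ι × (Fin n → ι), wordWeight p
        ((Fin.consEquiv fun _ : Fin (n + 1) => ι) q) = p q.1 * wordWeight p q.2 := by
      intro q
      simp [wordWeight, Fin.prod_univ_succ]
    simp only [hw]
    rw [entropy_congr (fun q => mul_nonneg (hp _) (wordWeight_nonneg hp _)) _
      (fun q : ι × (Fin n → ι) => (q.1, q.2)) (fun q q' => by simp),
      entropy_prod hp (wordWeight_nonneg hp) h1 (wordWeight_sum h1 n) (fun i => i) (fun w => w),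
      hid, ih]
    push_cast
    ring

theorem hRW_nonneg {p : ι → ℝ} (hp : ∀ i, 0 ≤ p i) (h1 : ∑ i, p i = 1) (lam t : ℝ) :
    0 ≤ hRW a b p lam t :=
  le_ciInf fun _ => div_nonneg (walkEntropy_nonneg a b hp h1 lam t _) (by positivity)

theorem hRW_le_entropy (hab : Function.Injective fun i => (a i, b i)) {p : ι → ℝ}
    (hp : ∀ i, 0 ≤ p i) (h1 : ∑ i, p i = 1) (lam t : ℝ) :
    hRW a b p lam t ≤ ∑ i, Real.negMulLog (p i) := by
  have h := hRW_le a b hp h1 lam t (n := 1) le_rfl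
  rw [Nat.cast_one, mul_one] at h
  refine h.trans ?_
  have h2 := formal_entropy_inj a b hab p hp h1 1
  rw [Nat.cast_one, one_mul] at h2
  rw [← h2, walkEntropy_eq a b hp]
  refine entropy_le_of_factor (wordWeight_nonneg hp) _ _ fun x y hxy => ?_
  simp only [Prod.mk.injEq] at hxy
  rw [val_eq, val_eq, hxy.1, hxy.2]

/-- The trivial invariant interval of a system. -/
noncomputable def radius (lam t : ℝ) : ℝ :=
  (∑ i, |(a i : ℝ) + (b i : ℝ) * t|) / (1 - lam)

theorem radius_spec {lam : ℝ} (h1 : lam < 1) (t : ℝ) (i : ι) :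
    |(a i : ℝ) + (b i : ℝ) * t| + lam * radius a b lam t ≤ radius a b lam t := by
  have h2 : ∑ i, |(a i : ℝ) + (b i : ℝ) * t| = radius a b lam t * (1 - lam) := by
    rw [radius, div_mul_cancel₀ _ (by linarith : (1 - lam) ≠ 0)]
  have h3 : |(a i : ℝ) + (b i : ℝ) * t| ≤ ∑ i, |(a i : ℝ) + (b i : ℝ) * t| :=
    Finset.single_le_sum (f := fun i => |(a i : ℝ) + (b i : ℝ) * t|) (fun i _ => abs_nonneg _)
      (Finset.mem_univ i)
  nlinarith

theorem radius_nonneg {lam : ℝ} (h1 : lam < 1) (t : ℝ) : 0 ≤ radius a b lam t :=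
  div_nonneg (Finset.sum_nonneg fun _ _ => abs_nonneg _) (by linarith)

/-- The general upper bound. -/
theorem dim_le_rate {p : ι → ℝ} (hp : ∀ i, 0 < p i) (h1 : ∑ i, p i = 1) {lam : ℝ}
    (h0 : 0 < lam) (hlt1 : lam < 1) (t : ℝ) {μ : Measure ℝ} [IsProbabilityMeasure μ]
    (hμ : Stationary p lam (fun i => (a i : ℝ) + (b i : ℝ) * t) μ) :
    (⨅ (E : Set ℝ) (_ : MeasurableSet E) (_ : 0 < μ E), dimH E) ≤
      ENNReal.ofReal (hRW a b p lam t / -Real.log lam) := by
  have hp' := fun i => (hp i).le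
  have hh0 := hRW_nonneg a b hp' h1 lam t
  have hL0 : 0 < -Real.log lam := neg_pos.2 (Real.log_neg h0 hlt1)
  refine le_of_forall_gt_imp_ge_of_dense fun y hy => ?_
  rcases eq_or_ne y ∞ with rfl | hy'
  · exact le_top
  set s : ℝ := y.toReal with hs
  have hsh : hRW a b p lam t / -Real.log lam < s := by
    rw [← ENNReal.ofReal_toReal hy',
      ENNReal.ofReal_lt_ofReal_iff_of_nonneg (div_nonneg hh0 hL0.le)] at hy
    exact hy
  have hs0 : 0 < s := lt_of_le_of_lt (div_nonneg hh0 hL0.le) hsh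
  rw [div_lt_iff₀ hL0] at hsh
  obtain ⟨k, hk⟩ := exists_lt_of_ciInf_lt hsh
  rw [div_lt_iff₀ (by positivity : (0 : ℝ) < (k : ℝ) + 1)] at hk
  set G : ℕ := k + 1 with hG
  have hGr : (G : ℝ) = (k : ℝ) + 1 := by rw [hG]; push_cast; rfl
  have hent : entropy (wordWeight p) (val a b lam t (n := G)) < s * -Real.log (lam ^ G) := by
    rw [Real.log_pow, hGr, ← walkEntropy_eq a b hp']
    linarith
  obtain ⟨E, hEm, hEp, hEd⟩ := dim_upper (fun u => Finset.prod_pos fun i _ => hp (u i))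
    (wordWeight_sum h1 G) (pow_pos h0 G) (pow_lt_one₀ h0.le hlt1 (by omega)) (hμ.iterate hp' G)
    (radius_nonneg a b hlt1 t)
    (fun u => abs_wordSum_add_le h0.le (radius_spec a b hlt1 t) u) hs0 hent
  refine iInf_le_of_le E (iInf_le_of_le hEm (iInf_le_of_le hEp ?_))
  rwa [hs, ENNReal.ofReal_toReal hy'] at hEd

/-- An exact sparse relation gives the lower bound at small contraction. -/
theorem rate_le_dim {p : ι → ℝ} (hp : ∀ i, 0 < p i) (h1 : ∑ i, p i = 1) {B N : ℕ}
    (hB : ∀ i, (a i).natAbs ≤ B ∧ (b i).natAbs ≤ B) {lam : ℝ} (h0 : 0 < lam) (h2 : lam ≤ 1 / 2)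
    (hlam : 4 * ((4 * (N * (N * B)) : ℕ) : ℝ) * lam ≤ 1) {t : ℝ} {P Q : ℤ[X]}
    (hPc : P.support.card ≤ N) (hPk : ∀ k, (P.coeff k).natAbs ≤ N) (hQc : Q.support.card ≤ N)
    (hQk : ∀ k, (Q.coeff k).natAbs ≤ N) (hQl : aeval lam Q ≠ 0)
    (hPQ : aeval lam P = t * aeval lam Q) {μ : Measure ℝ} [IsProbabilityMeasure μ]
    (hμ : Stationary p lam (fun i => (a i : ℝ) + (b i : ℝ) * t) μ) {E : Set ℝ} (hEp : 0 < μ E)
    {s : ℝ} (hs0 : 0 ≤ s) (hsh : s * -Real.log lam < hRW a b p lam t) :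
    ENNReal.ofReal s ≤ dimH E := by
  have hp' := fun i => (hp i).le
  have hlt1 : lam < 1 := by linarith
  set h : ℝ := hRW a b p lam t with hh
  set L : ℝ := -Real.log lam with hL
  set R := radius a b lam t
  set D : ℕ := max P.natDegree Q.natDegree with hD
  set Cq : ℝ := 2 * (|aeval lam Q| * (1 + 2 * R)) with hCq
  have hR0 : 0 ≤ R := radius_nonneg a b hlt1 t
  obtain ⟨K, hK⟩ := exists_pow_lt_of_lt_one (show 0 < 1 / (Cq + 1) by positivity) hlt1
  have hK' : Cq * lam ^ K < 1 := by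
    rw [lt_div_iff₀ (by positivity)] at hK
    nlinarith [pow_pos h0 K]
  set C : ℝ := ((D + D + K : ℕ) : ℝ) * Real.log ((4 * (N * (N * B)) + 1 : ℕ) : ℝ) with hC
  obtain ⟨G, hG⟩ := exists_nat_gt (max (C / (h - s * L)) 1)
  have hG1' : 1 ≤ G := by
    have : (1 : ℝ) < G := lt_of_le_of_lt (le_max_right _ _) hG
    exact_mod_cast this.le
  have hgap : C < (G : ℝ) * (h - s * L) :=
    (div_lt_iff₀ (by linarith)).1 (lt_of_le_of_lt (le_max_left _ _) hG)
  have hw := entropy_window a b (G := G) (K := K) hB hPc hPk hQc hQk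
    (le_max_left _ _ : P.natDegree ≤ D) (le_max_right _ _ : Q.natDegree ≤ D) hQl hPQ hp' h1
  have hent : s * -Real.log (lam ^ G) <
      entropy (wordWeight p) (window a b P Q D K (G := G)) := by
    rw [Real.log_pow]
    have := hRW_le a b hp' h1 lam t hG1'
    rw [hL] at hgap
    nlinarith
  exact dim_lower (fun u => Finset.prod_pos fun i _ => hp (u i)) (wordWeight_sum h1 G)
    (pow_pos h0 G) (pow_lt_one₀ h0.le hlt1 (by omega)) (hμ.iterate hp' G)
    (fun u => abs_wordSum_add_le h0.le (radius_spec a b hlt1 t) u) (window a b P Q D K)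
    (fun m W W' x x' => window_separation a b hB hPc hPk hQc hQk (le_max_left _ _)
      (le_max_right _ _) h0 h2 hlam hPQ hK' m W W' x x')
    hs0 hent hEp

theorem dimension_formula (hab : Function.Injective fun i => (a i, b i)) {p : ι → ℝ}
    (hp : ∀ i, 0 < p i) (h1 : ∑ i, p i = 1) {η : ℝ} (hη : η < ∑ i, Real.negMulLog (p i)) :
    ∃ lam0 : ℝ, 0 < lam0 ∧ ∀ lam : ℝ, 0 < lam → lam < lam0 → Transcendental ℚ lam →
      ∀ t : ℝ, hRW a b p lam t ≤ η →
        (∃ μ : Measure ℝ, IsProbabilityMeasure μ ∧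
          μ = ∑ i, ENNReal.ofReal (p i) •
            μ.map (fun x => lam * x + ((a i : ℝ) + (b i : ℝ) * t))) ∧
        ∀ μ : Measure ℝ, IsProbabilityMeasure μ →
          μ = ∑ i, ENNReal.ofReal (p i) •
            μ.map (fun x => lam * x + ((a i : ℝ) + (b i : ℝ) * t)) →
          (⨅ (E : Set ℝ) (_ : MeasurableSet E) (_ : 0 < μ E), dimH E) =
            ENNReal.ofReal (min 1 (hRW a b p lam t / -Real.log lam)) := by
  classical
  have hp' := fun i => (hp i).le
  set δ : ℝ := (∑ i, Real.negMulLog (p i) - η) / 2 with hδ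
  have hδ0 : 0 < δ := by rw [hδ]; linarith
  obtain ⟨N, hN⟩ := collapse_relation a b p hp' h1 hδ0
  set B : ℕ := Finset.univ.sup fun i => (a i).natAbs + (b i).natAbs with hBdef
  have hB : ∀ i, (a i).natAbs ≤ B ∧ (b i).natAbs ≤ B := fun i => by
    have := Finset.le_sup (f := fun i => (a i).natAbs + (b i).natAbs) (Finset.mem_univ i)
    constructor <;> omega
  set M : ℕ := 4 * (N * (N * B)) with hM
  set lam0 : ℝ := min (1 / 2) (min (1 / (4 * (M : ℝ) + 1)) (Real.exp (-max η 1))) with hlam0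
  refine ⟨lam0, by rw [hlam0]; positivity, fun lam h0 hlt htr t ht => ?_⟩
  obtain ⟨hl1, hl2, hl3⟩ : lam < 1 / 2 ∧ lam < 1 / (4 * (M : ℝ) + 1) ∧
      lam < Real.exp (-max η 1) := by
    simpa [hlam0] using hlt
  have hlt1 : lam < 1 := by linarith
  set L : ℝ := -Real.log lam with hL
  have hLη : max η 1 < L := by
    rw [hL, lt_neg]
    exact (Real.log_lt_iff_lt_exp h0).2 hl3
  have hL0 : 0 < L := by linarith [le_max_right η 1]
  set h : ℝ := hRW a b p lam t with hh
  have hh0 : 0 ≤ h := hRW_nonneg a b hp' h1 lam t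
  have hmin : min 1 (h / L) = h / L :=
    min_eq_right ((div_le_one hL0).2 (by linarith [le_max_left η 1]))
  set d : ι → ℝ := fun i => (a i : ℝ) + (b i : ℝ) * t with hd
  constructor
  · obtain ⟨μ, hμp, hμ⟩ := exists_stationary hp' h1 h0.le hlt1 d
    exact ⟨μ, hμp, (stationary_iff p lam d μ).1 hμ⟩
  intro μ hμp hμeq
  have hμ : Stationary p lam d μ := (stationary_iff p lam d μ).2 hμeq
  rw [hmin]
  refine le_antisymm (dim_le_rate a b hp h1 h0 hlt1 t hμ)
    (le_iInf fun E => le_iInf fun _ => le_iInf fun hEp =>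
      le_of_forall_lt_imp_le_of_dense fun y hy => ?_)
  have hy' : y ≠ ∞ := ne_top_of_lt hy
  rw [← ENNReal.ofReal_toReal hy']
  have hsh : y.toReal < h / L := (ENNReal.lt_ofReal_iff_toReal_lt hy').1 hy
  rw [lt_div_iff₀ hL0] at hsh
  obtain ⟨k, hk⟩ := exists_lt_of_ciInf_lt (show h < η + δ by linarith)
  rw [div_lt_iff₀ (by positivity : (0 : ℝ) < (k : ℝ) + 1)] at hk
  obtain ⟨P, Q, hQ, ⟨hPc, hPk, -⟩, ⟨hQc, hQk, -⟩, hPQ⟩ := hN lam t htr (k + 1) (by omega) (by
    rw [formal_entropy_inj a b hab p hp' h1]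
    push_cast
    have : η + δ + δ = ∑ i, Real.negMulLog (p i) := by rw [hδ]; ring
    nlinarith)
  have hM1 : 4 * ((4 * (N * (N * B)) : ℕ) : ℝ) * lam ≤ 1 := by
    rw [lt_div_iff₀ (by positivity)] at hl2
    rw [← hM]
    nlinarith
  exact rate_le_dim a b hp h1 hB h0 hl1.le hM1 hPc hPk hQc hQk
    (fun h' => hQ (aeval_int_eq_zero htr h')) hPQ hμ hEp ENNReal.toReal_nonneg hsh

end Vale.Agent.P114
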