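import Vale.Agent.P114.Dim.Bounds

/-!
# Few near coincidences give a lower dimension bound
-/

namespace Vale.Agent.P114

open MeasureTheory Filter
open scoped ENNReal

variable {κ : Type*} [Fintype κ]

theorem dim_of_count {q : κ → ℝ} (hq : ∀ i, 0 < q i) (h1 : ∑ i, q i = 1) {r : ℝ}
    (hr : 0 < r) (hr1 : r < 1) {c : κ → ℝ} {μ : Measure ℝ} [IsProbabilityMeasure μ]
    (h : Stationary q r c μ) {R : ℝ} (hR : ∀ i, |c i| + r * R ≤ R) {η : ℝ} {m₁ : ℕ}
    (hcount : ∀ m, m₁ ≤ m → ∀ F : Finset (Fin m → κ),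
      (∀ W ∈ F, ∀ W' ∈ F, |wordSum r c W - wordSum r c W'| ≤ (1 + 2 * R) * r ^ m) →
      (F.card : ℝ) ≤ Real.exp (η * m))
    {s : ℝ} (hs0 : 0 ≤ s) (hs : s * -Real.log r < ∑ i, Real.negMulLog (q i) - η)
    {E : Set ℝ} (hμE : 0 < μ E) :
    ENNReal.ofReal s ≤ dimH E := by
  classical
  have hq' := fun i => (hq i).le
  have hsupp := h.supp hq' h1 hr hr1 hR
  set f : κ → ℝ := fun i => -Real.log (q i) with hf
  set H : ℝ := ∑ i, Real.negMulLog (q i) with hH
  have hHf : H = ∑ i, q i * f i := by simp [hH, hf, Real.negMulLog]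
  set ε : ℝ := (H - η - s * -Real.log r) / 4 with hεd
  have hε : 0 < ε := by rw [hεd]; linarith
  obtain ⟨m₂, hm₂⟩ := exists_nat_gt (Real.log 6 / ε)
  refine dim_of_scales hr hr1 (g := H - η - 2 * ε) (m₀ := m₁ + m₂ + 1)
    (V := 2 * ((∑ i, q i * (f i - ∑ k, q k * f k) ^ 2) / ε ^ 2)) (fun m hm => ?_) hs0
    (by rw [hεd]; linarith) hμE
  have hrm : 0 < r ^ m := pow_pos hr m
  set cell : ℝ → ℤ := fun y => ⌊y / r ^ m⌋ with hcell
  have hcellm : Measurable cell := Int.measurable_floor.comp (measurable_id.div_const _)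
  set J : ℤ → Set ℝ := fun z => cell ⁻¹' {z} with hJ
  have hJm : ∀ z, MeasurableSet (J z) := fun z => hcellm (measurableSet_singleton z)
  set Bad : Finset (Fin m → κ) :=
    Finset.univ.filter fun W => ε * m < |∑ j, f (W j) - m * ∑ i, q i * f i| with hBad
  set G0 : ℝ≥0∞ := ENNReal.ofReal (Real.exp (η * m) * Real.exp (-(m * (H - ε)))) with hG0
  set B : Set ℝ → ℝ≥0∞ := fun X => ∑ W ∈ Bad, ENNReal.ofReal (wordWeight q W) *
    μ ((fun x => r ^ m * x + wordSum r c W) ⁻¹' X) with hB
  have hsplit : ∀ z, μ (J z) ≤ G0 + B (J z) := by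
    intro z
    set near : Finset (Fin m → κ) :=
      Badᶜ.filter fun W => ∃ x, |x| ≤ R ∧ r ^ m * x + wordSum r c W ∈ J z with hnear
    have hcl : ∀ W ∈ near, ∀ W' ∈ near,
        |wordSum r c W - wordSum r c W'| ≤ (1 + 2 * R) * r ^ m := by
      intro W hW W' hW'
      obtain ⟨x, hx, hxz⟩ := (Finset.mem_filter.1 hW).2
      obtain ⟨x', hx', hxz'⟩ := (Finset.mem_filter.1 hW').2
      have h2 := Int.abs_sub_lt_one_of_floor_eq_floor (hxz.trans hxz'.symm)
      rw [← sub_div, abs_div, abs_of_pos hrm, div_lt_one hrm, abs_lt] at h2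
      have e1 := mul_le_mul_of_nonneg_left (abs_le.1 hx).1 hrm.le
      have e2 := mul_le_mul_of_nonneg_left (abs_le.1 hx).2 hrm.le
      have e3 := mul_le_mul_of_nonneg_left (abs_le.1 hx').1 hrm.le
      have e4 := mul_le_mul_of_nonneg_left (abs_le.1 hx').2 hrm.le
      rw [abs_le]
      constructor <;> linarith [h2.1, h2.2]
    rw [(h.iterate hq' m) (J z) (hJm z), ← Finset.sum_compl_add_sum Bad]
    refine add_le_add ?_ le_rfl
    calc ∑ W ∈ Badᶜ, ENNReal.ofReal (wordWeight q W) *
          μ ((fun x => r ^ m * x + wordSum r c W) ⁻¹' J z)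
        = ∑ W ∈ near, ENNReal.ofReal (wordWeight q W) *
          μ ((fun x => r ^ m * x + wordSum r c W) ⁻¹' J z) := by
          refine (Finset.sum_subset (Finset.filter_subset _ _) fun W hW hW' => ?_).symm
          rw [measure_mono_null (fun x hx => ?_) hsupp, mul_zero]
          show R < |x|
          by_contra hc
          exact hW' (Finset.mem_filter.2 ⟨hW, x, not_lt.1 hc, hx⟩)
      _ ≤ ∑ _W ∈ near, ENNReal.ofReal (Real.exp (-(m * (H - ε)))) := by
          refine Finset.sum_le_sum fun W hW =>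
            (mul_le_of_le_one_right zero_le prob_le_one).trans (ENNReal.ofReal_le_ofReal ?_)
          have hgood := (Finset.mem_filter.1 hW).1
          simp only [hBad, Finset.mem_compl, Finset.mem_filter, Finset.mem_univ, true_and,
            not_lt, ← hHf] at hgood
          have hw : wordWeight q W = Real.exp (-∑ j, f (W j)) := by
            rw [wordWeight, ← Finset.sum_neg_distrib, Real.exp_sum]
            exact Finset.prod_congr rfl fun j _ => by simp [hf, Real.exp_log (hq _)]
          rw [hw]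
          exact Real.exp_le_exp.2 (by linarith [(abs_le.1 hgood).1])
      _ ≤ G0 := by
          rw [Finset.sum_const, nsmul_eq_mul, hG0, ← ENNReal.ofReal_natCast,
            ← ENNReal.ofReal_mul (Nat.cast_nonneg _)]
          exact ENNReal.ofReal_le_ofReal (mul_le_mul_of_nonneg_right
            (hcount m (by omega) near hcl) (Real.exp_pos _).le)
  set Hv : Set ℤ := {z | 2 * G0 < μ (J z)} with hHv
  have hheavy : ∀ z ∈ Hv, μ (J z) ≤ 2 * B (J z) := by
    intro z hz
    rcases le_or_gt (B (J z)) G0 with hb | hb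
    · have := (hsplit z).trans (add_le_add le_rfl hb)
      rw [← two_mul] at this
      exact absurd this (not_le.2 hz)
    · exact (hsplit z).trans ((add_le_add hb.le le_rfl).trans (two_mul _).ge)
  refine ⟨(cell ⁻¹' Hv)ᶜ, (hcellm (Set.to_countable Hv).measurableSet).compl, ?_, fun y _ => ?_⟩
  · have hU : cell ⁻¹' Hv = ⋃ z : Hv, J z := by
      ext x
      simp [hJ]
    have hdisj : Pairwise fun z z' : Hv => Disjoint (J z) (J z') := fun z z' hne =>
      Set.disjoint_left.2 fun x hx hx' => hne (Subtype.ext (hx.symm.trans hx'))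
    rw [compl_compl, hU, measure_iUnion hdisj fun z => hJm z]
    refine (ENNReal.tsum_le_tsum fun z : Hv => hheavy z z.2).trans ?_
    rw [ENNReal.tsum_mul_left]
    have hBsum : ∑' z : Hv, B (J z) ≤ ∑ W ∈ Bad, ENNReal.ofReal (wordWeight q W) := by
      simp only [hB]
      rw [Summable.tsum_finsetSum fun _ _ => ENNReal.summable]
      refine Finset.sum_le_sum fun W _ => ?_
      rw [ENNReal.tsum_mul_left, ← measure_iUnion
        (fun z z' hne => (hdisj hne).preimage _) fun z =>
          (by fun_prop : Measurable fun x : ℝ => r ^ m * x + wordSum r c W) (hJm z)]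
      exact mul_le_of_le_one_right zero_le prob_le_one
    refine (mul_le_mul_right hBsum 2).trans ?_
    rw [← ENNReal.ofReal_sum_of_nonneg fun W _ => wordWeight_nonneg hq' W, ← ENNReal.ofReal_ofNat,
      ← ENNReal.ofReal_mul zero_le_two]
    refine ENNReal.ofReal_le_ofReal ?_
    have hdev := word_deviation hq' h1 f hε (show 1 ≤ m by omega)
    rw [mul_div_assoc]
    exact mul_le_mul_of_nonneg_left hdev zero_le_two
  · set z₀ : ℤ := ⌊(y - r ^ m) / r ^ m⌋ with hz₀
    calc μ (Set.Icc (y - r ^ m) (y + r ^ m) ∩ (cell ⁻¹' Hv)ᶜ)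
        ≤ μ (⋃ z ∈ (Finset.Icc z₀ (z₀ + 2)).filter (fun z => z ∉ Hv), J z) := by
          refine measure_mono fun x hx => ?_
          simp only [Set.mem_iUnion, Finset.mem_filter, Finset.mem_Icc]
          refine ⟨cell x, ⟨⟨?_, ?_⟩, hx.2⟩, rfl⟩
          · exact Int.floor_le_floor (div_le_div_of_nonneg_right hx.1.1 hrm.le)
          · calc cell x ≤ ⌊(y + r ^ m) / r ^ m⌋ :=
                  Int.floor_le_floor (div_le_div_of_nonneg_right hx.1.2 hrm.le)
              _ = z₀ + 2 := by
                  rw [hz₀, ← Int.floor_add_intCast]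
                  congr 1
                  push_cast
                  field_simp
                  ring
      _ ≤ ∑ z ∈ (Finset.Icc z₀ (z₀ + 2)).filter (fun z => z ∉ Hv), μ (J z) :=
          measure_biUnion_finset_le _ _
      _ ≤ ∑ _z ∈ (Finset.Icc z₀ (z₀ + 2)).filter (fun z => z ∉ Hv), 2 * G0 :=
          Finset.sum_le_sum fun z hz => not_lt.1 (Finset.mem_filter.1 hz).2
      _ ≤ 3 * (2 * G0) := by
          rw [Finset.sum_const, nsmul_eq_mul]
          refine mul_le_mul_left ?_ (2 * G0)
          have := Finset.card_filter_le (Finset.Icc z₀ (z₀ + 2)) (fun z => z ∉ Hv)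
          rw [Int.card_Icc] at this
          exact_mod_cast this.trans (by omega)
      _ ≤ _ := by
          rw [hG0, ← mul_assoc, show (3 : ℝ≥0∞) * 2 = ENNReal.ofReal 6 by norm_num,
            ← ENNReal.ofReal_mul (by norm_num), ← Real.exp_add]
          refine ENNReal.ofReal_le_ofReal ?_
          rw [← Real.exp_log (by norm_num : (0 : ℝ) < 6), ← Real.exp_add]
          refine Real.exp_le_exp.2 ?_
          rw [div_lt_iff₀ hε] at hm₂
          have : (m₂ : ℝ) ≤ m := by exact_mod_cast (by omega : m₂ ≤ m)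
          nlinarith

end Vale.Agent.P114
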