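import Vale.Agent.P114.Dim.Main
import Vale.Agent.P114.Dim.NoCollapse
import Vale.Agent.P114.Dim.Exact

/-!
# The dimension at small contraction, for every translation parameter
-/

namespace Vale.Agent.P114

open MeasureTheory Polynomial
open scoped ENNReal

variable {ι : Type} [Fintype ι] (a b : ι → ℤ)

omit [Fintype ι] in
theorem val_swap {lam t : ℝ} (ht : t ≠ 0) {n : ℕ} (w : Fin n → ι) :
    val b a lam (1 / t) w = val a b lam t w / t := by
  rw [val_eq, val_eq]
  field_simp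
  ring

/-- **The dimension at small contraction.** -/
theorem dimension_near (hab : Function.Injective fun i => (a i, b i)) {p : ι → ℝ} (hp : ∀ i, 0 < p i)
    (h1 : ∑ i, p i = 1) {ε : ℝ} (hε : 0 < ε) :
    ∃ lam0 : ℝ, 0 < lam0 ∧ ∀ lam : ℝ, 0 < lam → lam < lam0 → ∀ t : ℝ,
      (∃ μ : Measure ℝ, IsProbabilityMeasure μ ∧
        μ = ∑ i, ENNReal.ofReal (p i) •
          μ.map (fun x => lam * x + ((a i : ℝ) + (b i : ℝ) * t))) ∧
      ∀ μ : Measure ℝ, IsProbabilityMeasure μ →
        μ = ∑ i, ENNReal.ofReal (p i) •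
          μ.map (fun x => lam * x + ((a i : ℝ) + (b i : ℝ) * t)) →
        ENNReal.ofReal
            (min (hRW a b p lam t) ((∑ i, Real.negMulLog (p i)) - ε) / -Real.log lam) ≤
          (⨅ (E : Set ℝ) (_ : MeasurableSet E) (_ : 0 < μ E), dimH E) ∧
        (⨅ (E : Set ℝ) (_ : MeasurableSet E) (_ : 0 < μ E), dimH E) ≤
          ENNReal.ofReal (min 1 (hRW a b p lam t / -Real.log lam)) := by
  classical
  have hp' := fun i => (hp i).le
  set H : ℝ := ∑ i, Real.negMulLog (p i) with hH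
  obtain ⟨B, hB1, ha, hb⟩ : ∃ B : ℕ, 1 ≤ B ∧ (∀ i, (a i).natAbs ≤ B) ∧ ∀ i, (b i).natAbs ≤ B :=
    ⟨1 + ∑ i, ((a i).natAbs + (b i).natAbs), Nat.le_add_right _ _,
      fun i => by
        have := Finset.single_le_sum (f := fun i => (a i).natAbs + (b i).natAbs)
          (fun _ _ => Nat.zero_le _) (Finset.mem_univ i)
        omega,
      fun i => by
        have := Finset.single_le_sum (f := fun i => (a i).natAbs + (b i).natAbs)
          (fun _ _ => Nat.zero_le _) (Finset.mem_univ i)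
        omega⟩
  have hreal : ∀ c : ι → ℤ, (∀ i, (c i).natAbs ≤ B) → ∀ i, |(c i : ℝ)| ≤ B := fun c hc i => by
    rw [← Int.cast_abs, Int.abs_eq_natAbs]
    exact_mod_cast hc i
  set c0 : ℝ := (Fintype.card ι : ℝ) * B with hc0
  set K : ℝ := 2 * (1 + 8 * c0) with hK
  have hc00 : 0 ≤ c0 := by positivity
  obtain ⟨N, lam1, hlam1, hN⟩ := exact_of_collapse hε (show 0 ≤ K by rw [hK]; positivity) hB1
  set M : ℕ := 4 * (N * (N * B)) with hM
  set lam0 : ℝ := min lam1 (min (1 / 2) (min (1 / (4 * (M : ℝ) + 1)) (Real.exp (-max H 1))))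
    with hlam0
  refine ⟨lam0, by rw [hlam0]; positivity, fun lam h0 hlt t => ?_⟩
  obtain ⟨hl0, hl1, hl2, hl3⟩ : lam < lam1 ∧ lam < 1 / 2 ∧ lam < 1 / (4 * (M : ℝ) + 1) ∧
      lam < Real.exp (-max H 1) := by
    simpa [hlam0] using hlt
  have hlt1 : lam < 1 := by linarith
  set L : ℝ := -Real.log lam with hL
  have hLH : max H 1 < L := by
    rw [hL, lt_neg]
    exact (Real.log_lt_iff_lt_exp h0).2 hl3
  have hL0 : 0 < L := by linarith [le_max_right H 1]
  set h : ℝ := hRW a b p lam t with hh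
  have hhH : h ≤ H := hRW_le_entropy a b hab hp' h1 lam t
  set d : ι → ℝ := fun i => (a i : ℝ) + (b i : ℝ) * t with hd
  constructor
  · obtain ⟨μ, hμp, hμ⟩ := exists_stationary hp' h1 h0.le hlt1 d
    exact ⟨μ, hμp, (stationary_iff p lam d μ).1 hμ⟩
  intro μ hμp hμeq
  have hμ : Stationary p lam d μ := (stationary_iff p lam d μ).2 hμeq
  refine ⟨?_, ?_⟩
  swap
  · rw [min_eq_right ((div_le_one hL0).2 (by linarith [le_max_left H 1]))]
    exact dim_le_rate a b hp h1 h0 hlt1 t hμ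
  refine le_iInf fun E => le_iInf fun _ => le_iInf fun hEp =>
    le_of_forall_lt_imp_le_of_dense fun y hy => ?_
  have hy' : y ≠ ∞ := ne_top_of_lt hy
  rw [← ENNReal.ofReal_toReal hy']
  have hsh : y.toReal < min h (H - ε) / L := (ENNReal.lt_ofReal_iff_toReal_lt hy').1 hy
  rw [lt_div_iff₀ hL0, lt_min_iff] at hsh
  set R : ℝ := radius a b lam t with hR
  have hR0 : 0 ≤ R := radius_nonneg a b hlt1 t
  by_cases hcol : ∀ G0 : ℕ, ∃ G, G0 ≤ G ∧ ∃ F : Finset (Fin G → ι),
      Real.exp (ε * G) < (F.card : ℝ) ∧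
      ∀ W ∈ F, ∀ W' ∈ F, |val a b lam t W - val a b lam t W'| ≤ (1 + 2 * R) * lam ^ G
  swap
  · push Not at hcol
    obtain ⟨G0, hG0⟩ := hcol
    refine dim_of_count hp h1 h0 hlt1 hμ (radius_spec a b hlt1 t) (η := ε) (m₁ := G0)
      (fun m hm F hF => ?_) ENNReal.toReal_nonneg hsh.2 hEp
    by_contra hc
    obtain ⟨W, hW, W', hW', hlt'⟩ := hG0 m hm F (not_le.1 hc)
    exact absurd (hF W hW W' hW') (not_le.2 hlt')
  have hRb : R ≤ 2 * c0 * (1 + |t|) := by
    rw [hR, radius, div_le_iff₀ (by linarith)]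
    have hs : ∑ i, |(a i : ℝ) + (b i : ℝ) * t| ≤ c0 * (1 + |t|) := by
      calc _ ≤ ∑ _i : ι, (B : ℝ) * (1 + |t|) := by
            refine Finset.sum_le_sum fun i _ => (abs_add_le _ _).trans ?_
            rw [abs_mul, mul_add, mul_one]
            exact add_le_add (hreal a ha i)
              (mul_le_mul_of_nonneg_right (hreal b hb i) (abs_nonneg _))
        _ = _ := by rw [Finset.sum_const, Finset.card_univ, nsmul_eq_mul, hc0, mul_assoc]
    have := mul_le_mul_of_nonneg_left (by linarith : 1 / 2 ≤ 1 - lam)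
      (show 0 ≤ 2 * c0 * (1 + |t|) by positivity)
    linarith
  obtain ⟨P, Q, hPc, hPk, hQc, hQk, hQl, hPQ⟩ : ∃ P Q : ℤ[X], P.support.card ≤ N ∧
      (∀ k, (P.coeff k).natAbs ≤ N) ∧ Q.support.card ≤ N ∧ (∀ k, (Q.coeff k).natAbs ≤ N) ∧
      aeval lam Q ≠ 0 ∧ aeval lam P = t * aeval lam Q := by
    rcases le_or_gt |t| 1 with ht | ht
    · refine hN a b ha hb hab lam t h0 hl0 ht fun G0 => ?_
      obtain ⟨G, hG, F, hF, hFc⟩ := hcol G0
      refine ⟨G, hG, F, hF, fun W hW W' hW' => (hFc W hW W' hW').trans ?_⟩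
      refine mul_le_mul_of_nonneg_right ?_ (pow_pos h0 G).le
      rw [hK]
      nlinarith
    · have ht0 : t ≠ 0 := fun h' => by
        rw [h', abs_zero] at ht
        linarith
      have htinv : |1 / t| ≤ 1 := by
        rw [abs_div, abs_one, div_le_one (by linarith)]
        exact ht.le
      have hba : Function.Injective fun i => (b i, a i) := fun x y hxy =>
        hab (Prod.ext (congrArg Prod.snd hxy) (congrArg Prod.fst hxy))
      obtain ⟨P, Q, h1', h2', h3', h4', h5', h6'⟩ :=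
        hN b a hb ha hba lam (1 / t) h0 hl0 htinv fun G0 => by
          obtain ⟨G, hG, F, hF, hFc⟩ := hcol G0
          refine ⟨G, hG, F, hF, fun W hW W' hW' => ?_⟩
          rw [val_swap a b ht0, val_swap a b ht0, ← sub_div, abs_div,
            div_le_iff₀ (by linarith : 0 < |t|)]
          refine (hFc W hW W' hW').trans ?_
          rw [mul_right_comm]
          refine mul_le_mul_of_nonneg_right ?_ (pow_pos h0 G).le
          rw [hK]
          nlinarith
      refine ⟨Q, P, h3', h4', h1', h2', ?_, ?_⟩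
      · rw [h6']
        exact mul_ne_zero (one_div_ne_zero ht0) h5'
      · rw [h6']
        field_simp
  refine rate_le_dim a b hp h1 (B := B) (fun i => ⟨ha i, hb i⟩) h0 hl1.le ?_ hPc hPk hQc hQk hQl
    hPQ hμ hEp ENNReal.toReal_nonneg hsh.1
  rw [lt_div_iff₀ (by positivity)] at hl2
  rw [← hM]
  nlinarith

end Vale.Agent.P114
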