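import Vale.Agent.P114.Height

/-!
# Splitting a finite set: variance and entropy increments
-/

namespace Vale.Agent.P114

open Real

variable {Ω : Type*}

/-- The mean of `x` on a finite set. -/
noncomputable def avg (S : Finset Ω) (x : Ω → ℝ) : ℝ := (∑ ω ∈ S, x ω) / S.card

/-- The between-class energy of `x`: the sum over classes of `(class sum)² / (class size)`. -/
noncomputable def energy {β : Type*} [DecidableEq β] (F : Finset Ω) (φ : Ω → β) (x : Ω → ℝ) : ℝ :=
  ∑ y ∈ F.image φ, (∑ ω ∈ F.filter (fun ω => φ ω = y), x ω) ^ 2 /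
    ((F.filter fun ω => φ ω = y).card : ℝ)

/-- The sum over classes of `n log n`. -/
noncomputable def nlogn {β : Type*} [DecidableEq β] (F : Finset Ω) (φ : Ω → β) : ℝ :=
  ∑ y ∈ F.image φ, ((F.filter fun ω => φ ω = y).card : ℝ) *
    Real.log ((F.filter fun ω => φ ω = y).card : ℝ)

/-- Refining a partition splits the sum over classes. -/
theorem sum_classes_refine {β γ M : Type*} [DecidableEq β] [DecidableEq γ] [AddCommMonoid M]
    (F : Finset Ω) (φ : Ω → β) (ψ : Ω → γ)
    (h : ∀ a ∈ F, ∀ b ∈ F, ψ a = ψ b → φ a = φ b) (G : Finset Ω → M) :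
    ∑ z ∈ F.image ψ, G (F.filter fun ω => ψ ω = z) =
      ∑ y ∈ F.image φ, ∑ z ∈ (F.filter fun ω => φ ω = y).image ψ,
        G ((F.filter fun ω => φ ω = y).filter fun ω => ψ ω = z) := by
  classical
  have himg : F.image ψ = (F.image φ).biUnion fun y => (F.filter fun ω => φ ω = y).image ψ := by
    ext z
    simp only [Finset.mem_image, Finset.mem_biUnion, Finset.mem_filter]
    constructor
    · rintro ⟨ω, hω, rfl⟩
      exact ⟨φ ω, ⟨ω, hω, rfl⟩, ω, ⟨hω, rfl⟩, rfl⟩
    · rintro ⟨y, -, ω, ⟨hω, -⟩, rfl⟩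
      exact ⟨ω, hω, rfl⟩
  rw [himg, Finset.sum_biUnion]
  · refine Finset.sum_congr rfl fun y _ => Finset.sum_congr rfl fun z hz => congrArg G ?_
    obtain ⟨ω₀, hω₀, rfl⟩ := Finset.mem_image.1 hz
    obtain ⟨h₀, rfl⟩ := Finset.mem_filter.1 hω₀
    ext ω
    simp only [Finset.mem_filter]
    exact ⟨fun hω => ⟨⟨hω.1, h ω hω.1 ω₀ h₀ hω.2⟩, hω.2⟩, fun hω => ⟨hω.1.1, hω.2⟩⟩
  · intro y _ y' _ hyy
    simp only [Function.onFun, Finset.disjoint_left, Finset.mem_image, Finset.mem_filter]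
    rintro _ ⟨ω, ⟨hω, rfl⟩, rfl⟩ ⟨ω', ⟨hω', rfl⟩, hzz⟩
    exact hyy (h ω hω ω' hω' hzz.symm)

theorem avg_mul_card (S : Finset Ω) (x : Ω → ℝ) : avg S x * S.card = ∑ ω ∈ S, x ω := by
  rcases S.eq_empty_or_nonempty with rfl | h
  · simp [avg]
  · rw [avg, div_mul_cancel₀]
    exact_mod_cast h.card_pos.ne'

/-- Weighted pairwise squared differences. -/
theorem pair_identity {ι : Type*} (s : Finset ι) (w v : ι → ℝ) :
    ∑ a ∈ s, ∑ b ∈ s, w a * w b * (v a - v b) ^ 2 =
      2 * ((∑ a ∈ s, w a) * ∑ a ∈ s, w a * v a ^ 2 - (∑ a ∈ s, w a * v a) ^ 2) := by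
  have h : ∀ a b, w a * w b * (v a - v b) ^ 2 =
      (w a * v a ^ 2) * w b + w a * (w b * v b ^ 2) - 2 * ((w a * v a) * (w b * v b)) :=
    fun a b => by ring
  simp only [h, Finset.sum_sub_distrib, Finset.sum_add_distrib, ← Finset.mul_sum, ← Finset.sum_mul]
  ring

/-- The increase of energy in one class is the pairwise squared distance of the child means. -/
theorem split_energy {γ : Type*} [DecidableEq γ] (S : Finset Ω) (ψ : Ω → γ) (x : Ω → ℝ) :
    2 * (S.card : ℝ) * (∑ z ∈ S.image ψ, (∑ ω ∈ S.filter (fun ω => ψ ω = z), x ω) ^ 2 /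
        ((S.filter fun ω => ψ ω = z).card : ℝ) - (∑ ω ∈ S, x ω) ^ 2 / (S.card : ℝ)) =
      ∑ y ∈ S.image ψ, ∑ z ∈ S.image ψ, ((S.filter fun ω => ψ ω = y).card : ℝ) *
        ((S.filter fun ω => ψ ω = z).card : ℝ) *
        (avg (S.filter fun ω => ψ ω = y) x - avg (S.filter fun ω => ψ ω = z) x) ^ 2 := by
  rw [pair_identity]
  have hn : ∑ y ∈ S.image ψ, ((S.filter fun ω => ψ ω = y).card : ℝ) = S.card := by
    rw [← Nat.cast_sum, ← Finset.card_eq_sum_card_image]
  have h1 : ∀ z, ((S.filter fun ω => ψ ω = z).card : ℝ) * avg (S.filter fun ω => ψ ω = z) x =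
      ∑ ω ∈ S.filter (fun ω => ψ ω = z), x ω := fun z => by rw [mul_comm, avg_mul_card]
  have h2 : ∀ z, ((S.filter fun ω => ψ ω = z).card : ℝ) * avg (S.filter fun ω => ψ ω = z) x ^ 2 =
      (∑ ω ∈ S.filter (fun ω => ψ ω = z), x ω) ^ 2 /
        ((S.filter fun ω => ψ ω = z).card : ℝ) := fun z => by
    rcases eq_or_ne ((S.filter fun ω => ψ ω = z).card : ℝ) 0 with h | h
    · rw [h]; simp
    · rw [avg, div_pow]; field_simp
  have h3 : ∑ z ∈ S.image ψ, ∑ ω ∈ S.filter (fun ω => ψ ω = z), x ω = ∑ ω ∈ S, x ω :=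
    Finset.sum_fiberwise_of_maps_to (fun ω hω => Finset.mem_image_of_mem ψ hω) x
  rw [hn, Finset.sum_congr rfl (fun z _ => h2 z), Finset.sum_congr rfl (fun z _ => h1 z), h3]
  rcases eq_or_ne (S.card : ℝ) 0 with h | h
  · obtain rfl : S = ∅ := Finset.card_eq_zero.1 (by exact_mod_cast h)
    simp
  · field_simp

theorem avg_const (S : Finset Ω) (hS : S.Nonempty) (x : Ω → ℝ) (c : ℝ) (h : ∀ ω ∈ S, x ω = c) :
    avg S x = c := by
  rw [avg, Finset.sum_congr rfl h, Finset.sum_const, nsmul_eq_mul]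
  have : (S.card : ℝ) ≠ 0 := by exact_mod_cast hS.card_pos.ne'
  field_simp

/-- The entropy lost by splitting along an integer valued function is at most its variance, up to
a constant. -/
theorem split_nlogn (S : Finset Ω) (e : Ω → ℤ) {θ : ℝ} (hθ : 0 < θ) :
    (S.card : ℝ) * Real.log (S.card : ℝ) -
        ∑ z ∈ S.image e, ((S.filter fun ω => e ω = z).card : ℝ) *
          Real.log ((S.filter fun ω => e ω = z).card : ℝ) ≤
      16 / θ * (S.card : ℝ) + 4 * θ * (∑ ω ∈ S, ((e ω : ℝ) - avg S fun ω => (e ω : ℝ)) ^ 2) := by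
  classical
  rcases S.eq_empty_or_nonempty with rfl | hS
  · simp
  set m : ℝ := avg S fun ω => (e ω : ℝ) with hm
  set n : ℝ := (S.card : ℝ) with hn
  have hn0 : 0 < n := by rw [hn]; exact_mod_cast hS.card_pos
  set n0 : ℤ := round m with hn0d
  have hround : |m - (n0 : ℝ)| ≤ 1 / 2 := abs_sub_round m
  set c : ℤ → ℝ := fun z => ((S.filter fun ω => e ω = z).card : ℝ) with hc
  set q : ℤ → ℝ := fun z => Real.exp (-θ * ((z : ℝ) - n0) ^ 2) with hq
  set Z : ℝ := ∑ z ∈ S.image e, q z with hZ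
  have hZ0 : 0 < Z := Finset.sum_pos (fun z _ => Real.exp_pos _) (hS.image e)
  have hZle : Real.log Z ≤ 16 / θ := by
    refine le_trans (Real.log_le_sub_one_of_pos hZ0) ?_
    have h := gauss_sum_le hθ (-(n0 : ℝ)) (S.image e)
    simp only [← sub_eq_add_neg] at h
    linarith
  have hpos : ∀ z ∈ S.image e, 0 < c z := by
    intro z hz
    obtain ⟨ω, hω, rfl⟩ := Finset.mem_image.1 hz
    exact Nat.cast_pos.2 (Finset.card_pos.2 ⟨ω, Finset.mem_filter.2 ⟨hω, rfl⟩⟩)
  have hkey : ∀ z ∈ S.image e, c z * Real.log n - c z * Real.log (c z) ≤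
      c z * (θ * ((z : ℝ) - n0) ^ 2) + c z * Real.log Z + (n * q z / Z - c z) := by
    intro z hz
    have h0 := hpos z hz
    have hq0 : 0 < q z := Real.exp_pos _
    have h := Real.log_le_sub_one_of_pos (show 0 < n * q z / (c z * Z) by positivity)
    rw [Real.log_div (by positivity) (by positivity), Real.log_mul hn0.ne' hq0.ne',
      Real.log_mul h0.ne' hZ0.ne'] at h
    have hlq : Real.log (q z) = -θ * ((z : ℝ) - n0) ^ 2 := Real.log_exp _
    rw [hlq] at h
    have h2 := mul_le_mul_of_nonneg_left h h0.le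
    have h3 : c z * (n * q z / (c z * Z) - 1) = n * q z / Z - c z := by field_simp
    rw [h3] at h2
    linarith
  have hsum := Finset.sum_le_sum hkey
  have hcsum : ∑ z ∈ S.image e, c z = n := by
    rw [hn, hc, ← Nat.cast_sum, ← Finset.card_eq_sum_card_image]
  simp only [Finset.sum_add_distrib, Finset.sum_sub_distrib, ← Finset.sum_mul, hcsum,
    ← Finset.sum_div, ← Finset.mul_sum] at hsum
  rw [← hZ, mul_div_assoc, div_self hZ0.ne', mul_one, sub_self, add_zero] at hsum
  have hvar : ∑ z ∈ S.image e, c z * (θ * ((z : ℝ) - n0) ^ 2) ≤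
      4 * θ * ∑ ω ∈ S, ((e ω : ℝ) - m) ^ 2 := by
    rw [Finset.mul_sum, ← Finset.sum_fiberwise_of_maps_to (t := S.image e) (g := e)
      (fun ω hω => Finset.mem_image_of_mem e hω) fun ω => 4 * θ * ((e ω : ℝ) - m) ^ 2]
    refine Finset.sum_le_sum fun z _ => ?_
    rw [Finset.sum_congr rfl (g := fun _ => 4 * θ * ((z : ℝ) - m) ^ 2)
      (fun ω hω => by rw [(Finset.mem_filter.1 hω).2]), Finset.sum_const, nsmul_eq_mul]
    refine mul_le_mul_of_nonneg_left ?_ (Nat.cast_nonneg _)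
    have hsq : ((z : ℝ) - n0) ^ 2 ≤ 4 * ((z : ℝ) - m) ^ 2 := by
      rcases eq_or_ne z n0 with rfl | hne
      · simp; positivity
      · have h1 : (1 : ℝ) ≤ |(z : ℝ) - n0| := by
          rw [← Int.cast_sub, ← Int.cast_abs]
          exact_mod_cast Int.one_le_abs (sub_ne_zero.2 hne)
        have h2 := abs_sub_le (z : ℝ) m n0
        have h3 : |(z : ℝ) - n0| ≤ 2 * |(z : ℝ) - m| := by linarith
        have h4 := pow_le_pow_left₀ (abs_nonneg _) h3 2
        rw [mul_pow, sq_abs, sq_abs] at h4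
        linarith
    have := mul_le_mul_of_nonneg_left hsq hθ.le
    linarith
  have hlZ := mul_le_mul_of_nonneg_left hZle hn0.le
  linarith

/-- At most `K` classes lose at most `log K` per point. -/
theorem nlogn_ge {β : Type*} [DecidableEq β] (F : Finset Ω) (φ : Ω → β) {K : ℝ}
    (hK : ((F.image φ).card : ℝ) ≤ K) :
    (F.card : ℝ) * Real.log (F.card : ℝ) - (F.card : ℝ) * Real.log K ≤ nlogn F φ := by
  rcases F.eq_empty_or_nonempty with rfl | hF
  · simp [nlogn]
  set n : ℝ := (F.card : ℝ) with hn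
  have hn0 : 0 < n := by rw [hn]; exact_mod_cast hF.card_pos
  have hK1 : (1 : ℝ) ≤ K := le_trans (by exact_mod_cast (hF.image φ).card_pos) hK
  have hkey : ∀ y ∈ F.image φ, ((F.filter fun ω => φ ω = y).card : ℝ) * Real.log n -
      ((F.filter fun ω => φ ω = y).card : ℝ) * Real.log K -
      ((F.filter fun ω => φ ω = y).card : ℝ) *
        Real.log ((F.filter fun ω => φ ω = y).card : ℝ) ≤
      n / K - ((F.filter fun ω => φ ω = y).card : ℝ) := by
    intro y hy
    obtain ⟨ω, hω, rfl⟩ := Finset.mem_image.1 hy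
    set c : ℝ := ((F.filter fun x => φ x = φ ω).card : ℝ)
    have h0 : 0 < c := Nat.cast_pos.2 (Finset.card_pos.2 ⟨ω, Finset.mem_filter.2 ⟨hω, rfl⟩⟩)
    have h := Real.log_le_sub_one_of_pos (show 0 < n / (c * K) by positivity)
    rw [Real.log_div hn0.ne' (by positivity), Real.log_mul h0.ne' (by positivity)] at h
    have h2 := mul_le_mul_of_nonneg_left h h0.le
    have h3 : c * (n / (c * K) - 1) = n / K - c := by field_simp
    rw [h3] at h2
    linarith
  have hsum := Finset.sum_le_sum hkey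
  have hc : ∑ y ∈ F.image φ, ((F.filter fun ω => φ ω = y).card : ℝ) = n := by
    rw [hn, ← Nat.cast_sum, ← Finset.card_eq_sum_card_image]
  simp only [Finset.sum_sub_distrib, ← Finset.sum_mul, hc, Finset.sum_const, nsmul_eq_mul] at hsum
  have h4 : ((F.image φ).card : ℝ) * (n / K) ≤ n := by
    rw [mul_div_assoc', div_le_iff₀ (by linarith)]
    nlinarith
  unfold nlogn
  linarith

/-- The energy never exceeds the total sum of squares. -/
theorem energy_le {β : Type*} [DecidableEq β] (F : Finset Ω) (φ : Ω → β) (x : Ω → ℝ) :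
    energy F φ x ≤ ∑ ω ∈ F, x ω ^ 2 := by
  rw [← Finset.sum_fiberwise_of_maps_to (t := F.image φ) (g := φ)
    (fun ω hω => Finset.mem_image_of_mem φ hω) fun ω => x ω ^ 2]
  refine Finset.sum_le_sum fun y _ => ?_
  set S := F.filter fun ω => φ ω = y
  rcases S.eq_empty_or_nonempty with h | h
  · simp [h]
  rw [div_le_iff₀ (by exact_mod_cast h.card_pos), mul_comm]
  exact sq_sum_le_card_mul_sum_sq

end Vale.Agent.P114
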