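import Vale.Agent.P114.Sparse

/-!
# Sparse relations of a truncated tuple
-/

namespace Vale.Agent.P114

open Polynomial
open scoped Pointwise

/-- The pigeonhole half of a step. -/
theorem step_small_gen {m : ℕ} (hm : 2 ≤ m) {κ : ℝ} (hκ0 : 0 < κ) (u : ℝ[X]) (hu : κ ≤ |u.coeff 0|) (S : Finset ℕ) (hSpos : 0 < S.card)
    (v : Fin m × S → ℤ[X]) (J : Finset ℕ)
    (hord : ∀ x : Fin m × S → ℤ, (∑ a, x a • v a) ≠ 0 →
      ∃ k : J, (∀ i < (k : ℕ), (∑ a, x a • v a).coeff i = 0) ∧
        (∑ a, x a • v a).coeff k ≠ 0)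
    (M : Matrix J (Fin m × S) ℝ) (hM : M = fun (j : J) a => (u * rp (v a)).coeff (j : ℕ))
    (hM1 : ∀ j a, |M j a| ≤ 1) (hsmall : J.card * 2 < 3 * S.card) :
    ∃ z : Fin m × S → ℤ, z ≠ 0 ∧ (∀ a, (z a).natAbs ≤ coefBd m S.card κ) ∧
      ∑ a, z a • v a = 0 := by
  classical
  set L : ℕ := coefBd m S.card κ with hL
  set Aq : ℝ := 4 * m * S.card / κ + 8 with hAq
  set K : ℕ := ⌈2 * (L : ℝ) * m * S.card / κ⌉₊ with hK
  clear_value L Aq K
  set val : (Fin m × S → ℤ) → J → ℝ := fun x j => ∑ a, (x a : ℝ) * M j a with hval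
  set cell : (Fin m × S → ℤ) → (J → ℤ) := fun x j => ⌊val x j * 2 / κ⌋ with hcell
  set box : Finset (Fin m × S → ℤ) := Fintype.piFinset fun _ => Finset.Icc 0 (L : ℤ) with hbox
  set tgt : Finset (J → ℤ) := Fintype.piFinset fun _ => Finset.Icc (-(K : ℤ)) (K : ℤ) with htgt
  have hmap : ∀ x ∈ box, cell x ∈ tgt := by
    intro x hx
    simp only [hbox, Fintype.mem_piFinset, Finset.mem_Icc] at hx
    simp only [htgt, hcell, Fintype.mem_piFinset, Finset.mem_Icc]
    intro j
    have h1 : |val x j| ≤ (L : ℝ) * m * S.card := by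
      calc |val x j| ≤ ∑ a, |(x a : ℝ) * M j a| := Finset.abs_sum_le_sum_abs _ _
        _ ≤ ∑ _a : Fin m × S, (L : ℝ) := by
            refine Finset.sum_le_sum fun a _ => ?_
            rw [abs_mul]
            have h2 : |(x a : ℝ)| ≤ L := by
              rw [abs_of_nonneg (by exact_mod_cast (hx a).1)]
              exact_mod_cast (hx a).2
            calc |(x a : ℝ)| * |M j a| ≤ (L : ℝ) * 1 :=
                  mul_le_mul h2 (hM1 j a) (abs_nonneg _) (Nat.cast_nonneg _)
              _ = L := mul_one _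
        _ = _ := by simp; ring
    obtain ⟨h2, h3⟩ := abs_le.mp h1
    have hKle : 2 * (L : ℝ) * m * S.card / κ ≤ K := hK ▸ Nat.le_ceil _
    rw [div_le_iff₀ hκ0] at hKle
    constructor
    · rw [Int.le_floor, le_div_iff₀ hκ0]
      push_cast
      nlinarith
    · rw [← Int.lt_add_one_iff, Int.floor_lt, div_lt_iff₀ hκ0]
      push_cast
      nlinarith
  have hcount : tgt.card < box.card := by
    simp only [htgt, hbox, Fintype.card_piFinset, Finset.prod_const, Finset.card_univ,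
      Fintype.card_prod, Fintype.card_fin, Fintype.card_coe, Int.card_Icc]
    have e1 : ((K : ℤ) + 1 - -(K : ℤ)).toNat = 2 * K + 1 := by omega
    have e2 : ((L : ℤ) + 1 - 0).toNat = L + 1 := by omega
    rw [e1, e2]
    have hA3 : Aq ^ 3 < (L : ℝ) + 1 := by
      have := Nat.le_ceil (Aq ^ 3)
      rw [hL, coefBd, ← hAq]
      push_cast
      linarith
    have hK2 : ((2 * K + 1 : ℕ) : ℝ) ≤ Aq * ((L : ℝ) + 1) := by
      have h1 : (K : ℝ) < 2 * (L : ℝ) * m * S.card / κ + 1 :=
        hK ▸ Nat.ceil_lt_add_one (by positivity)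
      have h2 : 2 * (2 * (L : ℝ) * m * S.card / κ) = 4 * m * S.card / κ * L := by ring
      have h3 : 0 ≤ 4 * (m : ℝ) * S.card / κ := by positivity
      have h4 : (0 : ℝ) ≤ L := Nat.cast_nonneg _
      push_cast
      rw [hAq]
      nlinarith
    have hAq0 : 0 ≤ Aq := by rw [hAq]; positivity
    have h34 : (2 * K + 1) ^ 3 < (L + 1) ^ 4 := by
      have : ((2 * K + 1 : ℕ) : ℝ) ^ 3 < ((L + 1 : ℕ) : ℝ) ^ 4 := by
        calc ((2 * K + 1 : ℕ) : ℝ) ^ 3 ≤ (Aq * ((L : ℝ) + 1)) ^ 3 :=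
              pow_le_pow_left₀ (Nat.cast_nonneg _) hK2 3
          _ = Aq ^ 3 * ((L : ℝ) + 1) ^ 3 := by ring
          _ < ((L : ℝ) + 1) * ((L : ℝ) + 1) ^ 3 := by
              exact mul_lt_mul_of_pos_right hA3 (by positivity)
          _ = _ := by push_cast; ring
      exact_mod_cast this
    have hsq : ((2 * K + 1) ^ J.card) ^ 2 < ((L + 1) ^ (m * S.card)) ^ 2 := by
      rw [← pow_mul, ← pow_mul]
      calc (2 * K + 1) ^ (J.card * 2) ≤ (2 * K + 1) ^ (3 * S.card) :=
            Nat.pow_le_pow_right (by omega) (by omega)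
        _ = ((2 * K + 1) ^ 3) ^ S.card := pow_mul _ _ _
        _ < ((L + 1) ^ 4) ^ S.card := Nat.pow_lt_pow_left h34 (by omega)
        _ = (L + 1) ^ (4 * S.card) := (pow_mul _ _ _).symm
        _ ≤ (L + 1) ^ (m * S.card * 2) := Nat.pow_le_pow_right (by omega) (by nlinarith)
    exact lt_of_pow_lt_pow_left₀ 2 (Nat.zero_le _) hsq
  obtain ⟨x, hx, y, hy, hne, hxy⟩ :=
    Finset.exists_ne_map_eq_of_card_lt_of_maps_to hcount hmap
  set z : Fin m × S → ℤ := x - y with hz
  have hzero : ∑ a, z a • v a = 0 := by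
    by_contra h0
    obtain ⟨k, hk1, hk2⟩ := hord z h0
    have h1 := (coeff_u_mul (u := u) hk1).2
    have h2 : (u * rp (∑ a, z a • v a)).coeff k = val x k - val y k := by
      simp only [rp, Polynomial.map_sum, Finset.mul_sum, Polynomial.finsetSum_coeff,
        zsmul_eq_mul, Polynomial.map_mul, Polynomial.map_intCast, hval,
        ← Finset.sum_sub_distrib]
      refine Finset.sum_congr rfl fun a _ => ?_
      rw [mul_left_comm u, Polynomial.coeff_intCast_mul]
      simp [hz, hM]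
      ring
    have hfl := congrFun hxy k
    have h3 := Int.abs_sub_lt_one_of_floor_eq_floor hfl
    rw [← sub_div, ← sub_mul, abs_div, abs_mul, abs_of_pos hκ0, abs_two,
      div_lt_one hκ0, ← h2, h1, abs_mul] at h3
    have h4 : (1 : ℝ) ≤ |((∑ a, z a • v a).coeff k : ℝ)| := by
      rw [← Int.cast_abs]
      exact_mod_cast Int.one_le_abs hk2
    nlinarith [abs_nonneg (u.coeff 0)]
  refine ⟨z, fun h => hne (sub_eq_zero.1 h), fun a => ?_, hzero⟩
  simp only [hbox, Fintype.mem_piFinset, Finset.mem_Icc] at hx hy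
  have := hx a
  have := hy a
  simp only [hz, Pi.sub_apply]
  omega

/-- One step on columns known below `V` only. -/
theorem step_gen {m : ℕ} (hm : 2 ≤ m) {κ : ℝ} (hκ0 : 0 < κ) (hκ1 : κ ≤ 1) (u : ℝ[X])
    (hu : κ ≤ |u.coeff 0|) (f : Fin m → ℝ[X]) (hf : ∀ T, mass f T ≤ 1) (S W : Finset ℕ)
    (hS : S.Nonempty) (hgr : 5 * (S + W).card ≤ 6 * S.card) (V : ℕ) (hV : 0 < V)
    (v : Fin m × S → ℤ[X]) (hdeg : ∀ a, (v a).natDegree < V)
    (hentry : ∀ (a : Fin m × S) (j : ℕ), j < V →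
      (u * rp (v a)).coeff j = if (a.2 : ℕ) ≤ j then (f a.1).coeff (j - a.2) else 0) :
    (∃ z : Fin m × S → ℤ, z ≠ 0 ∧ (∀ a, (z a).natAbs ≤ coefBd m S.card κ) ∧
        ∑ a, z a • v a = 0) ∨
      ∃ X : Finset ℕ, Disjoint W X ∧ X.card ≤ m * S.card ∧ gain m κ ≤ mass f X := by
  classical
  obtain ⟨J, e, g, c, heg, hvc, hek, hord, hJD⟩ := exists_triangular v
  have hJV : ∀ k : J, (k : ℕ) < V := fun k => lt_of_le_of_lt (hJD k)
    ((Finset.sup_lt_iff hV).2 fun a _ => hdeg a)
  set M : Matrix J (Fin m × S) ℝ := fun j a => (u * rp (v a)).coeff j with hM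
  set T : Matrix J J ℝ := fun j k => (u * rp (e k)).coeff j with hT
  have hlow : ∀ j k : J, (j : ℕ) < k → T j k = 0 := fun j k h =>
    (coeff_u_mul (hek k).1).1 j h
  have hdiag : ∀ k : J, T k k = u.coeff 0 * ((e k).coeff k : ℝ) := fun k =>
    (coeff_u_mul (hek k).1).2
  have hdet : T.det = ∏ k, T k k := by
    rw [← Matrix.det_transpose]
    exact Matrix.det_of_isUpperTriangular (fun j k h => hlow k j h)
  have habs : ∀ k : J, κ ≤ |T k k| := by
    intro k
    rw [hdiag, abs_mul]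
    have h1 : (1 : ℝ) ≤ |((e k).coeff k : ℝ)| := by
      rw [← Int.cast_abs]
      exact_mod_cast Int.one_le_abs (hek k).2
    calc κ ≤ |u.coeff 0| := hu
      _ ≤ |u.coeff 0| * |((e k).coeff k : ℝ)| := le_mul_of_one_le_right (abs_nonneg _) h1
  have hdet0 : T.det ≠ 0 := by
    rw [hdet]
    refine Finset.prod_ne_zero_iff.mpr fun k _ h => ?_
    have := habs k
    rw [h, abs_zero] at this
    linarith
  have hMT : M = T * c.map (fun x : ℤ => (x : ℝ)) := by
    ext j a
    simp only [hM, Matrix.mul_apply, hT, Matrix.map_apply]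
    rw [hvc a]
    simp only [rp, Polynomial.map_sum, Finset.mul_sum, Polynomial.finsetSum_coeff,
      zsmul_eq_mul, Polynomial.map_mul, Polynomial.map_intCast]
    refine Finset.sum_congr rfl fun k _ => ?_
    rw [mul_left_comm, Polynomial.coeff_intCast_mul, mul_comm]
    simp
  have hMg : M * g.map (fun x : ℤ => (x : ℝ)) = T := by
    ext j k
    simp only [hM, Matrix.mul_apply, hT, Matrix.map_apply]
    rw [heg k]
    simp only [rp, Polynomial.map_sum, Finset.mul_sum, Polynomial.finsetSum_coeff,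
      zsmul_eq_mul, Polynomial.map_mul, Polynomial.map_intCast]
    refine Finset.sum_congr rfl fun a _ => ?_
    rw [mul_left_comm u, Polynomial.coeff_intCast_mul, mul_comm]
    simp
  have hcg : c * g = 1 := by
    have h1 : T * ((c * g).map (fun x : ℤ => (x : ℝ))) = T * 1 := by
      rw [mul_one]
      have hmm : (c * g).map (fun x : ℤ => (x : ℝ)) =
          c.map (fun x : ℤ => (x : ℝ)) * g.map (fun x : ℤ => (x : ℝ)) := by
        ext i j
        simp [Matrix.mul_apply, Matrix.map_apply]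
      rw [hmm, ← Matrix.mul_assoc, ← hMT, hMg]
    have hunit : IsUnit T := (Matrix.isUnit_iff_isUnit_det _).mpr (isUnit_iff_ne_zero.mpr hdet0)
    have h3 := hunit.mul_left_cancel h1
    ext i j
    have h4 := congrFun (congrFun h3 i) j
    rw [Matrix.map_apply, Matrix.one_apply] at h4
    rw [Matrix.one_apply]
    split_ifs with h <;> simp [h] at h4 ⊢ <;> exact_mod_cast h4
  obtain ⟨hrows, hcard⟩ := sq_det_le_prod_rows T c g hcg hdet0
  rw [← hMT] at hrows
  simp only [Fintype.card_prod, Fintype.card_fin, Fintype.card_coe] at hcard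
  have hMentry : ∀ (j : J) (a : Fin m × S),
      M j a = if (a.2 : ℕ) ≤ j then (f a.1).coeff ((j : ℕ) - a.2) else 0 := fun j a =>
    hentry a j (hJV j)
  have hfle : ∀ i x, |(f i).coeff x| ≤ 1 := by
    intro i x
    have h1 := hf {x}
    simp only [mass, Finset.sum_singleton] at h1
    have h2 : (f i).coeff x ^ 2 ≤ ∑ i, (f i).coeff x ^ 2 :=
      Finset.single_le_sum (f := fun i => (f i).coeff x ^ 2) (fun _ _ => sq_nonneg _)
        (Finset.mem_univ i)
    exact abs_le_one_iff_mul_self_le_one.mpr (by nlinarith)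
  have hM1 : ∀ j a, |M j a| ≤ 1 := by
    intro j a
    rw [hMentry]
    split_ifs
    · exact hfle _ _
    · simp
  have hlow2 : κ ^ (2 * J.card) ≤ T.det ^ 2 := by
    rw [hdet, ← sq_abs (∏ k, T k k), Finset.abs_prod, mul_comm, pow_mul]
    refine pow_le_pow_left₀ (pow_nonneg hκ0.le _) ?_ 2
    calc κ ^ J.card = ∏ _k : J, κ := by simp
      _ ≤ _ := Finset.prod_le_prod (fun _ _ => hκ0.le) fun k _ => habs k
  by_cases hsmall : J.card * 2 < 3 * S.card
  · exact Or.inl (step_small_gen hm hκ0 u hu S hS.card_pos v J hord M hM hM1 hsmall)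
  · obtain ⟨X, h1, h2, -, h3⟩ := step_large hκ0 hκ1 f hf S W J hS hgr hsmall M hMentry
      (T.det ^ 2) hlow2 hrows hcard V (fun k => (hJV k).le)
    exact Or.inr ⟨X, h1, h2, h3⟩

end Vale.Agent.P114
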