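import Vale.Agent.P114.Dim.Step
import Vale.Agent.P114.Dim.Trunc

/-!
# Short witnesses at every length force a ratio of sparse polynomials
-/

namespace Vale.Agent.P114

open Polynomial
open scoped Pointwise

/-- The convolution of an integer series and a real one. -/
noncomputable def convSeries (T : ℕ → ℤ) (g : ℕ → ℝ) (k : ℕ) : ℝ :=
  ∑ i ∈ Finset.range (k + 1), (T i : ℝ) * g (k - i)

/-- Witnesses at every length have a limit: a bounded integer pair of series with a square summable
multiplier, agreeing on every prefix with an arbitrarily long witness. -/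
theorem exists_limit {B : ℕ} {lam t Cv Λ : ℝ}
    (h : ∀ L, ∃ Ea Eb : ℕ → ℤ, Witness B lam t Cv Λ L Ea Eb) :
    ∃ (Ea Eb : ℕ → ℤ) (u : ℕ → ℝ), Eb 0 ≠ 0 ∧ u 0 = 1 ∧
      (∀ V, ∑ k ∈ Finset.range V, (convSeries Ea u k ^ 2 + convSeries Eb u k ^ 2) ≤ Λ) ∧
      ∀ m, ∃ L, m ≤ L ∧ ∃ Ea' Eb', Witness B lam t Cv Λ L Ea' Eb' ∧
        ∀ k < m, Ea' k = Ea k ∧ Eb' k = Eb k := by
  classical
  choose EA EB hW using h
  obtain hb := fun L => (hW L).2.1
  obtain hb' := fun L => (hW L).2.2.1
  choose F G hFd hGd hG0 hsq hGev hval hE hEtop using fun L => (hW L).2.2.2.2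
  set U : Ultrafilter ℕ := Filter.hyperfilter ℕ with hU
  have hge : ∀ m : ℕ, ∀ᶠ L in (U : Filter ℕ), m ≤ L := fun m => by
    have h1 : (U : Filter ℕ) ≤ Filter.atTop := by
      rw [hU, ← Nat.cofinite_eq_atTop]
      exact Filter.hyperfilter_le_cofinite
    exact h1 (Filter.eventually_ge_atTop m)
  have hint : ∀ E : ℕ → ℕ → ℤ, (∀ L k, (E L k).natAbs ≤ 2 * B) →
      ∀ k, ∃ x : ℤ, ∀ᶠ L in (U : Filter ℕ), E L k = x := by
    intro E hEb k
    have hmem : Set.Icc (-(2 * B : ℤ)) (2 * B) ∈ (U.map fun L => E L k) := by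
      refine Ultrafilter.mem_map.2 (Filter.Eventually.of_forall fun L => ?_)
      have := hEb L k
      show E L k ∈ Set.Icc _ _
      rw [Set.mem_Icc]
      omega
    obtain ⟨x, -, hx⟩ := Ultrafilter.eq_pure_of_finite_mem (Set.finite_Icc _ _) hmem
    refine ⟨x, ?_⟩
    have : ({x} : Set ℤ) ∈ (U.map fun L => E L k) := by
      rw [hx]; exact Set.mem_singleton x
    exact Ultrafilter.mem_map.1 this
  choose Ea hEa using hint EA hb
  choose Eb hEb using hint EB hb'
  have hpre : ∀ m, ∀ᶠ L in (U : Filter ℕ), ∀ k < m, EA L k = Ea k ∧ EB L k = Eb k := fun m =>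
    ((Set.finite_Iio m).eventually_all.2 fun k _ => (hEa k).and (hEb k)).mono
      fun L hL k hk => hL k hk
  set R : ℝ := Real.sqrt Λ with hR
  have hcb : ∀ L k, |(F L).coeff k| ≤ R ∧ |(G L).coeff k| ≤ R := by
    intro L k
    have hpos : ∀ Z : ℝ[X], Z.natDegree < L + 1 → Z.coeff k ^ 2 ≤ sq2 (L + 1) Z := by
      intro Z hZ
      rcases lt_or_ge k (L + 1) with h | h
      · exact Finset.single_le_sum (f := fun i => Z.coeff i ^ 2) (fun _ _ => sq_nonneg _)
          (Finset.mem_range.2 h)
      · rw [coeff_eq_zero_of_natDegree_lt (by omega), zero_pow two_ne_zero]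
        exact sq2_nonneg _ _
    exact ⟨Real.abs_le_sqrt (by linarith [hpos _ (hFd L), sq2_nonneg (L + 1) (G L), hsq L]),
      Real.abs_le_sqrt (by linarith [hpos _ (hGd L), sq2_nonneg (L + 1) (F L), hsq L])⟩
  have hreal : ∀ Z : ℕ → ℕ → ℝ, (∀ L k, |Z L k| ≤ R) →
      ∀ k, ∃ x, Filter.Tendsto (fun L => Z L k) U (nhds x) := by
    intro Z hZ k
    obtain ⟨x, -, hx⟩ := (isCompact_Icc (a := -R) (b := R)).ultrafilter_le_nhds
      (U.map fun L => Z L k) (Filter.le_principal_iff.2
        (Filter.Eventually.of_forall fun L => abs_le.1 (hZ L k) : _))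
    exact ⟨x, hx⟩
  choose f hf using hreal (fun L k => (F L).coeff k) fun L k => (hcb L k).1
  choose g hg using hreal (fun L k => (G L).coeff k) fun L k => (hcb L k).2
  have hEb0 : Eb 0 ≠ 0 := by
    obtain ⟨L, hL⟩ := (hEb 0).exists
    exact hL ▸ (hW L).1
  have hg0 : g 0 = Eb 0 := tendsto_nhds_unique (hg 0) (tendsto_const_nhds.congr'
    ((hEb 0).mono fun L hL => by show _ = (G L).coeff 0; rw [hG0 L, hL]))
  set A : PowerSeries ℝ := PowerSeries.mk fun k => (Ea k : ℝ) with hA
  set Bs : PowerSeries ℝ := PowerSeries.mk fun k => (Eb k : ℝ) with hBs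
  have hB0 : PowerSeries.constantCoeff Bs ≠ 0 := by simp [hBs, hEb0]
  set us : PowerSeries ℝ := PowerSeries.mk g * Bs⁻¹ with hus
  have hBu : Bs * us = PowerSeries.mk g := by
    rw [hus, mul_left_comm, PowerSeries.mul_inv_cancel Bs hB0, mul_one]
  have hid : Bs * PowerSeries.mk f = A * PowerSeries.mk g := by
    ext k
    rw [PowerSeries.coeff_mul, PowerSeries.coeff_mul]
    simp only [hA, hBs, PowerSeries.coeff_mk]
    rw [← sub_eq_zero, ← Finset.sum_sub_distrib]
    refine tendsto_nhds_unique (tendsto_finsetSum _ fun x _ =>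
      ((hf x.2).const_mul (Eb x.1 : ℝ)).sub ((hg x.2).const_mul (Ea x.1 : ℝ)))
      (tendsto_const_nhds.congr' (((hge (k + 2)).and (hpre (k + 1))).mono fun L hL => ?_))
    obtain ⟨hL1, hL2⟩ := hL
    have h0 := hE L k (by omega)
    rw [coeff_sub, coeff_mul, coeff_mul, ← Finset.sum_sub_distrib] at h0
    refine h0.symm.trans (Finset.sum_congr rfl fun x hx => ?_)
    have := Finset.HasAntidiagonal.mem_antidiagonal.mp hx
    rw [seriesPoly_coeff _ (by omega : x.1 ≤ L), seriesPoly_coeff _ (by omega : x.1 ≤ L),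
      (hL2 x.1 (by omega)).1, (hL2 x.1 (by omega)).2]
  have hBne : Bs ≠ 0 := fun h => hB0 (by rw [h, map_zero])
  have hAu : A * us = PowerSeries.mk f :=
    mul_left_cancel₀ hBne (by rw [hid, mul_left_comm, hBu])
  have hconv : ∀ (c : ℕ → ℤ) k, convSeries c (fun i => PowerSeries.coeff i us) k =
      PowerSeries.coeff k (PowerSeries.mk (fun i => (c i : ℝ)) * us) := fun c k => by
    rw [PowerSeries.coeff_mul, Finset.Nat.sum_antidiagonal_eq_sum_range_succ
      fun i l => PowerSeries.coeff i (PowerSeries.mk fun i => (c i : ℝ)) *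
        PowerSeries.coeff l us]
    simp [convSeries]
  refine ⟨Ea, Eb, fun i => PowerSeries.coeff i us, hEb0, ?_, fun V => ?_, fun m => ?_⟩
  · have h0 := congrArg PowerSeries.constantCoeff hBu
    rw [map_mul] at h0
    simp only [hBs, PowerSeries.constantCoeff_mk, hg0] at h0
    have hne : (Eb 0 : ℝ) ≠ 0 := Int.cast_ne_zero.2 hEb0
    show PowerSeries.coeff 0 us = 1
    rw [PowerSeries.coeff_zero_eq_constantCoeff_apply]
    exact (mul_right_inj' hne).1 (by rw [h0, mul_one])
  · simp only [hconv, ← hA, ← hBs, hAu, hBu, PowerSeries.coeff_mk]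
    refine le_of_tendsto (tendsto_finsetSum _ fun k _ => ((hf k).pow 2).add ((hg k).pow 2))
      ((hge V).mono fun L hL => ?_)
    rw [Finset.sum_add_distrib]
    refine le_trans (add_le_add ?_ ?_) (hsq L) <;>
      exact Finset.sum_le_sum_of_subset_of_nonneg (Finset.range_subset_range.2 (by omega))
        fun _ _ _ => sq_nonneg _
  · obtain ⟨L, hL1, hL2⟩ := ((hge m).and (hpre m)).exists
    exact ⟨L, hL1, EA L, EB L, hW L, hL2⟩

/-- Finitely many integer series are linearly related as soon as long enough prefixes are. -/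
theorem exists_stable {K : Type*} [Fintype K] (s : K → ℕ → ℤ) :
    ∃ V0 : ℕ, ∀ z : K → ℤ, (∀ j < V0, ∑ a, z a * s a j = 0) → ∀ j, ∑ a, z a * s a j = 0 := by
  classical
  let L : ℕ → (K → ℚ) →ₗ[ℚ] ℚ := fun j => Fintype.linearCombination ℚ fun a => (s a j : ℚ)
  have hL : ∀ j x, L j x = ∑ a, x a * (s a j : ℚ) := fun j x => by
    simp [L, Fintype.linearCombination_apply]
  set P : ℕ → Submodule ℚ (K → ℚ) := fun V => ⨅ j ∈ Finset.range V, LinearMap.ker (L j) with hP
  have hanti : ∀ V V', V ≤ V' → P V' ≤ P V := fun V V' h =>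
    le_iInf₂ fun j hj => iInf₂_le j (Finset.range_subset_range.2 h hj)
  obtain ⟨V0, hV0⟩ := IsArtinian.monotone_stabilizes
    (⟨fun V => OrderDual.toDual (P V), fun V V' h => hanti V V' h⟩ :
      ℕ →o (Submodule ℚ (K → ℚ))ᵒᵈ)
  refine ⟨V0, fun z hz j => ?_⟩
  have hmem : (fun a => (z a : ℚ)) ∈ P V0 := by
    simp only [hP, Submodule.mem_iInf, LinearMap.mem_ker, hL, Finset.mem_range]
    intro i hi
    exact_mod_cast hz i hi
  have heq : P V0 = P (max V0 (j + 1)) := hV0 _ (le_max_left _ _)
  rw [heq] at hmem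
  simp only [hP, Submodule.mem_iInf, LinearMap.mem_ker, hL, Finset.mem_range] at hmem
  exact_mod_cast hmem j (by omega)

/-- **Sparse ratio theorem.** Two series with a square summable common multiplier of unit constant
term are in the ratio of polynomials with boundedly many terms and bounded coefficients. -/
theorem sparse_series (Λ : ℝ) (hΛ : 1 ≤ Λ) :
    ∃ N : ℕ, ∀ (c0 c1 : ℕ → ℤ) (g : ℕ → ℝ), c1 0 ≠ 0 → g 0 = 1 →
      (∀ V, ∑ k ∈ Finset.range V, (convSeries c0 g k ^ 2 + convSeries c1 g k ^ 2) ≤ Λ) →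
      ∃ P Q : ℤ[X], Q ≠ 0 ∧ P.support.card ≤ N ∧ (∀ k, (P.coeff k).natAbs ≤ N) ∧
        Q.support.card ≤ N ∧ (∀ k, (Q.coeff k).natAbs ≤ N) ∧
        ∀ k, ∑ i ∈ Finset.range (k + 1), Q.coeff i * c0 (k - i) =
          ∑ i ∈ Finset.range (k + 1), P.coeff i * c1 (k - i) := by
  classical
  set κ : ℝ := 1 / Real.sqrt Λ with hκ
  have hκ0 : 0 < κ := by positivity
  have hκ1 : κ ≤ 1 := by
    rw [hκ, div_le_one (by positivity)]
    exact Real.one_le_sqrt.mpr hΛ
  suffices hiter : ∀ k : ℕ, ∃ N : ℕ, ∀ (c0 c1 : ℕ → ℤ) (g : ℕ → ℝ), c1 0 ≠ 0 → g 0 = 1 →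
      (∀ V, ∑ k ∈ Finset.range V, (convSeries c0 g k ^ 2 + convSeries c1 g k ^ 2) ≤ Λ) →
      (∃ P Q : ℤ[X], Q ≠ 0 ∧ P.support.card ≤ N ∧ (∀ k, (P.coeff k).natAbs ≤ N) ∧
        Q.support.card ≤ N ∧ (∀ k, (Q.coeff k).natAbs ≤ N) ∧
        ∀ k, ∑ i ∈ Finset.range (k + 1), Q.coeff i * c0 (k - i) =
          ∑ i ∈ Finset.range (k + 1), P.coeff i * c1 (k - i)) ∨
      ∃ W : Finset ℕ, 0 ∈ W ∧ W.card ≤ N ∧
        (k : ℝ) * gain 2 κ * Λ ≤ ∑ x ∈ W, (convSeries c0 g x ^ 2 + convSeries c1 g x ^ 2) by
    have hg := gain_pos (m := 2) hκ0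
    obtain ⟨k, hk⟩ := exists_nat_gt (1 / gain 2 κ)
    rw [div_lt_iff₀ hg] at hk
    obtain ⟨N, hN⟩ := hiter k
    refine ⟨N, fun c0 c1 g hc1 hg0 hgb => ?_⟩
    rcases hN c0 c1 g hc1 hg0 hgb with h | ⟨W, -, -, hW⟩
    · exact h
    exfalso
    have h2 : ∑ x ∈ W, (convSeries c0 g x ^ 2 + convSeries c1 g x ^ 2) ≤ Λ :=
      (Finset.sum_le_sum_of_subset_of_nonneg
        (fun x hx => Finset.mem_range.2 (Nat.lt_succ_of_le (Finset.le_sup (f := id) hx)))
        fun _ _ _ => add_nonneg (sq_nonneg _) (sq_nonneg _)).trans (hgb (W.sup id + 1))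
    nlinarith
  intro k
  induction k with
  | zero =>
    refine ⟨1, fun c0 c1 g _ _ _ => Or.inr ⟨{0}, by simp, by simp, ?_⟩⟩
    rw [Nat.cast_zero, zero_mul, zero_mul]
    exact Finset.sum_nonneg fun _ _ => add_nonneg (sq_nonneg _) (sq_nonneg _)
  | succ k ih =>
    obtain ⟨N, hN⟩ := ih
    obtain ⟨M, hM⟩ := doubling N
    set B : ℕ := (M + 1) ^ N with hB
    refine ⟨N + 2 * B + B + coefBd 2 B κ, fun c0 c1 g hc1 hg0 hgb => ?_⟩
    rcases hN c0 c1 g hc1 hg0 hgb with ⟨P, Q, h1, h2, h3, h4, h5, h6⟩ | ⟨W, h0, hc, hmW⟩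
    · exact Or.inl ⟨P, Q, h1, h2.trans (by omega), fun j => (h3 j).trans (by omega),
        h4.trans (by omega), fun j => (h5 j).trans (by omega), h6⟩
    obtain ⟨S, hSne, hgr, hSc, -⟩ := hM W h0 hc
    set cs : Fin 2 → ℕ → ℤ := ![c0, c1] with hcs
    set col : Fin 2 × S → ℕ → ℤ :=
      fun a j => if (a.2 : ℕ) ≤ j then cs a.1 (j - a.2) else 0 with hcol
    obtain ⟨V0, hV0⟩ := exists_stable col
    set V : ℕ := max V0 (W.sup id) + 1 with hV
    set v : Fin 2 × S → ℤ[X] :=
      fun a => ∑ j ∈ Finset.range V, monomial j (col a j) with hv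
    have hvco : ∀ a j, j < V → (v a).coeff j = col a j := fun a j hj => by
      simp [hv, finsetSum_coeff, coeff_monomial, Finset.sum_ite_eq', hj]
    have hvdeg : ∀ a, (v a).natDegree < V := fun a => lt_of_le_of_lt
      ((natDegree_le_iff_coeff_eq_zero (n := V - 1)).2 fun j hj => by
        have hjV : ¬ j < V := by omega
        simp [hv, finsetSum_coeff, coeff_monomial, Finset.sum_ite_eq', hjV]) (by omega)
    set u : ℝ[X] := ∑ j ∈ Finset.range V, monomial j (g j * κ) with hu
    have huco : ∀ j, j < V → u.coeff j = g j * κ := fun j hj => by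
      simp [hu, finsetSum_coeff, coeff_monomial, Finset.sum_ite_eq', hj]
    set cf : Fin 2 → ℕ → ℝ := ![convSeries c0 g, convSeries c1 g] with hcf
    set f : Fin 2 → ℝ[X] := fun i => ∑ j ∈ Finset.range V, monomial j (cf i j * κ) with hf
    have hfco : ∀ i j, (f i).coeff j = if j < V then cf i j * κ else 0 := fun i j => by
      simp [hf, finsetSum_coeff, coeff_monomial, Finset.sum_ite_eq']
    have hκsq : κ ^ 2 * Λ = 1 := by
      rw [hκ, div_pow, one_pow, Real.sq_sqrt (by linarith)]
      field_simp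
    have hmass : ∀ T', mass f T' =
        κ ^ 2 * ∑ x ∈ T'.filter (· < V), (convSeries c0 g x ^ 2 + convSeries c1 g x ^ 2) := by
      intro T'
      simp only [mass, Fin.sum_univ_two, hfco, ← Finset.sum_add_distrib, Finset.mul_sum,
        Finset.sum_filter]
      refine Finset.sum_congr rfl fun x _ => ?_
      split_ifs
      · simp only [hcf, Matrix.cons_val_zero, Matrix.cons_val_one]; ring
      · simp
    have hf1 : ∀ T', mass f T' ≤ 1 := by
      intro T'
      rw [hmass, ← hκsq]
      refine mul_le_mul_of_nonneg_left ((Finset.sum_le_sum_of_subset_of_nonneg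
        (fun x hx => Finset.mem_range.2 (Finset.mem_filter.1 hx).2)
        fun _ _ _ => add_nonneg (sq_nonneg _) (sq_nonneg _)).trans (hgb V)) (sq_nonneg _)
    have hentry : ∀ (a : Fin 2 × S) (j : ℕ), j < V →
        (u * rp (v a)).coeff j =
          if (a.2 : ℕ) ≤ j then (f a.1).coeff (j - a.2) else 0 := by
      intro a j hj
      rw [coeff_mul, Finset.Nat.sum_antidiagonal_eq_sum_range_succ
        fun i l => u.coeff i * (rp (v a)).coeff l]
      have e : ∀ i ∈ Finset.range (j + 1), u.coeff i * (rp (v a)).coeff (j - i) =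
          g i * κ * ((col a (j - i) : ℤ) : ℝ) := fun i hi => by
        have := Finset.mem_range.1 hi
        rw [huco i (by omega), rp, coeff_map, hvco a _ (by omega)]
        rfl
      rw [Finset.sum_congr rfl e]
      obtain ⟨i0, s⟩ := a
      simp only [hcol, hfco]
      split_ifs with hs hjs
      · rw [← Finset.sum_subset (s₁ := Finset.range (j - (s : ℕ) + 1))
          (Finset.range_subset_range.2 (by omega))
          (fun i hi hi' => by
            simp only [Finset.mem_range] at hi hi'
            rw [if_neg (by omega)]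
            simp)]
        fin_cases i0 <;>
          (simp only [hcs, hcf, Fin.zero_eta, Fin.mk_one, Fin.isValue, Matrix.cons_val_zero,
              Matrix.cons_val_one, convSeries, Finset.sum_mul]
           rw [← Finset.sum_range_reflect]
           refine Finset.sum_congr rfl fun i hi => ?_
           have := Finset.mem_range.1 hi
           rw [if_pos (by omega), show j - (j - (s : ℕ) + 1 - 1 - i) - (s : ℕ) = i by omega,
             show j - (s : ℕ) + 1 - 1 - i = j - (s : ℕ) - i by omega]
           ring)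
      · exfalso; omega
      · refine Finset.sum_eq_zero fun i _ => ?_
        rw [if_neg (by omega)]
        simp
    rcases step_gen (m := 2) le_rfl hκ0 hκ1 u
        (by rw [huco 0 (by omega), hg0, one_mul, abs_of_pos hκ0]) f hf1 S W hSne hgr V
        (by omega) v hvdeg hentry with ⟨z, hz, hzb, hzv⟩ | ⟨X, hdisj, hXc, hXm⟩
    · left
      have hall : ∀ j, ∑ a, z a * col a j = 0 := hV0 z fun j hj => by
        have h := congrArg (fun P : ℤ[X] => P.coeff j) hzv
        simpa [finsetSum_coeff, hvco _ j (by omega)] using h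
      set Q : ℤ[X] := ∑ s : S, monomial (s : ℕ) (z (0, s)) with hQ
      set P : ℤ[X] := -∑ s : S, monomial (s : ℕ) (z (1, s)) with hP
      have hco : ∀ (i : Fin 2) k, (∑ s : S, monomial (s : ℕ) (z (i, s))).coeff k =
          if h : k ∈ S then z (i, ⟨k, h⟩) else 0 := by
        intro i k
        simp only [finsetSum_coeff, coeff_monomial]
        split_ifs with h
        · rw [Finset.sum_eq_single ⟨k, h⟩ (fun b _ hb => if_neg fun h' => hb (Subtype.ext h'))
            (fun h' => absurd (Finset.mem_univ _) h'), if_pos rfl]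
        · exact Finset.sum_eq_zero fun s _ => if_neg fun (h' : (s : ℕ) = k) => h (h' ▸ s.2)
      have hconvS : ∀ (i0 : Fin 2) k,
          ∑ i ∈ Finset.range (k + 1), (∑ s : S, monomial (s : ℕ) (z (i0, s))).coeff i * cs i0 (k - i)
            = ∑ s : S, z (i0, s) * col (i0, s) k := by
        intro i0 k
        simp only [finsetSum_coeff, coeff_monomial, Finset.sum_mul]
        rw [Finset.sum_comm]
        refine Finset.sum_congr rfl fun s _ => ?_
        simp only [hcol, ite_mul, zero_mul]
        rw [Finset.sum_ite_eq]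
        simp only [Finset.mem_range, Nat.lt_succ_iff]
        split_ifs <;> simp
      have hrel : ∀ k, ∑ i ∈ Finset.range (k + 1), Q.coeff i * c0 (k - i) =
          ∑ i ∈ Finset.range (k + 1), P.coeff i * c1 (k - i) := by
        intro k
        have h := hall k
        rw [Fintype.sum_prod_type, Fin.sum_univ_two, ← hconvS, ← hconvS] at h
        simp only [hcs, Matrix.cons_val_zero, Matrix.cons_val_one] at h
        simp only [hQ, hP, coeff_neg, neg_mul, Finset.sum_neg_distrib]
        linarith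
      have hbd : ∀ (i : Fin 2), (∑ s : S, monomial (s : ℕ) (z (i, s))).support.card ≤
            N + 2 * B + B + coefBd 2 B κ ∧
          ∀ j, ((∑ s : S, monomial (s : ℕ) (z (i, s))).coeff j).natAbs ≤
            N + 2 * B + B + coefBd 2 B κ := by
        intro i
        refine ⟨(Finset.card_le_card fun x hx => ?_).trans (show S.card ≤ _ by omega), fun j => ?_⟩
        · rw [mem_support_iff, hco] at hx
          by_contra h
          rw [dif_neg h] at hx
          exact hx rfl
        · rw [hco]
          split_ifs with h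
          · refine (hzb _).trans (le_trans ?_ (Nat.le_add_left _ _))
            unfold coefBd
            gcongr
          · simp
      refine ⟨P, Q, ?_, by rw [hP, support_neg]; exact (hbd 1).1,
        fun j => by rw [hP, coeff_neg, Int.natAbs_neg]; exact (hbd 1).2 j, (hbd 0).1, (hbd 0).2,
        hrel⟩
      intro hQ0
      have hP0 : P = 0 := by
        by_contra hne
        obtain ⟨k, hk⟩ : ∃ k, P.coeff k ≠ 0 := by
          by_contra hc
          push Not at hc
          exact hne (Polynomial.ext fun k => by simpa using hc k)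
        have hh : ∀ k, ∀ i < k, P.coeff i = 0 := by
          intro k
          induction k with
          | zero => intro i hi; omega
          | succ n ih =>
            intro i hi
            rcases Nat.lt_succ_iff_lt_or_eq.1 hi with h' | rfl
            · exact ih i h'
            · have h1 := hrel i
              simp only [hQ0, coeff_zero, zero_mul, Finset.sum_const_zero] at h1
              rw [Finset.sum_range_succ, Nat.sub_self, Finset.sum_eq_zero (fun x hx => by
                rw [ih x (Finset.mem_range.1 hx), zero_mul]), zero_add] at h1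
              exact (mul_eq_zero.1 h1.symm).resolve_right hc1
        exact hk (hh (k + 1) k (Nat.lt_succ_self k))
      refine hz (funext fun ⟨i, s⟩ => ?_)
      fin_cases i
      · have := hco 0 (s : ℕ)
        rw [← hQ, hQ0, coeff_zero, dif_pos s.2] at this
        exact this.symm
      · have := hco 1 (s : ℕ)
        rw [dif_pos s.2, ← neg_neg (∑ x : S, monomial (x : ℕ) (z (1, x))), ← hP, hP0, neg_zero,
          coeff_zero] at this
        exact this.symm
    · right
      refine ⟨W ∪ X.filter (· < V), Finset.mem_union_left _ h0, ?_, ?_⟩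
      · refine (Finset.card_union_le _ _).trans ?_
        have := (Finset.card_filter_le X (· < V)).trans (hXc.trans (Nat.mul_le_mul_left _ hSc))
        omega
      · rw [Finset.sum_union (Finset.disjoint_left.2 fun x hx hx' =>
          Finset.disjoint_left.1 hdisj hx (Finset.mem_filter.1 hx').1)]
        rw [hmass] at hXm
        have hX2 : gain 2 κ * Λ ≤ ∑ x ∈ X.filter (· < V), (convSeries c0 g x ^ 2 + convSeries c1 g x ^ 2) := by
          have := mul_le_mul_of_nonneg_right hXm (by linarith : (0 : ℝ) ≤ Λ)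
          calc gain 2 κ * Λ ≤ _ := this
            _ = (κ ^ 2 * Λ) * ∑ x ∈ X.filter (· < V), (convSeries c0 g x ^ 2 + convSeries c1 g x ^ 2) := by ring
            _ = _ := by rw [hκsq, one_mul]
        push_cast
        linarith

end Vale.Agent.P114
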