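import Vale.Agent.P114.Dim.Classes

/-!
# Collapse at every large scale extends the formal series by one digit
-/

namespace Vale.Agent.P114

open Polynomial

variable {ι : Type*}

/-- A short nearly vanishing real vector with a bounded integer pair of series `(Ea, Eb)`, nearly
vanishing as well, to which it is formally proportional below `L` up to a small error at the
top. -/
def Witness (B : ℕ) (lam t Cv Λ : ℝ) (L : ℕ) (Ea Eb : ℕ → ℤ) : Prop :=
  Eb 0 ≠ 0 ∧ (∀ k, (Ea k).natAbs ≤ 2 * B) ∧ (∀ k, (Eb k).natAbs ≤ 2 * B) ∧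
  |(seriesPoly Ea L).eval lam + t * (seriesPoly Eb L).eval lam| ≤ Cv * lam ^ L ∧
  ∃ F G : ℝ[X], F.natDegree < L + 1 ∧ G.natDegree < L + 1 ∧ G.coeff 0 = Eb 0 ∧
    sq2 (L + 1) F + sq2 (L + 1) G ≤ Λ ∧ |G.eval lam| ≤ 4 * B ∧
    |F.eval lam + t * G.eval lam| ≤ Cv * lam ^ L ∧
    (∀ k, k + 1 < L → (seriesPoly Eb L * F - seriesPoly Ea L * G).coeff k = 0) ∧
    ∀ k, k + 1 = L → |(seriesPoly Eb L * F - seriesPoly Ea L * G).coeff k| ≤ 1 / (8 * B)

/-- Exponentially many words with nearly equal values at arbitrarily large scales. -/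
def Collapse (a b : ι → ℤ) (lam t η K : ℝ) : Prop :=
  ∀ G0 : ℕ, ∃ G, G0 ≤ G ∧ ∃ F : Finset (Fin G → ι), Real.exp (η * G) < (F.card : ℝ) ∧
    ∀ W ∈ F, ∀ W' ∈ F, |val a b lam t W - val a b lam t W'| ≤ K * lam ^ G

theorem witness_zero {B : ℕ} (hB : 1 ≤ B) {lam t Cv Λ : ℝ} (ht : |t| ≤ 1) (hCv : 1 ≤ Cv)
    (hΛ : 1 ≤ Λ) : Witness B lam t Cv Λ 0 (fun _ => 0) (fun _ => 1) := by
  have hB' : (1 : ℝ) ≤ B := by exact_mod_cast hB
  refine ⟨one_ne_zero, fun _ => by simp, fun _ => by simp; omega, ?_, 0, 1, by simp, by simp,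
    by simp, by simpa [sq2] using hΛ, by simp; linarith, by simpa using ht.trans hCv,
    fun k hk => absurd hk (by omega), fun k hk => absurd hk (by omega)⟩
  simpa [seriesPoly] using ht.trans hCv

theorem mean_near_int {Ω : Type*} (S : Finset Ω) (hS : S.Nonempty) (e : Ω → ℤ) {s : ℝ}
    (hs : 0 ≤ s)
    (h : ∑ ω ∈ S, ((e ω : ℝ) - avg S fun ω => (e ω : ℝ)) ^ 2 ≤ (S.card : ℝ) * s ^ 2) :
    ∃ ω ∈ S, |(avg S fun ω => (e ω : ℝ)) - e ω| ≤ s := by
  obtain ⟨ω, hω, hle⟩ := Finset.exists_le_of_sum_le hS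
    (show ∑ ω ∈ S, ((e ω : ℝ) - avg S fun ω => (e ω : ℝ)) ^ 2 ≤ ∑ _ω ∈ S, s ^ 2 by
      rw [Finset.sum_const, nsmul_eq_mul]; linarith)
  refine ⟨ω, hω, ?_⟩
  rw [abs_sub_comm]
  exact abs_le_of_sq_le_sq hle hs

theorem gap_coeff_zero [DecidableEq ι] {a b : ι → ℤ} {Ea Eb : ℕ → ℤ} {L j G : ℕ}
    {A A' : Finset (Fin G → ι)} (hA : A.Nonempty) (hA' : A'.Nonempty)
    {y : (Fin j → ℤ × ℤ) × (Fin L → ℤ)} (hkey : ∀ V ∈ A ∪ A', stateKey a b Ea Eb L j V = y)
    {k : ℕ} (hk : k < L) :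
    (seriesPoly Eb L * gapPoly a L j A A' - seriesPoly Ea L * gapPoly b L j A A').coeff k = 0 := by
  rw [gap_winDig a b Ea Eb L j A A' hk.le]
  obtain ⟨V0, hV0⟩ := hA
  have hc : ∀ V ∈ A ∪ A',
      (winDig a b Ea Eb j k V : ℝ) = (winDig a b Ea Eb j k V0 : ℝ) := fun V hV => by
    rw [(stateKey_eq_iff.1 ((hkey V hV).trans (hkey V0 (Finset.mem_union_left _ hV0)).symm)).2 k hk]
  rw [avg_const A ⟨V0, hV0⟩ _ _ (fun V hV => hc V (Finset.mem_union_left _ hV)),
    avg_const A' hA' _ _ (fun V hV => hc V (Finset.mem_union_right _ hV)), sub_self]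

/-- Two children of one class that differ in the digit above the window are far apart. -/
theorem pair_cost [DecidableEq ι] {a b : ι → ℤ} {B : ℕ} (ha : ∀ x, (a x).natAbs ≤ B)
    (hb : ∀ x, (b x).natAbs ≤ B) {lam t K Cv Λ : ℝ} (h0 : 0 < lam) (h1 : lam ≤ 1 / 2)
    (ht : |t| ≤ 1) (hK : 0 ≤ K) (hCv : Cv = 2 * K + 8 * B) (hCvlam : 32 * B * Cv * lam ≤ 1)
    {L : ℕ} {Ea Eb : ℕ → ℤ} (hW : Witness B lam t Cv Λ L Ea Eb) {j G : ℕ} (hj : j + L + 1 ≤ G)
    {A A' : Finset (Fin G → ι)} (hA : A.Nonempty) (hA' : A'.Nonempty)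
    {y : (Fin j → ℤ × ℤ) × (Fin L → ℤ)} (hkey : ∀ V ∈ A ∪ A', stateKey a b Ea Eb L j V = y)
    {β : ℤ} (hbd : ∀ V ∈ A ∪ A', dig b V j = β) {z z' : ℤ}
    (hz : ∀ V ∈ A, winDig a b Ea Eb j L V = z) (hz' : ∀ V ∈ A', winDig a b Ea Eb j L V = z')
    (hne : z ≠ z')
    (hclose : ∀ V ∈ A ∪ A', ∀ V' ∈ A ∪ A', |val a b lam t V - val a b lam t V'| ≤ K * lam ^ G) :
    ((z : ℝ) - z') ^ 2 ≤ 64 * lam ^ 2 * Λ * gapMass a b A A' := by
  obtain ⟨hg, -, -, -, P0, Q0, hP0, hQ0, hQ00, hsq, hQev, hPQev, hE, hEtop⟩ := hW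
  have hb0 : meanGap b A A' j = 0 := by
    rw [meanGap, avg_const A hA _ (β : ℝ)
      (fun V hV => by rw [hbd V (Finset.mem_union_left _ hV)]),
      avg_const A' hA' _ (β : ℝ)
      (fun V hV => by rw [hbd V (Finset.mem_union_right _ hV)]), sub_self]
  have htop : (seriesPoly Eb L * gapPoly a L j A A' - seriesPoly Ea L * gapPoly b L j A A').coeff L =
      (z : ℝ) - z' := by
    rw [gap_winDig a b Ea Eb L j A A' le_rfl,
      avg_const A hA _ (z : ℝ) (fun V hV => by rw [hz V hV]),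
      avg_const A' hA' _ (z' : ℝ) (fun V hV => by rw [hz' V hV])]
  have hge : (1 : ℝ) ≤ |(z : ℝ) - z'| := by
    rw [← Int.cast_sub, ← Int.cast_abs]
    exact_mod_cast Int.one_le_abs (sub_ne_zero.2 hne)
  have hval := gap_value a b ha hb h0 h1 ht hK A A' hA hA' hj
    (fun i hi V hV V' hV' => (stateKey_eq_iff.1 ((hkey V hV).trans (hkey V' hV').symm)).1 i hi)
    hclose
  rw [← hCv] at hval
  have hev : |(gapPoly b L j A A').eval lam| ≤ lam * (4 * B) := by
    have := abs_eval_gap_le b hb L j A A' h0 h1 1 (fun k hk => by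
      rw [gapPoly_coeff, if_pos (by omega), show k = 0 by omega, add_zero, hb0])
    rwa [pow_one] at this
  have hw := wedge h0 h1 hCvlam L P0 Q0 (gapPoly a L j A A') (gapPoly b L j A A')
    (seriesPoly Ea L) (seriesPoly Eb L) hP0 hQ0 (gapPoly_natDegree _ _ _ _ _)
    (gapPoly_natDegree _ _ _ _ _) hPQev hval hQev hev
    (by rw [hQ00, seriesPoly_coeff Eb (Nat.zero_le _)])
    (by
      rw [seriesPoly_coeff Eb (Nat.zero_le _), ← Int.cast_abs]
      exact_mod_cast Int.one_le_abs hg)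
    (by rw [gapPoly_coeff, if_pos (Nat.zero_le _), add_zero, hb0])
    (by
      rw [gapPoly_coeff]
      split_ifs
      · exact abs_meanGap_le b hb A A' _
      · simp)
    hE hEtop (fun k hk => gap_coeff_zero hA hA' hkey hk) (by rw [htop]; exact hge)
    hsq (m := gapMass a b A A') (by
      rw [gapMass, Finset.sum_add_distrib]
      exact add_le_add (sq2_gap_le a L j A A' hj) (sq2_gap_le b L j A A' hj))
  rwa [htop] at hw

/-- A cheap pair of children with separated first digit of `b` extends the series. -/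
theorem extend_series [DecidableEq ι] {a b : ι → ℤ} {B : ℕ} (hB : 1 ≤ B)
    (ha : ∀ x, (a x).natAbs ≤ B)
    (hb : ∀ x, (b x).natAbs ≤ B) {lam t K Cv Λ : ℝ} (h0 : 0 < lam) (h1 : lam ≤ 1 / 2)
    (ht : |t| ≤ 1) (hK : 0 ≤ K) (hCv : Cv = 2 * K + 8 * B) {L : ℕ} {Ea Eb : ℕ → ℤ}
    (hg : Eb 0 ≠ 0) {j G : ℕ}
    (hj : j + L + 1 ≤ G) {A A' : Finset (Fin G → ι)} (hA : A.Nonempty) (hA' : A'.Nonempty)
    {y : (Fin j → ℤ × ℤ) × (Fin L → ℤ)} (hkey : ∀ V ∈ A ∪ A', stateKey a b Ea Eb L j V = y)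
    (hclose : ∀ V ∈ A ∪ A', ∀ V' ∈ A ∪ A', |val a b lam t V - val a b lam t V'| ≤ K * lam ^ G)
    {z z' : ℤ} (hne : z ≠ z') (hAb : ∀ V ∈ A, dig b V j = z) (hA'b : ∀ V ∈ A', dig b V j = z')
    (hmA : gapMass a b A A' ≤ Λ)
    (hVA : vari A (winDig a b Ea Eb j L) ≤ A.card * (1 / (32 * (B : ℝ) ^ 2)) ^ 2)
    (hVA' : vari A' (winDig a b Ea Eb j L) ≤ A'.card * (1 / (32 * (B : ℝ) ^ 2)) ^ 2) :
    ∃ Ea' Eb' : ℕ → ℤ, Witness B lam t Cv Λ (L + 1) Ea' Eb' := by
  have hB' : (1 : ℝ) ≤ B := by exact_mod_cast hB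
  set s : ℝ := 1 / (32 * (B : ℝ) ^ 2) with hs
  have hs0 : 0 ≤ s := by positivity
  obtain ⟨V, hV, hn1⟩ := mean_near_int A hA (winDig a b Ea Eb j L) hs0 hVA
  obtain ⟨V', hV', hn0⟩ := mean_near_int A' hA' (winDig a b Ea Eb j L) hs0 hVA'
  set Ea' : ℕ → ℤ := fun k => if k ≤ L then dig a V (j + k) - dig a V' (j + k) else 0 with hEa'
  set Eb' : ℕ → ℤ := fun k => if k ≤ L then dig b V (j + k) - dig b V' (j + k) else 0 with hEb'
  have hbd : ∀ (c : ι → ℤ), (∀ x, (c x).natAbs ≤ B) → ∀ k,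
      ((fun k => if k ≤ L then dig c V (j + k) - dig c V' (j + k) else 0) k).natAbs ≤ 2 * B := by
    intro c hc k
    have hd : ∀ W : Fin G → ι, ∀ i, (dig c W i).natAbs ≤ B := fun W i => by
      unfold dig
      split_ifs
      · exact hc _
      · simp
    simp only
    split_ifs
    · have := hd V (j + k)
      have := hd V' (j + k)
      omega
    · simp
  have hser : ∀ c : ι → ℤ,
      seriesPoly (fun k => if k ≤ L then dig c V (j + k) - dig c V' (j + k) else 0) (L + 1) =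
        gapPoly c L j {V} {V'} := by
    intro c
    ext k
    rw [gapPoly_coeff]
    by_cases hk : k ≤ L + 1
    · rw [seriesPoly_coeff _ hk]
      simp only [meanGap, avg, Finset.sum_singleton, Finset.card_singleton, Nat.cast_one, div_one]
      split_ifs <;> simp
    · rw [if_neg (by omega), seriesPoly, finsetSum_coeff, Finset.sum_eq_zero]
      intro i hi
      have := Finset.mem_range.1 hi
      rw [coeff_monomial, if_neg (by omega)]
  have hVV' : ({V} : Finset (Fin G → ι)) ∪ {V'} ⊆ A ∪ A' :=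
    Finset.union_subset (Finset.singleton_subset_iff.2 (Finset.mem_union_left _ hV))
      (Finset.singleton_subset_iff.2 (Finset.mem_union_right _ hV'))
  have hdega := gapPoly_natDegree a L j A A'
  have hdegb := gapPoly_natDegree b L j A A'
  set Fg := gapPoly a L j A A' with hFg
  set Gg := gapPoly b L j A A' with hGg
  have hG0 : Gg.coeff 0 = (z : ℝ) - z' := by
    rw [hGg, gapPoly_coeff, if_pos (Nat.zero_le _), add_zero, meanGap,
      avg_const A hA _ (z : ℝ) (fun V hV => by rw [hAb V hV]),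
      avg_const A' hA' _ (z' : ℝ) (fun V hV => by rw [hA'b V hV])]
  have hEb0 : Eb' 0 = z - z' := by simp [hEb', hAb V hV, hA'b V' hV']
  set Δ := seriesPoly Eb' (L + 1) * Fg - seriesPoly Ea' (L + 1) * Gg with hΔ
  have hid : seriesPoly Eb L * Δ =
      seriesPoly Eb' (L + 1) * (seriesPoly Eb L * Fg - seriesPoly Ea L * Gg) -
      Gg * (seriesPoly Eb L * seriesPoly Ea' (L + 1) - seriesPoly Ea L * seriesPoly Eb' (L + 1)) := by
    rw [hΔ]; ring
  set Dg := seriesPoly Eb L * Fg - seriesPoly Ea L * Gg with hDg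
  set De := seriesPoly Eb L * seriesPoly Ea' (L + 1) - seriesPoly Ea L * seriesPoly Eb' (L + 1)
    with hDe
  have hDe' : De = seriesPoly Eb L * gapPoly a L j {V} {V'} -
      seriesPoly Ea L * gapPoly b L j {V} {V'} := by rw [hDe, hEa', hEb', hser, hser]
  have hDgz : ∀ k < L, Dg.coeff k = 0 := fun k hk => gap_coeff_zero hA hA' hkey hk
  have hDez : ∀ k < L, De.coeff k = 0 := fun k hk => by
    rw [hDe']
    exact gap_coeff_zero (Finset.singleton_nonempty _) (Finset.singleton_nonempty _)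
      (fun U hU => hkey U (hVV' hU)) hk
  have hlow : ∀ (Z D : ℝ[X]) (n : ℕ), (∀ k < n, D.coeff k = 0) →
      (Z * D).coeff n = Z.coeff 0 * D.coeff n := fun Z D n hD => by
    rw [coeff_mul, Finset.sum_eq_single (0, n)]
    · intro x hx hxne
      have := Finset.HasAntidiagonal.mem_antidiagonal.mp hx
      have hx2 : x.2 < n := by
        by_contra hc
        exact hxne (Prod.ext (by simp only; omega) (by simp only; omega))
      rw [hD x.2 hx2, mul_zero]
    · intro h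
      exact absurd (Finset.HasAntidiagonal.mem_antidiagonal.mpr (zero_add n)) h
  have hz0 : ∀ k ≤ L, (seriesPoly Eb L * Δ).coeff k =
      ((z : ℝ) - z') * (Dg.coeff k - De.coeff k) := fun k hk => by
    rw [hid, coeff_sub, hlow _ Dg k (fun i hi => hDgz i (by omega)),
      hlow _ De k (fun i hi => hDez i (by omega)), seriesPoly_coeff Eb' (Nat.zero_le _), hEb0,
      hG0]
    push_cast
    ring
  have hg0 : (seriesPoly Eb L).coeff 0 = (Eb 0 : ℝ) := seriesPoly_coeff Eb (Nat.zero_le _)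
  obtain ⟨hΔz, hΔtop⟩ := coeff_mul_low (Z := seriesPoly Eb L) (D := Δ)
    (by rw [hg0]; exact_mod_cast hg) (L := L)
    (fun k hk => by rw [hz0 k hk.le, hDgz k hk, hDez k hk, sub_zero, mul_zero])
  refine ⟨Ea', Eb', by rw [hEb0]; exact sub_ne_zero.2 hne, hbd a ha, hbd b hb, ?_,
    Fg, Gg, hdega.trans (Nat.lt_succ_self _), hdegb.trans (Nat.lt_succ_self _),
    by rw [hEb0, hG0]; push_cast; rfl, ?_, ?_, ?_, ?_, ?_⟩
  · rw [hEa', hEb', hser, hser, hCv]
    exact gap_value a b ha hb h0 h1 ht hK _ _ (Finset.singleton_nonempty _)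
      (Finset.singleton_nonempty _) hj (fun i hi U hU U' hU' => (stateKey_eq_iff.1
        ((hkey U (hVV' hU)).trans (hkey U' (hVV' hU')).symm)).1 i hi)
      (fun U hU U' hU' => hclose U (hVV' hU) U' (hVV' hU'))
  · have hsq2 : ∀ Z : ℝ[X], Z.natDegree < L + 1 → sq2 (L + 1 + 1) Z = sq2 (L + 1) Z := by
      intro Z hZ
      rw [sq2, Finset.sum_range_succ, coeff_eq_zero_of_natDegree_lt hZ, zero_pow two_ne_zero,
        add_zero]
      rfl
    rw [hsq2 _ hdega, hsq2 _ hdegb]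
    refine le_trans ?_ hmA
    rw [gapMass, Finset.sum_add_distrib]
    exact add_le_add (sq2_gap_le a L j A A' hj) (sq2_gap_le b L j A A' hj)
  · simpa using abs_eval_gap_le b hb L j A A' h0 h1 0 (fun k hk => absurd hk (by omega))
  · rw [hCv]
    exact gap_value a b ha hb h0 h1 ht hK A A' hA hA' hj
      (fun i hi V hV V' hV' => (stateKey_eq_iff.1 ((hkey V hV).trans (hkey V' hV').symm)).1 i hi)
      hclose
  · intro k hk
    exact hΔz k (by omega)
  · intro k hk
    obtain rfl : k = L := by omega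
    show |Δ.coeff k| ≤ _
    rw [hz0 k le_rfl, hg0] at hΔtop
    have hdiff : |Dg.coeff k - De.coeff k| ≤ 2 * s := by
      rw [hDe', hDg, hFg, hGg, gap_winDig a b Ea Eb k j A A' le_rfl,
        gap_winDig a b Ea Eb k j {V} {V'} le_rfl]
      simp only [avg, Finset.sum_singleton, Finset.card_singleton, Nat.cast_one, div_one]
      have e1 := abs_le.1 hn1
      have e0 := abs_le.1 hn0
      simp only [avg] at e1 e0
      rw [abs_le]
      constructor <;> linarith [e1.1, e1.2, e0.1, e0.2]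
    have hzz : |(z : ℝ) - z'| ≤ 2 * B := by
      obtain ⟨U, hU⟩ := hA
      obtain ⟨U', hU'⟩ := hA'
      rw [← hAb U hU, ← hA'b U' hU']
      refine (abs_sub _ _).trans ?_
      linarith [abs_dig_le b hb U j, abs_dig_le b hb U' j]
    have hone : (1 : ℝ) ≤ |(Eb 0 : ℝ)| := by
      rw [← Int.cast_abs]
      exact_mod_cast Int.one_le_abs hg
    have h2 := congrArg abs hΔtop
    rw [abs_mul, abs_mul] at h2
    calc |Δ.coeff k| ≤ |(Eb 0 : ℝ)| * |Δ.coeff k| := le_mul_of_one_le_left (abs_nonneg _) hone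
      _ ≤ (2 * B) * (2 * s) := h2.symm.trans_le (mul_le_mul hzz hdiff (abs_nonneg _) (by positivity))
      _ = 1 / (8 * B) := by rw [hs]; field_simp; norm_num

/-- The first state takes boundedly many values. -/
theorem card_first [DecidableEq ι] {a b : ι → ℤ} {B : ℕ} (ha : ∀ x, (a x).natAbs ≤ B)
    (hb : ∀ x, (b x).natAbs ≤ B) {Ea Eb : ℕ → ℤ} (hEa : ∀ k, (Ea k).natAbs ≤ 2 * B)
    (hEb : ∀ k, (Eb k).natAbs ≤ 2 * B) (L : ℕ) {G : ℕ} (W : Finset (Fin G → ι)) :
    (W.image (stateKey a b Ea Eb L 0)).card ≤ (2 * (4 * B * B * L) + 1) ^ L := by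
  set R : ℕ := 4 * B * B * L with hR
  set box : Finset ((Fin 0 → ℤ × ℤ) × (Fin L → ℤ)) :=
    (Finset.univ : Finset (Fin 0 → ℤ × ℤ)) ×ˢ
      Fintype.piFinset (fun _ => Finset.Icc (-(R : ℤ)) R) with hbox
  refine (Finset.card_le_card (t := box) fun y hy => ?_).trans ?_
  · obtain ⟨V, -, rfl⟩ := Finset.mem_image.1 hy
    simp only [hbox, Finset.mem_product, Finset.mem_univ, true_and, Fintype.mem_piFinset,
      Finset.mem_Icc, stateKey]
    intro k
    have hd : ∀ (c : ι → ℤ), (∀ x, (c x).natAbs ≤ B) → ∀ i, (dig c V i).natAbs ≤ B := by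
      intro c hc i
      unfold dig
      split_ifs with h
      · exact hc _
      · simp
    have hle : (winDig a b Ea Eb 0 k V).natAbs ≤ R := by
      refine (Int.natAbs_sum_le _ _).trans ?_
      refine (Finset.sum_le_card_nsmul _ _ (4 * B * B) fun i _ => ?_).trans ?_
      · refine (Int.natAbs_sub_le _ _).trans ?_
        rw [Int.natAbs_mul, Int.natAbs_mul]
        have e1 := Nat.mul_le_mul (hEb i) (hd a ha (0 + ((k : ℕ) - i)))
        have e2 := Nat.mul_le_mul (hEa i) (hd b hb (0 + ((k : ℕ) - i)))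
        linarith
      · rw [Finset.card_range, smul_eq_mul, hR, mul_comm]
        exact Nat.mul_le_mul_left _ k.2
    omega
  · simp only [hbox, Finset.card_product, Finset.card_univ, Fintype.card_piFinset,
      Finset.prod_const, Fintype.card_fin, Int.card_Icc]
    simp only [Fintype.card_unique, one_mul]
    rw [show ((R : ℤ) + 1 - -(R : ℤ)).toNat = 2 * R + 1 by omega]

/-- A class of the last state holds boundedly many words. -/
theorem nlogn_last [Fintype ι] [DecidableEq ι] {a b : ι → ℤ}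
    (hab : Function.Injective fun i => (a i, b i)) (Ea Eb : ℕ → ℤ) (L : ℕ) {G G' : ℕ}
    (hG'1 : G' + (L + 1) = G) (W : Finset (Fin G → ι)) :
    nlogn W (stateKey a b Ea Eb L G') ≤
      (W.card : ℝ) * (((L : ℝ) + 1) * Real.log (Fintype.card ι)) := by
    rw [nlogn, Finset.card_eq_sum_card_image (stateKey a b Ea Eb L G') W, Nat.cast_sum, Finset.sum_mul]
    refine Finset.sum_le_sum fun y hy => ?_
    set U := W.filter fun V => stateKey a b Ea Eb L G' V = y
    refine mul_le_mul_of_nonneg_left ?_ (Nat.cast_nonneg _)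
    have hUne : U.Nonempty := by
      obtain ⟨V, hV, rfl⟩ := Finset.mem_image.1 hy
      exact ⟨V, Finset.mem_filter.2 ⟨hV, rfl⟩⟩
    have hUc : U.card ≤ Fintype.card ι ^ (L + 1) := by
      rw [← Fintype.card_fin (L + 1), ← Fintype.card_fun, ← Finset.card_univ]
      refine Finset.card_le_card_of_injOn (fun V (i : Fin (L + 1)) => V ⟨G' + i, by omega⟩)
        (fun V _ => Finset.mem_univ _) fun V hV V' hV' h => ?_
      funext i
      rcases Nat.lt_or_ge (i : ℕ) G' with hi | hi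
      · have hp := (stateKey_eq_iff.1 ((Finset.mem_filter.1 hV).2.trans (Finset.mem_filter.1 hV').2.symm)).1 i hi
        simp only [dig, dif_pos i.2] at hp
        exact hab (Prod.ext hp.1 hp.2)
      · have := congrFun h ⟨(i : ℕ) - G', by omega⟩
        simpa [show G' + ((i : ℕ) - G') = i by omega] using this
    calc Real.log (U.card : ℝ) ≤ Real.log (((Fintype.card ι ^ (L + 1) : ℕ)) : ℝ) :=
          Real.log_le_log (Nat.cast_pos.2 hUne.card_pos) (Nat.cast_le.2 hUc)
      _ = _ := by rw [Nat.cast_pow, Real.log_pow]; push_cast; ring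

/-- Each split along the first digit of `b` is costly unless a longer witness exists. -/
theorem node_cost [DecidableEq ι] {a b : ι → ℤ} {B : ℕ} (hB : 1 ≤ B)
    (ha : ∀ x, (a x).natAbs ≤ B) (hb : ∀ x, (b x).natAbs ≤ B) {lam t K Cv Λ : ℝ} (h0 : 0 < lam)
    (h1 : lam ≤ 1 / 2) (ht : |t| ≤ 1) (hK : 0 ≤ K) (hCv : Cv = 2 * K + 8 * B) (hΛ : 0 < Λ)
    {L : ℕ} {Ea Eb : ℕ → ℤ} (hg : Eb 0 ≠ 0)
    (hcon : ∀ Ea' Eb' : ℕ → ℤ, ¬ Witness B lam t Cv Λ (L + 1) Ea' Eb')
    {j G : ℕ} (hj : j + L + 1 ≤ G) {S : Finset (Fin G → ι)} (hS : S.Nonempty)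
    {y : (Fin j → ℤ × ℤ) × (Fin L → ℤ)} (hkey : ∀ V ∈ S, stateKey a b Ea Eb L j V = y)
    (hclose : ∀ V ∈ S, ∀ V' ∈ S, |val a b lam t V - val a b lam t V'| ≤ K * lam ^ G) :
    vari S (fun V => dig b V j) ≤ 4 * (B : ℝ) ^ 2 * (splitMass a b S (fun V => dig b V j) / Λ +
      1024 * (B : ℝ) ^ 4 * ∑ z ∈ S.image (fun V => dig b V j),
        vari (S.filter fun V => dig b V j = z) (winDig a b Ea Eb j L)) := by
  set bd : (Fin G → ι) → ℤ := fun V => dig b V j with hbd
  set e : (Fin G → ι) → ℤ := winDig a b Ea Eb j L with he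
  set Mv : ℝ := 1024 * (B : ℝ) ^ 4 with hMv
  have hB' : (1 : ℝ) ≤ B := by exact_mod_cast hB
  have hMv0 : 0 < Mv := by positivity
  have hMvs : (1 / (32 * (B : ℝ) ^ 2)) ^ 2 = 1 / Mv := by rw [hMv]; ring
  have hSc : 0 < (S.card : ℝ) := Nat.cast_pos.2 hS.card_pos
  refine le_of_mul_le_mul_left ?_ (show 0 < 2 * (S.card : ℝ) by linarith)
  rw [vari_identity, mul_left_comm, mul_add, splitMass, div_div, mul_div_assoc',
    mul_div_mul_left _ _ (by linarith : 2 * (S.card : ℝ) ≠ 0)]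
  have hbB : ∀ z ∈ S.image bd, |(z : ℝ)| ≤ B := by
    intro z hz
    obtain ⟨V, -, rfl⟩ := Finset.mem_image.1 hz
    exact abs_dig_le b hb V j
  set c : ℤ → Finset (Fin G → ι) := fun z => S.filter fun V => bd V = z with hc
  have hsub : ∀ z, c z ⊆ S := fun z => Finset.filter_subset _ _
  have hgood : ∀ z ∈ S.image bd, ∀ z' ∈ S.image bd,
      ((c z).card : ℝ) * (c z').card * ((z : ℝ) - z') ^ 2 ≤
        4 * (B : ℝ) ^ 2 * (((c z).card : ℝ) * (c z').card * gapMass a b (c z) (c z') / Λ +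
          Mv * ((c z).card * vari (c z') e + (c z').card * vari (c z) e)) := by
    intro z hz z' hz'
    have hn := Nat.cast_nonneg (α := ℝ) (c z).card
    have hn' := Nat.cast_nonneg (α := ℝ) (c z').card
    have hgm := gapMass_nonneg a b (c z) (c z')
    have hvn := mul_nonneg hn (vari_nonneg (c z') e)
    have hvn' := mul_nonneg hn' (vari_nonneg (c z) e)
    have hnn := mul_nonneg hn hn'
    have hdiv : 0 ≤ ((c z).card : ℝ) * (c z').card * gapMass a b (c z) (c z') / Λ := by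
      positivity
    have hr : 0 ≤ ((c z).card : ℝ) * (c z').card * gapMass a b (c z) (c z') / Λ +
          Mv * ((c z).card * vari (c z') e + (c z').card * vari (c z) e) := by positivity
    rcases eq_or_ne z z' with rfl | hne
    · rw [sub_self, zero_pow two_ne_zero, mul_zero]
      positivity
    suffices hkey' : ((c z).card : ℝ) * (c z').card ≤
        ((c z).card : ℝ) * (c z').card * gapMass a b (c z) (c z') / Λ +
          Mv * ((c z).card * vari (c z') e + (c z').card * vari (c z) e) by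
      have hzz : ((z : ℝ) - z') ^ 2 ≤ 4 * (B : ℝ) ^ 2 := by
        rw [← sq_abs, show 4 * (B : ℝ) ^ 2 = (2 * B) ^ 2 by ring]
        exact pow_le_pow_left₀ (abs_nonneg _)
          ((abs_sub _ _).trans (by linarith [hbB z hz, hbB z' hz'])) 2
      exact (mul_le_mul hkey' hzz (sq_nonneg _) hr).trans_eq (mul_comm _ _)
    rcases lt_or_ge Λ (gapMass a b (c z) (c z')) with hm | hm
    · have : ((c z).card : ℝ) * (c z').card ≤
          ((c z).card : ℝ) * (c z').card * gapMass a b (c z) (c z') / Λ := by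
        rw [le_div_iff₀ hΛ]
        exact mul_le_mul_of_nonneg_left hm.le hnn
      have := mul_nonneg hMv0.le (add_nonneg hvn hvn')
      linarith
    rcases lt_or_ge ((c z').card / Mv : ℝ) (vari (c z') e) with hV1 | hV1
    · rw [div_lt_iff₀ hMv0] at hV1
      have := mul_le_mul_of_nonneg_left hV1.le hn
      have := mul_nonneg hMv0.le hvn'
      linarith
    rcases lt_or_ge ((c z).card / Mv : ℝ) (vari (c z) e) with hV0 | hV0
    · rw [div_lt_iff₀ hMv0] at hV0
      have := mul_le_mul_of_nonneg_left hV0.le hn'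
      have := mul_nonneg hMv0.le hvn
      linarith
    exfalso
    have hne1 : ∀ w ∈ S.image bd, (c w).Nonempty := fun w hw => by
      obtain ⟨V, hV, rfl⟩ := Finset.mem_image.1 hw
      exact ⟨V, Finset.mem_filter.2 ⟨hV, rfl⟩⟩
    have hu : c z ∪ c z' ⊆ S := Finset.union_subset (hsub z) (hsub z')
    obtain ⟨Ea', Eb', hW'⟩ := extend_series hB ha hb h0 h1 ht hK hCv hg hj (hne1 z hz)
      (hne1 z' hz') (fun V hV => hkey V (hu hV))
      (fun V hV V' hV' => hclose V (hu hV) V' (hu hV')) hne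
      (fun V hV => (Finset.mem_filter.1 hV).2) (fun V hV => (Finset.mem_filter.1 hV).2) hm
      (by rwa [hMvs, mul_one_div]) (by rwa [hMvs, mul_one_div])
    exact hcon Ea' Eb' hW'
  refine (Finset.sum_le_sum fun z hz => Finset.sum_le_sum fun z' hz' => hgood z hz z' hz').trans
    (le_of_eq ?_)
  have hnsum : ∑ z ∈ S.image bd, ((c z).card : ℝ) = S.card := by
    rw [← Nat.cast_sum, hc, ← Finset.card_eq_sum_card_image]
  simp only [Finset.sum_add_distrib, ← Finset.mul_sum, ← Finset.sum_mul, hnsum, ← Finset.sum_div]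
  ring

/-- The collapse at a large scale forces the next digit of the series. -/
theorem witness_step [Fintype ι] (a b : ι → ℤ) {B : ℕ} (hB : 1 ≤ B) (ha : ∀ x, (a x).natAbs ≤ B)
    (hb : ∀ x, (b x).natAbs ≤ B) (hab : Function.Injective fun i => (a i, b i))
    {lam t η K θ Λ Cv : ℝ}
    (h0 : 0 < lam) (h1 : lam ≤ 1 / 2) (ht : |t| ≤ 1) (hK : 0 ≤ K) (hCv : Cv = 2 * K + 8 * B)
    (hCvlam : 32 * B * Cv * lam ≤ 1) (hη : 0 < η) (hθ : 0 < θ) (hθη : 32 / θ ≤ η / 4)
    (hΛ : 0 < Λ) (hΛη : 32 * θ * (B : ℝ) ^ 4 / Λ ≤ η / 8)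
    (hlam : 512 * θ * (B : ℝ) ^ 2 * (4 * (B : ℝ) ^ 2 * (1024 * (B : ℝ) ^ 4) + 1) * lam ^ 2 * Λ
      ≤ η / 8)
    (hcol : Collapse a b lam t η K) (L : ℕ) (Ea Eb : ℕ → ℤ)
    (hW : Witness B lam t Cv Λ L Ea Eb) :
    ∃ Ea' Eb' : ℕ → ℤ, Witness B lam t Cv Λ (L + 1) Ea' Eb' := by
  classical
  by_contra hcon
  push Not at hcon
  obtain ⟨hg, hEa, hEb, -, -⟩ := id hW
  set Mv : ℝ := 1024 * (B : ℝ) ^ 4 with hMv
  set KL : ℝ := (((2 * (4 * B * B * L) + 1) ^ L : ℕ) : ℝ) with hKL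
  set C : ℝ := Real.log KL + ((L : ℝ) + 1) * Real.log (Fintype.card ι) with hC
  obtain ⟨G1, hG1⟩ := exists_nat_gt (4 * C / η)
  obtain ⟨G, hG, W, hcard, hclose⟩ := hcol (G1 + L + 1)
  set N : ℝ := (W.card : ℝ) with hN
  have hN0 : 0 < N := (Real.exp_pos _).trans hcard
  set G' : ℕ := G - (L + 1) with hG'
  have hG'1 : G' + (L + 1) = G := by omega
  set mid : (j : ℕ) → (Fin G → ι) → ((Fin j → ℤ × ℤ) × (Fin L → ℤ)) × ℤ :=
    fun j V => (stateKey a b Ea Eb L j V, dig b V j) with hmid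
  set En : ℕ → ℝ := fun j => totalEnergy a b W (stateKey a b Ea Eb L j) with hEn
  set Hn : ℕ → ℝ := fun j => nlogn W (stateKey a b Ea Eb L j) with hHn
  have hkm : ∀ j, ∀ V ∈ W, ∀ V' ∈ W, mid j V = mid j V' →
      stateKey a b Ea Eb L j V = stateKey a b Ea Eb L j V' := fun j V _ V' _ h => congrArg Prod.fst h
  have hms : ∀ j, ∀ V ∈ W, ∀ V' ∈ W,
      stateKey a b Ea Eb L (j + 1) V = stateKey a b Ea Eb L (j + 1) V' → mid j V = mid j V' :=
    fun j V _ V' _ h => Prod.ext ((stateKey_succ_iff hg).1 h).1 ((stateKey_succ_iff hg).1 h).2.1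
  have hbin : ∀ j y, ∀ V ∈ W.filter (fun V => stateKey a b Ea Eb L j V = y),
      ∀ V' ∈ W.filter (fun V => stateKey a b Ea Eb L j V = y),
        (mid j V = mid j V' ↔ dig b V j = dig b V' j) := fun j y V hV V' hV' =>
    ⟨fun h => congrArg Prod.snd h, fun h => Prod.ext
      ((Finset.mem_filter.1 hV).2.trans (Finset.mem_filter.1 hV').2.symm) h⟩
  have hdig : ∀ j y, ∀ V ∈ W.filter (fun V => mid j V = y),
      ∀ V' ∈ W.filter (fun V => mid j V = y),
        (stateKey a b Ea Eb L (j + 1) V = stateKey a b Ea Eb L (j + 1) V' ↔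
          winDig a b Ea Eb j L V = winDig a b Ea Eb j L V') := fun j y V hV V' hV' => by
    have hm := (Finset.mem_filter.1 hV).2.trans (Finset.mem_filter.1 hV').2.symm
    exact ⟨fun h => ((stateKey_succ_iff hg).1 h).2.2,
      fun h => (stateKey_succ_iff hg).2 ⟨congrArg Prod.fst hm, congrArg Prod.snd hm, h⟩⟩
  set c : ℝ := 4 * (B : ℝ) ^ 2 / Λ + (4 * (B : ℝ) ^ 2 * Mv + 1) * (64 * lam ^ 2 * Λ) with hc
  have hc0 : 0 ≤ c := by positivity
  have hstep : ∀ j < G', Hn j - Hn (j + 1) ≤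
      32 / θ * N + 4 * θ * (c * (En (j + 1) - En j)) := by
    intro j hj
    have hjG : j + L + 1 ≤ G := by omega
    have e1 := nlogn_split W (stateKey a b Ea Eb L j) (mid j) (fun V => dig b V j) (hkm j) (hbin j) hθ
    have e2 := nlogn_split W (mid j) (stateKey a b Ea Eb L (j + 1)) (winDig a b Ea Eb j L) (hms j)
      (hdig j) hθ
    have d1 := totalEnergy_split a b W (stateKey a b Ea Eb L j) (mid j) (fun V => dig b V j) (hkm j)
      (hbin j)
    have d2 := totalEnergy_split a b W (mid j) (stateKey a b Ea Eb L (j + 1)) (winDig a b Ea Eb j L)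
      (hms j) (hdig j)
    set VA := ∑ y ∈ W.image (stateKey a b Ea Eb L j),
      vari (W.filter fun V => stateKey a b Ea Eb L j V = y) (fun V => dig b V j) with hVA
    set VB := ∑ y ∈ W.image (mid j), vari (W.filter fun V => mid j V = y) (winDig a b Ea Eb j L)
      with hVB
    set DA := totalEnergy a b W (mid j) - totalEnergy a b W (stateKey a b Ea Eb L j) with hDA
    set DB := totalEnergy a b W (stateKey a b Ea Eb L (j + 1)) - totalEnergy a b W (mid j) with hDB
    have hA : 0 ≤ DA := d1 ▸ Finset.sum_nonneg fun _ _ => splitMass_nonneg a b _ _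
    have hDB0 : 0 ≤ DB := d2 ▸ Finset.sum_nonneg fun _ _ => splitMass_nonneg a b _ _
    have hgap : VB ≤ 64 * lam ^ 2 * Λ * DB := by
      rw [d2, hVB, Finset.mul_sum]
      refine Finset.sum_le_sum fun y hy => ?_
      set S := W.filter fun V => mid j V = y with hS
      have hSc : 0 < (S.card : ℝ) := by
        obtain ⟨V, hV, rfl⟩ := Finset.mem_image.1 hy
        exact Nat.cast_pos.2 (Finset.card_pos.2 ⟨V, Finset.mem_filter.2 ⟨hV, rfl⟩⟩)
      refine le_of_mul_le_mul_left ?_ (show 0 < 2 * (S.card : ℝ) by linarith)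
      rw [vari_identity, splitMass, mul_left_comm,
        mul_div_cancel₀ _ (by linarith : 2 * (S.card : ℝ) ≠ 0), Finset.mul_sum]
      refine Finset.sum_le_sum fun z hz => ?_
      rw [Finset.mul_sum]
      refine Finset.sum_le_sum fun z' hz' => ?_
      rw [mul_left_comm]
      refine mul_le_mul_of_nonneg_left ?_ (mul_nonneg (Nat.cast_nonneg _) (Nat.cast_nonneg _))
      rcases eq_or_ne z z' with rfl | hne
      · rw [sub_self, zero_pow two_ne_zero]
        exact mul_nonneg (mul_nonneg (mul_nonneg (by norm_num) (sq_nonneg _)) hΛ.le)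
          (gapMass_nonneg a b _ _)
      obtain ⟨V, hV, hVz⟩ := Finset.mem_image.1 hz
      obtain ⟨V', hV', hVz'⟩ := Finset.mem_image.1 hz'
      have hu : (S.filter fun V => winDig a b Ea Eb j L V = z) ∪
          (S.filter fun V => winDig a b Ea Eb j L V = z') ⊆ S :=
        Finset.union_subset (Finset.filter_subset _ _) (Finset.filter_subset _ _)
      exact pair_cost ha hb h0 h1 ht hK hCv hCvlam hW hjG ⟨V, Finset.mem_filter.2 ⟨hV, hVz⟩⟩
        ⟨V', Finset.mem_filter.2 ⟨hV', hVz'⟩⟩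
        (fun U hU => congrArg Prod.fst (Finset.mem_filter.1 (hu hU)).2)
        (fun U hU => congrArg Prod.snd (Finset.mem_filter.1 (hu hU)).2)
        (fun U hU => (Finset.mem_filter.1 hU).2) (fun U hU => (Finset.mem_filter.1 hU).2) hne
        (fun U hU U' hU' => hclose U (Finset.mem_filter.1 (hu hU)).1 U'
          (Finset.mem_filter.1 (hu hU')).1)
    have hnode : VA ≤ 4 * (B : ℝ) ^ 2 * (DA / Λ + Mv * VB) := by
      rw [d1, hVA, hVB, sum_classes_refine W (stateKey a b Ea Eb L j) (mid j) (hkm j)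
        (fun U => vari U (winDig a b Ea Eb j L)), Finset.mul_sum, Finset.sum_div,
        ← Finset.sum_add_distrib, Finset.mul_sum]
      refine Finset.sum_le_sum fun y hy => ?_
      obtain ⟨V, hV, rfl⟩ := Finset.mem_image.1 hy
      rw [sum_classes_congr _ (mid j) (fun V => dig b V j) (hbin j _)
        (fun U => vari U (winDig a b Ea Eb j L))]
      exact node_cost hB ha hb h0 h1 ht hK hCv hΛ hg hcon hjG ⟨V, Finset.mem_filter.2 ⟨hV, rfl⟩⟩
        (fun U hU => (Finset.mem_filter.1 hU).2)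
        (fun U hU U' hU' => hclose U (Finset.mem_filter.1 hU).1 U' (Finset.mem_filter.1 hU').1)
    have hsum : VA + VB ≤ c * (DA + DB) := by
      have d3 : 0 ≤ 4 * (B : ℝ) ^ 2 / Λ * DB := by positivity
      have d4 : 0 ≤ (4 * (B : ℝ) ^ 2 * Mv + 1) * (64 * lam ^ 2 * Λ) * DA := by positivity
      have d5 := mul_le_mul_of_nonneg_left hgap (show 0 ≤ 4 * (B : ℝ) ^ 2 * Mv + 1 by positivity)
      have : c * (DA + DB) = 4 * (B : ℝ) ^ 2 * (DA / Λ) + 4 * (B : ℝ) ^ 2 / Λ * DB +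
          (4 * (B : ℝ) ^ 2 * Mv + 1) * (64 * lam ^ 2 * Λ) * DA +
          (4 * (B : ℝ) ^ 2 * Mv + 1) * (64 * lam ^ 2 * Λ) * DB := by rw [hc]; ring
      linarith
    have h4 := mul_le_mul_of_nonneg_left hsum (show 0 ≤ 4 * θ by positivity)
    have hDsum : En (j + 1) - En j = DA + DB := by simp only [hEn, hDA, hDB]; ring
    rw [hDsum, show (32 : ℝ) / θ = 16 / θ + 16 / θ by ring]
    simp only [hHn]
    linarith
  have hfirst : N * Real.log N - N * Real.log KL ≤ Hn 0 := by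
    refine nlogn_ge W (stateKey a b Ea Eb L 0) ?_
    rw [hKL, Nat.cast_le]
    exact card_first ha hb hEa hEb L W
  have hlast : Hn G' ≤ N * (((L : ℝ) + 1) * Real.log (Fintype.card ι)) :=
    nlogn_last hab Ea Eb L hG'1 W
  have htot : En G' - En 0 ≤ 2 * (B : ℝ) ^ 2 * (G : ℝ) * N := by
    have h0' : 0 ≤ En 0 := Finset.sum_nonneg fun i _ => add_nonneg
      (Finset.sum_nonneg fun _ _ => div_nonneg (sq_nonneg _) (Nat.cast_nonneg _))
      (Finset.sum_nonneg fun _ _ => div_nonneg (sq_nonneg _) (Nat.cast_nonneg _))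
    have h1' : En G' ≤ 2 * (B : ℝ) ^ 2 * (G : ℝ) * N := by
      simp only [hEn, totalEnergy]
      have hd : ∀ (c : ι → ℤ), (∀ x, (c x).natAbs ≤ B) → ∀ i,
          energy W (stateKey a b Ea Eb L G') (fun V => (dig c V i : ℝ)) ≤ (B : ℝ) ^ 2 * N := by
        intro c hc i
        refine (energy_le W _ _).trans ?_
        refine (Finset.sum_le_sum (g := fun _ => (B : ℝ) ^ 2) fun V _ => ?_).trans
          (by simp [hN, mul_comm])
        rw [← sq_abs]
        exact pow_le_pow_left₀ (abs_nonneg _) (abs_dig_le c hc V i) 2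
      refine (Finset.sum_le_sum (g := fun _ => (B : ℝ) ^ 2 * N + (B : ℝ) ^ 2 * N)
        fun i _ => add_le_add (hd a ha i) (hd b hb i)).trans ?_
      simp only [Finset.sum_const, Finset.card_range, nsmul_eq_mul]
      linarith
    linarith
  have hmain : Hn 0 - Hn G' ≤
      32 / θ * ((G : ℝ) * N) + 4 * θ * (c * (2 * (B : ℝ) ^ 2 * (G : ℝ) * N)) := by
    rw [← Finset.sum_range_sub' Hn]
    refine (Finset.sum_le_sum fun j hj => hstep j (Finset.mem_range.1 hj)).trans ?_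
    rw [Finset.sum_add_distrib, Finset.sum_const, Finset.card_range, nsmul_eq_mul,
      ← Finset.mul_sum, ← Finset.mul_sum, Finset.sum_range_sub En]
    have hGG : (G' : ℝ) ≤ G := by exact_mod_cast (by omega : G' ≤ G)
    have e1 := mul_le_mul_of_nonneg_right hGG (show 0 ≤ 32 / θ * N by positivity)
    have e2 := mul_le_mul_of_nonneg_left (mul_le_mul_of_nonneg_left htot hc0)
      (show 0 ≤ 4 * θ by positivity)
    linarith
  have hlog : η * G ≤ Real.log N := (Real.le_log_iff_exp_le hN0).2 hcard.le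
  have hGN : 0 ≤ (G : ℝ) * N := by positivity
  have hlogN := mul_le_mul_of_nonneg_left hlog hN0.le
  have hG1' : 4 * C < η * G := by
    have : (G1 : ℝ) ≤ G := by exact_mod_cast (by omega : G1 ≤ G)
    rw [div_lt_iff₀ hη] at hG1
    nlinarith
  have hCN := mul_lt_mul_of_pos_left hG1' hN0
  have b1 := mul_le_mul_of_nonneg_right hθη hGN
  have b2 := mul_le_mul_of_nonneg_right hΛη hGN
  have b3 := mul_le_mul_of_nonneg_right hlam hGN
  have hexp : 4 * θ * (c * (2 * (B : ℝ) ^ 2 * (G : ℝ) * N)) =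
      32 * θ * (B : ℝ) ^ 4 / Λ * ((G : ℝ) * N) +
      512 * θ * (B : ℝ) ^ 2 * (4 * (B : ℝ) ^ 2 * Mv + 1) * lam ^ 2 * Λ * ((G : ℝ) * N) := by
    rw [hc]; ring
  rw [hexp] at hmain
  have b4 : 0 ≤ η * ((G : ℝ) * N) := mul_nonneg hη.le hGN
  simp only [hC] at hCN
  linarith

end Vale.Agent.P114
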