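import Mathlib

/-!
# The determinant of two nearly vanishing real vectors
-/

namespace Vale.Agent.P114

open Polynomial

/-- The squared coefficient sum below `n`. -/
noncomputable def sq2 (n : ℕ) (F : ℝ[X]) : ℝ := ∑ i ∈ Finset.range n, F.coeff i ^ 2

theorem sq2_nonneg (n : ℕ) (F : ℝ[X]) : 0 ≤ sq2 n F := Finset.sum_nonneg fun _ _ => sq_nonneg _

theorem abs_coeff_mul_le {F H : ℝ[X]} {n : ℕ} (hF : F.natDegree < n) (hH : H.natDegree < n)
    (k : ℕ) : |(F * H).coeff k| ≤ Real.sqrt (sq2 n F * sq2 n H) := by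
  refine Real.abs_le_sqrt ?_
  rw [Polynomial.coeff_mul, Finset.Nat.sum_antidiagonal_eq_sum_range_succ
    fun i j => F.coeff i * H.coeff j]
  refine (Finset.sum_mul_sq_le_sq_mul_sq _ _ _).trans ?_
  have hb : ∀ (Z : ℝ[X]) (g : ℕ → ℕ), Z.natDegree < n →
      Set.InjOn g (Finset.range (k + 1) : Set ℕ) →
      ∑ i ∈ Finset.range (k + 1), Z.coeff (g i) ^ 2 ≤ sq2 n Z := by
    intro Z g hZ hg
    rw [← Finset.sum_image (f := fun i => Z.coeff i ^ 2) hg, sq2,
      ← Finset.sum_subset (Finset.inter_subset_left : _ ∩ Finset.range n ⊆ _)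
        (fun x hx hx' => by
          have hxn : ¬ x < n := fun h => hx' (Finset.mem_inter.2 ⟨hx, Finset.mem_range.2 h⟩)
          rw [coeff_eq_zero_of_natDegree_lt (by omega)]
          simp)]
    exact Finset.sum_le_sum_of_subset_of_nonneg Finset.inter_subset_right
      fun _ _ _ => sq_nonneg _
  exact mul_le_mul (hb F id hF (Set.injOn_id _)) (hb H (fun i => k - i) hH (fun x hx y hy h => by
      simp only [Finset.coe_range, Set.mem_Iio] at hx hy
      simp only at h
      omega))
    (Finset.sum_nonneg fun _ _ => sq_nonneg _) (sq2_nonneg _ _)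

theorem eval_trailing {lam : ℝ} (h0 : 0 < lam) (h1 : lam ≤ 1 / 2) (D : ℝ[X]) (L : ℕ) (C : ℝ)
    (hz : ∀ k < L, D.coeff k = 0) (hC : ∀ k, |D.coeff k| ≤ C) :
    lam ^ L * (|D.coeff L| - 2 * lam * C) ≤ |D.eval lam| := by
  have hC0 : 0 ≤ C := (abs_nonneg _).trans (hC 0)
  obtain ⟨n, hn⟩ : ∃ n, D.natDegree < L + 1 + n := ⟨D.natDegree, by omega⟩
  rw [eval_eq_sum_range' hn, Finset.sum_range_add, Finset.sum_range_succ,
    Finset.sum_eq_zero (fun k hk => by rw [hz k (Finset.mem_range.1 hk), zero_mul]), zero_add]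
  have hgeo : ∀ n : ℕ, ∑ i ∈ Finset.range n, lam ^ i ≤ 2 := by
    intro n
    induction n with
    | zero => simp
    | succ n ih =>
      rw [geom_sum_succ]
      nlinarith [Finset.sum_nonneg fun i (_ : i ∈ Finset.range n) => pow_nonneg h0.le i]
  have htail : |∑ i ∈ Finset.range n, D.coeff (L + 1 + i) * lam ^ (L + 1 + i)| ≤
      lam ^ L * (2 * lam * C) := by
    calc _ ≤ ∑ i ∈ Finset.range n, |D.coeff (L + 1 + i) * lam ^ (L + 1 + i)| :=
          Finset.abs_sum_le_sum_abs _ _
      _ ≤ ∑ i ∈ Finset.range n, lam ^ L * lam * C * lam ^ i := by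
          refine Finset.sum_le_sum fun i _ => ?_
          rw [abs_mul, abs_pow, abs_of_pos h0, pow_add, pow_succ]
          have := mul_le_mul_of_nonneg_right (hC (L + 1 + i))
            (show (0 : ℝ) ≤ lam ^ L * lam * lam ^ i by positivity)
          linarith
      _ ≤ _ := by
          rw [← Finset.mul_sum]
          calc lam ^ L * lam * C * ∑ i ∈ Finset.range n, lam ^ i ≤ lam ^ L * lam * C * 2 :=
                mul_le_mul_of_nonneg_left (hgeo n) (by positivity)
            _ = _ := by ring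
  have h2 := abs_add_le (D.coeff L * lam ^ L +
    ∑ i ∈ Finset.range n, D.coeff (L + 1 + i) * lam ^ (L + 1 + i))
    (-∑ i ∈ Finset.range n, D.coeff (L + 1 + i) * lam ^ (L + 1 + i))
  rw [add_neg_cancel_right, abs_neg, abs_mul, abs_pow, abs_of_pos h0] at h2
  linarith

/-- A factor with a nonzero constant term preserves the order of vanishing. -/
theorem coeff_mul_low {Z D : ℝ[X]} (hZ : Z.coeff 0 ≠ 0) {L : ℕ}
    (h : ∀ k < L, (Z * D).coeff k = 0) :
    (∀ k < L, D.coeff k = 0) ∧ (Z * D).coeff L = Z.coeff 0 * D.coeff L := by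
  have key : ∀ n, (∀ k < n, D.coeff k = 0) → (Z * D).coeff n = Z.coeff 0 * D.coeff n := by
    intro n hn
    rw [coeff_mul, Finset.sum_eq_single (0, n)]
    · intro x hx hne
      have := Finset.HasAntidiagonal.mem_antidiagonal.mp hx
      have hx2 : x.2 < n := by
        by_contra hc
        exact hne (Prod.ext (by simp only; omega) (by simp only; omega))
      rw [hn x.2 hx2, mul_zero]
    · intro h
      exact absurd (Finset.HasAntidiagonal.mem_antidiagonal.mpr (zero_add n)) h
  have hlow : ∀ n ≤ L, ∀ k < n, D.coeff k = 0 := by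
    intro n
    induction n with
    | zero => intro _ k hk; omega
    | succ n ih =>
      intro hn k hk
      rcases Nat.lt_succ_iff_lt_or_eq.1 hk with h' | rfl
      · exact ih (by omega) k h'
      · have := key k (ih (by omega))
        rw [h k (by omega)] at this
        exact (mul_eq_zero.1 this.symm).resolve_left hZ
  exact ⟨hlow L le_rfl, key L (hlow L le_rfl)⟩

/-- An integer gap in the top coordinate costs mass of order `lam⁻²`. -/
theorem wedge {lam t Cv : ℝ} {B : ℕ} (h0 : 0 < lam) (h1 : lam ≤ 1 / 2)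
    (hCv : 32 * B * Cv * lam ≤ 1) (L : ℕ)
    (F G F' G' EA EB : ℝ[X]) (hF : F.natDegree < L + 1) (hG : G.natDegree < L + 1)
    (hF' : F'.natDegree < L + 1) (hG' : G'.natDegree < L + 1)
    (hval : |F.eval lam + t * G.eval lam| ≤ Cv * lam ^ L)
    (hval' : |F'.eval lam + t * G'.eval lam| ≤ Cv * lam ^ (L + 1))
    (hGev : |G.eval lam| ≤ 4 * B) (hGev' : |G'.eval lam| ≤ lam * (4 * B))
    (hG0 : G.coeff 0 = EB.coeff 0) (hg : 1 ≤ |EB.coeff 0|)
    (hG0' : G'.coeff 0 = 0) (hG1' : |G'.coeff 1| ≤ 2 * B)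
    (hE : ∀ k, k + 1 < L → (EB * F - EA * G).coeff k = 0)
    (hEtop : ∀ k, k + 1 = L → |(EB * F - EA * G).coeff k| ≤ 1 / (8 * B))
    (hE' : ∀ k < L, (EB * F' - EA * G').coeff k = 0)
    (hc : 1 ≤ |(EB * F' - EA * G').coeff L|)
    {Λ m : ℝ} (hΛ : sq2 (L + 1) F + sq2 (L + 1) G ≤ Λ)
    (hm : sq2 (L + 1) F' + sq2 (L + 1) G' ≤ m) :
    (EB * F' - EA * G').coeff L ^ 2 ≤ 64 * lam ^ 2 * Λ * m := by
  set E := EB * F - EA * G with hEd
  set E' := EB * F' - EA * G' with hEd'
  set D := F * G' - F' * G with hD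
  have hDeq : EB * D = E * G' - E' * G := by rw [hD, hEd, hEd']; ring
  have hg0 : EB.coeff 0 ≠ 0 := fun h => by rw [h, abs_zero] at hg; linarith
  have hEDz : ∀ k < L, (EB * D).coeff k = 0 := by
    intro k hk
    rw [hDeq, coeff_sub, coeff_mul, coeff_mul, Finset.sum_eq_zero, Finset.sum_eq_zero, sub_zero]
    · intro x hx
      have := Finset.HasAntidiagonal.mem_antidiagonal.mp hx
      rw [hE' x.1 (by omega), zero_mul]
    · intro x hx
      have := Finset.HasAntidiagonal.mem_antidiagonal.mp hx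
      rcases Nat.eq_zero_or_pos x.2 with h | h
      · rw [h, hG0', mul_zero]
      · rw [hE x.1 (by omega), zero_mul]
  obtain ⟨hDz, hDtop⟩ := coeff_mul_low hg0 hEDz
  have hDL : |E'.coeff L| - 1 / 4 ≤ |D.coeff L| := by
    have h2 : (E' * G).coeff L = E'.coeff L * EB.coeff 0 := by
      rw [coeff_mul, Finset.sum_eq_single (L, 0)]
      · simp [hG0]
      · intro x hx hne
        have := Finset.HasAntidiagonal.mem_antidiagonal.mp hx
        have hx1 : x.1 < L := by
          by_contra h
          exact hne (Prod.ext (by simp only; omega) (by simp only; omega))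
        rw [hE' x.1 hx1, zero_mul]
      · intro h
        exact absurd (Finset.HasAntidiagonal.mem_antidiagonal.mpr (add_zero L)) h
    have h3 : |(E * G').coeff L| ≤ 1 / 4 := by
      rw [coeff_mul]
      rcases Nat.eq_zero_or_pos L with hL | hL
      · subst hL
        simp [hG0']
      · rw [Finset.sum_eq_single (L - 1, 1)]
        · simp only
          rw [abs_mul]
          refine (mul_le_mul (hEtop (L - 1) (by omega)) hG1' (abs_nonneg _) (by positivity)).trans ?_
          rcases Nat.eq_zero_or_pos B with rfl | hB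
          · norm_num
          · have : (1 : ℝ) ≤ B := by exact_mod_cast hB
            rw [div_mul_eq_mul_div, one_mul, div_le_iff₀ (by positivity)]
            linarith
        · intro x hx hne
          have := Finset.HasAntidiagonal.mem_antidiagonal.mp hx
          rcases Nat.eq_zero_or_pos x.2 with h | h
          · rw [h, hG0', mul_zero]
          · have hx1 : x.1 + 1 < L := by
              by_contra hc'
              exact hne (Prod.ext (by simp only; omega) (by simp only; omega))
            rw [hE x.1 hx1, zero_mul]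
        · intro h
          exact absurd (Finset.HasAntidiagonal.mem_antidiagonal.mpr
            (show L - 1 + 1 = L by omega)) h
    rw [hDeq, coeff_sub, h2] at hDtop
    have h4 : E'.coeff L * EB.coeff 0 = (E * G').coeff L - EB.coeff 0 * D.coeff L := by linarith
    have h5 := congrArg abs h4
    rw [abs_mul] at h5
    have h6 := abs_sub ((E * G').coeff L) (EB.coeff 0 * D.coeff L)
    rw [abs_mul] at h6
    nlinarith [abs_nonneg (D.coeff L), abs_nonneg (EB.coeff 0)]
  have hΛ0 : 0 ≤ Λ := by linarith [sq2_nonneg (L + 1) F, sq2_nonneg (L + 1) G]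
  have hm0 : 0 ≤ m := by linarith [sq2_nonneg (L + 1) F', sq2_nonneg (L + 1) G']
  have hDC : ∀ k, |D.coeff k| ≤ 2 * Real.sqrt (Λ * m) := by
    intro k
    rw [hD, coeff_sub]
    refine (abs_sub _ _).trans ?_
    have e1 := (abs_coeff_mul_le hF hG' k).trans (Real.sqrt_le_sqrt
      (mul_le_mul (show sq2 (L + 1) F ≤ Λ by linarith [sq2_nonneg (L + 1) G])
        (show sq2 (L + 1) G' ≤ m by linarith [sq2_nonneg (L + 1) F']) (sq2_nonneg _ _) hΛ0))
    have e2 := (abs_coeff_mul_le hF' hG k).trans (Real.sqrt_le_sqrt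
      (mul_le_mul (show sq2 (L + 1) F' ≤ m by linarith [sq2_nonneg (L + 1) G'])
        (show sq2 (L + 1) G ≤ Λ by linarith [sq2_nonneg (L + 1) F]) (sq2_nonneg _ _) hm0))
    rw [mul_comm m Λ] at e2
    linarith
  have hup : |D.eval lam| ≤ 8 * B * Cv * lam ^ (L + 1) := by
    have hev : D.eval lam = (F.eval lam + t * G.eval lam) * G'.eval lam -
        (F'.eval lam + t * G'.eval lam) * G.eval lam := by
      rw [hD, eval_sub, eval_mul, eval_mul]
      ring
    rw [hev]
    refine (abs_sub _ _).trans ?_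
    rw [abs_mul, abs_mul]
    have e1 := mul_le_mul hval hGev' (abs_nonneg _) ((abs_nonneg _).trans hval)
    have e2 := mul_le_mul hval' hGev (abs_nonneg _) ((abs_nonneg _).trans hval')
    rw [pow_succ] at e2 ⊢
    linarith
  have hlow := (eval_trailing h0 h1 D L _ hDz hDC).trans hup
  rw [pow_succ] at hlow
  have h5 : |D.coeff L| - 2 * lam * (2 * Real.sqrt (Λ * m)) ≤ 8 * B * Cv * lam := by
    refine le_of_mul_le_mul_left ?_ (pow_pos h0 L)
    linarith
  have h6 : |E'.coeff L| ≤ 8 * lam * Real.sqrt (Λ * m) := by linarith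
  have h7 := pow_le_pow_left₀ (abs_nonneg _) h6 2
  rw [sq_abs, mul_pow, Real.sq_sqrt (by positivity)] at h7
  linarith

end Vale.Agent.P114
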