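import Vale.Agent.P114.Dim.Refine
import Vale.Agent.P114.Dim.Wedge
import Vale.Agent.P114.Walk

/-!
# Windows of differences of class means
-/

namespace Vale.Agent.P114

open Polynomial

variable {ι : Type*}

/-- The digit of a word at a position, zero beyond its end. -/
def dig (c : ι → ℤ) {G : ℕ} (W : Fin G → ι) (i : ℕ) : ℤ := if h : i < G then c (W ⟨i, h⟩) else 0

/-- The coefficient `k` of the determinant of the window at `j` with the integer pair of series
`(Ea, Eb)`. -/
def winDig (a b : ι → ℤ) (Ea Eb : ℕ → ℤ) {G : ℕ} (j k : ℕ) (W : Fin G → ι) : ℤ :=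
  ∑ i ∈ Finset.range (k + 1),
    (Eb i * dig a W (j + (k - i)) - Ea i * dig b W (j + (k - i)))

/-- The digits before `j` and the window coefficients below `L` at `j`. -/
def stateKey (a b : ι → ℤ) (Ea Eb : ℕ → ℤ) (L : ℕ) {G : ℕ} (j : ℕ) (W : Fin G → ι) :
    (Fin j → ℤ × ℤ) × (Fin L → ℤ) :=
  (fun i => (dig a W i, dig b W i), fun k => winDig a b Ea Eb j k W)

variable {a b : ι → ℤ} {Ea Eb : ℕ → ℤ} {L G : ℕ}

theorem stateKey_eq_iff {j : ℕ} {W W' : Fin G → ι} :
    stateKey a b Ea Eb L j W = stateKey a b Ea Eb L j W' ↔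
      (∀ i < j, dig a W i = dig a W' i ∧ dig b W i = dig b W' i) ∧
        ∀ k < L, winDig a b Ea Eb j k W = winDig a b Ea Eb j k W' := by
  simp [stateKey, funext_iff, Fin.forall_iff]

theorem winDig_zero (j : ℕ) (W : Fin G → ι) :
    winDig a b Ea Eb j 0 W = Eb 0 * dig a W j - Ea 0 * dig b W j := by
  simp [winDig]

theorem winDig_succ (j k : ℕ) (W : Fin G → ι) :
    winDig a b Ea Eb j (k + 1) W = winDig a b Ea Eb (j + 1) k W +
      (Eb (k + 1) * dig a W j - Ea (k + 1) * dig b W j) := by
  rw [winDig, winDig, Finset.sum_range_succ _ (k + 1), Nat.sub_self, add_zero]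
  congr 1
  refine Finset.sum_congr rfl fun i hi => ?_
  have := Finset.mem_range.1 hi
  rw [show j + (k + 1 - i) = j + 1 + (k - i) by omega]

/-- One step: the next state is the present one, the digit of `b` and one window coefficient. -/
theorem stateKey_succ_iff (hg : Eb 0 ≠ 0) {j : ℕ} {W W' : Fin G → ι} :
    stateKey a b Ea Eb L (j + 1) W = stateKey a b Ea Eb L (j + 1) W' ↔
      stateKey a b Ea Eb L j W = stateKey a b Ea Eb L j W' ∧ dig b W j = dig b W' j ∧
        winDig a b Ea Eb j L W = winDig a b Ea Eb j L W' := by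
  simp only [stateKey_eq_iff]
  constructor
  · rintro ⟨hp, hw⟩
    have hk : ∀ k ≤ L, winDig a b Ea Eb j k W = winDig a b Ea Eb j k W' := by
      intro k hk
      cases k with
      | zero =>
        rw [winDig_zero, winDig_zero, (hp j (by omega)).1, (hp j (by omega)).2]
      | succ k =>
        rw [winDig_succ, winDig_succ, hw k (by omega), (hp j (by omega)).1, (hp j (by omega)).2]
    exact ⟨⟨fun i hi => hp i (by omega), fun k hk' => hk k hk'.le⟩, (hp j (by omega)).2,
      hk L le_rfl⟩
  · rintro ⟨⟨hp, hw⟩, hb, he⟩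
    have hk : ∀ k ≤ L, winDig a b Ea Eb j k W = winDig a b Ea Eb j k W' := by
      intro k hk
      rcases hk.lt_or_eq with h | rfl
      · exact hw k h
      · exact he
    have ha : dig a W j = dig a W' j := by
      have := hk 0 (Nat.zero_le _)
      rw [winDig_zero, winDig_zero, hb, sub_left_inj] at this
      exact mul_left_cancel₀ hg this
    refine ⟨fun i hi => ?_, fun k hk' => ?_⟩
    · rcases Nat.lt_succ_iff_lt_or_eq.1 hi with h | rfl
      · exact hp i h
      · exact ⟨ha, hb⟩
    · have := hk (k + 1) hk'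
      rw [winDig_succ, winDig_succ, hb, ha] at this
      exact add_right_cancel this

/-- The difference of two class means of a digit. -/
noncomputable def meanGap (c : ι → ℤ) (S S' : Finset (Fin G → ι)) (i : ℕ) : ℝ :=
  avg S (fun W => (dig c W i : ℝ)) - avg S' fun W => (dig c W i : ℝ)

/-- The window polynomial of a difference of means. -/
noncomputable def gapPoly (c : ι → ℤ) (L j : ℕ) (S S' : Finset (Fin G → ι)) : ℝ[X] :=
  ∑ k ∈ Finset.range (L + 1), monomial k (meanGap c S S' (j + k))

/-- The polynomial of the first digits of `T`. -/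
noncomputable def seriesPoly (T : ℕ → ℤ) (L : ℕ) : ℝ[X] :=
  ∑ k ∈ Finset.range (L + 1), monomial k (T k : ℝ)

theorem seriesPoly_coeff (T : ℕ → ℤ) {L k : ℕ} (hk : k ≤ L) :
    (seriesPoly T L).coeff k = T k := by
  simp [seriesPoly, finsetSum_coeff, coeff_monomial, Finset.sum_ite_eq', Nat.lt_succ_iff.2 hk]

theorem gapPoly_coeff (c : ι → ℤ) (L j : ℕ) (S S' : Finset (Fin G → ι)) (k : ℕ) :
    (gapPoly c L j S S').coeff k = if k ≤ L then meanGap c S S' (j + k) else 0 := by
  simp [gapPoly, finsetSum_coeff, coeff_monomial, Finset.sum_ite_eq', Nat.lt_succ_iff]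

theorem gapPoly_natDegree (c : ι → ℤ) (L j : ℕ) (S S' : Finset (Fin G → ι)) :
    (gapPoly c L j S S').natDegree < L + 1 :=
  Nat.lt_succ_of_le (natDegree_le_iff_coeff_eq_zero.2 fun k hk => by
    rw [gapPoly_coeff, if_neg (by omega)])

theorem abs_dig_le (c : ι → ℤ) {B : ℕ} (hc : ∀ x, (c x).natAbs ≤ B) (W : Fin G → ι) (i : ℕ) :
    |(dig c W i : ℝ)| ≤ B := by
  unfold dig
  split_ifs with h
  · rw [← Int.cast_abs, Int.abs_eq_natAbs]
    exact_mod_cast hc _
  · simp

theorem abs_meanGap_le (c : ι → ℤ) {B : ℕ} (hc : ∀ x, (c x).natAbs ≤ B)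
    (S S' : Finset (Fin G → ι)) (i : ℕ) : |meanGap c S S' i| ≤ 2 * B := by
  have hav : ∀ U : Finset (Fin G → ι), |avg U (fun W => (dig c W i : ℝ))| ≤ B := by
    intro U
    rw [avg, abs_div, Nat.abs_cast]
    refine div_le_of_le_mul₀ (Nat.cast_nonneg _) (Nat.cast_nonneg _) ?_
    refine (Finset.abs_sum_le_sum_abs _ _).trans
      ((Finset.sum_le_sum fun W _ => abs_dig_le c hc W i).trans_eq ?_)
    rw [Finset.sum_const, nsmul_eq_mul, mul_comm]
  rw [meanGap]
  refine (abs_sub _ _).trans ?_
  linarith [hav S, hav S']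

theorem abs_eval_gap_le (c : ι → ℤ) {B : ℕ} (hc : ∀ x, (c x).natAbs ≤ B) (L j : ℕ)
    (S S' : Finset (Fin G → ι)) {lam : ℝ} (h0 : 0 < lam) (h1 : lam ≤ 1 / 2) (e : ℕ)
    (he : ∀ k < e, (gapPoly c L j S S').coeff k = 0) :
    |(gapPoly c L j S S').eval lam| ≤ lam ^ e * (4 * B) := by
  obtain ⟨n, hn⟩ : ∃ n, (gapPoly c L j S S').natDegree < e + n :=
    ⟨(gapPoly c L j S S').natDegree + 1, by omega⟩
  rw [eval_eq_sum_range' hn, Finset.sum_range_add,
    Finset.sum_eq_zero (fun k hk => by rw [he k (Finset.mem_range.1 hk), zero_mul]), zero_add]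
  refine (Finset.abs_sum_le_sum_abs _ _).trans ?_
  calc _ ≤ ∑ k ∈ Finset.range n, lam ^ e * (2 * B) * lam ^ k := by
        refine Finset.sum_le_sum fun k _ => ?_
        rw [abs_mul, abs_pow, abs_of_pos h0, pow_add, mul_comm (lam ^ e) (2 * (B : ℝ)),
          mul_assoc]
        refine mul_le_mul_of_nonneg_right ?_ (by positivity)
        rw [gapPoly_coeff]
        split_ifs
        · exact abs_meanGap_le c hc S S' _
        · simp
    _ ≤ lam ^ e * (4 * B) := by
        rw [← Finset.mul_sum]
        calc lam ^ e * (2 * B) * ∑ k ∈ Finset.range n, lam ^ k ≤ lam ^ e * (2 * B) * 2 := by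
              refine mul_le_mul_of_nonneg_left ?_ (by positivity)
              rw [geom_sum_eq (by linarith) _, div_le_iff_of_neg (by linarith)]
              have := pow_nonneg h0.le n
              linarith
          _ = _ := by ring

theorem sq2_gap_le (c : ι → ℤ) (L j : ℕ) (S S' : Finset (Fin G → ι)) (h : j + L + 1 ≤ G) :
    sq2 (L + 1) (gapPoly c L j S S') ≤ ∑ i ∈ Finset.range G, meanGap c S S' i ^ 2 := by
  rw [sq2]
  calc _ = ∑ i ∈ (Finset.range (L + 1)).image (fun k => j + k), meanGap c S S' i ^ 2 := by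
        rw [Finset.sum_image (fun x _ y _ h => by simpa using h)]
        refine Finset.sum_congr rfl fun k hk => ?_
        rw [gapPoly_coeff, if_pos (Nat.lt_succ_iff.1 (Finset.mem_range.1 hk))]
    _ ≤ _ := by
        refine Finset.sum_le_sum_of_subset_of_nonneg (fun i hi => ?_) fun _ _ _ => sq_nonneg _
        obtain ⟨k, hk, rfl⟩ := Finset.mem_image.1 hi
        have := Finset.mem_range.1 hk
        exact Finset.mem_range.2 (by omega)

theorem gap_winDig (a b : ι → ℤ) (Ea Eb : ℕ → ℤ) (L j : ℕ) (S S' : Finset (Fin G → ι)) {k : ℕ}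
    (hk : k ≤ L) :
    (seriesPoly Eb L * gapPoly a L j S S' - seriesPoly Ea L * gapPoly b L j S S').coeff k =
      avg S (fun W => (winDig a b Ea Eb j k W : ℝ)) -
        avg S' fun W => (winDig a b Ea Eb j k W : ℝ) := by
  have hav : ∀ U : Finset (Fin G → ι), avg U (fun W => (winDig a b Ea Eb j k W : ℝ)) =
      ∑ i ∈ Finset.range (k + 1), ((Eb i : ℝ) * avg U (fun W => (dig a W (j + (k - i)) : ℝ)) -
        (Ea i : ℝ) * avg U (fun W => (dig b W (j + (k - i)) : ℝ))) := by
    intro U
    simp only [avg, winDig, Int.cast_sub, Int.cast_sum, Int.cast_mul, mul_div_assoc', ← sub_div,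
      ← Finset.sum_div, Finset.mul_sum, ← Finset.sum_sub_distrib]
    rw [Finset.sum_comm]
  rw [coeff_sub, coeff_mul, coeff_mul, hav S, hav S',
    Finset.Nat.sum_antidiagonal_eq_sum_range_succ
      fun i l => (seriesPoly Eb L).coeff i * (gapPoly a L j S S').coeff l,
    Finset.Nat.sum_antidiagonal_eq_sum_range_succ
      fun i l => (seriesPoly Ea L).coeff i * (gapPoly b L j S S').coeff l,
    ← Finset.sum_sub_distrib, ← Finset.sum_sub_distrib]
  refine Finset.sum_congr rfl fun i hi => ?_
  have := Finset.mem_range.1 hi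
  rw [seriesPoly_coeff Eb (by omega : i ≤ L), seriesPoly_coeff Ea (by omega : i ≤ L),
    gapPoly_coeff, gapPoly_coeff, if_pos (by omega), if_pos (by omega), meanGap, meanGap]
  ring

theorem val_eq_dig (a b : ι → ℤ) (lam t : ℝ) (W : Fin G → ι) :
    val a b lam t W =
      ∑ i ∈ Finset.range G, lam ^ i * ((dig a W i : ℝ) + (dig b W i : ℝ) * t) := by
  rw [val, ← Fin.sum_univ_eq_sum_range (fun i => lam ^ i * ((dig a W i : ℝ) + (dig b W i : ℝ) * t))]
  exact Finset.sum_congr rfl fun i _ => by simp [dig, i.2]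

/-- A window of a difference of means is small in value. -/
theorem gap_value [DecidableEq ι] (a b : ι → ℤ) {B : ℕ}
    (ha : ∀ x, (a x).natAbs ≤ B) (hb : ∀ x, (b x).natAbs ≤ B)
    {lam t K : ℝ} (h0 : 0 < lam) (h1 : lam ≤ 1 / 2) (ht : |t| ≤ 1) (hK : 0 ≤ K)
    (S S' : Finset (Fin G → ι)) (hS : S.Nonempty) (hS' : S'.Nonempty) {L j : ℕ}
    (hj : j + L + 1 ≤ G)
    (hpre : ∀ i < j, ∀ W ∈ S ∪ S', ∀ W' ∈ S ∪ S', dig a W i = dig a W' i ∧ dig b W i = dig b W' i)
    (hclose : ∀ W ∈ S ∪ S', ∀ W' ∈ S ∪ S', |val a b lam t W - val a b lam t W'| ≤ K * lam ^ G) :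
    |(gapPoly a L j S S').eval lam + t * (gapPoly b L j S S').eval lam| ≤
      (2 * K + 8 * B) * lam ^ (L + 1) := by
  obtain ⟨W0, hW0⟩ := hS
  set d : ℕ → ℝ := fun i => meanGap a S S' i + t * meanGap b S S' i with hd
  have hdle : ∀ i, |d i| ≤ 4 * B := by
    intro i
    refine (abs_add_le _ _).trans ?_
    have e1 := abs_meanGap_le a ha S S' i
    have e2 := mul_le_mul ht (abs_meanGap_le b hb S S' i) (abs_nonneg _) zero_le_one
    rw [← abs_mul] at e2
    linarith
  have hzero : ∀ i < j, d i = 0 := by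
    intro i hi
    have hc : ∀ c : ι → ℤ, (∀ W ∈ S ∪ S', dig c W i = dig c W0 i) → meanGap c S S' i = 0 := by
      intro c hc
      rw [meanGap, avg_const S ⟨W0, hW0⟩ _ (dig c W0 i : ℝ)
        (fun W hW => by rw [hc W (Finset.mem_union_left _ hW)]),
        avg_const S' hS' _ (dig c W0 i : ℝ)
        (fun W hW => by rw [hc W (Finset.mem_union_right _ hW)]), sub_self]
    simp only [hd]
    rw [hc a fun W hW => (hpre i hi W hW W0 (Finset.mem_union_left _ hW0)).1,
      hc b fun W hW => (hpre i hi W hW W0 (Finset.mem_union_left _ hW0)).2]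
    ring
  have htot : |∑ i ∈ Finset.range G, lam ^ i * d i| ≤ 2 * K * lam ^ G := by
    have hsum : ∑ i ∈ Finset.range G, lam ^ i * d i =
        avg S (val a b lam t) - avg S' (val a b lam t) := by
      have hav : ∀ U : Finset (Fin G → ι), avg U (val a b lam t) =
          ∑ i ∈ Finset.range G, lam ^ i * (avg U (fun W => (dig a W i : ℝ)) +
            avg U (fun W => (dig b W i : ℝ)) * t) := by
        intro U
        simp only [avg, val_eq_dig, mul_add, Finset.sum_div, Finset.mul_sum, Finset.sum_mul,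
          ← Finset.sum_add_distrib]
        rw [Finset.sum_comm]
        refine Finset.sum_congr rfl fun i _ => Finset.sum_congr rfl fun W _ => ?_
        ring
      rw [hav, hav, ← Finset.sum_sub_distrib]
      refine Finset.sum_congr rfl fun i _ => ?_
      simp only [hd, meanGap]
      ring
    have hnear : ∀ U : Finset (Fin G → ι), U.Nonempty → U ⊆ S ∪ S' →
        |avg U (val a b lam t) - val a b lam t W0| ≤ K * lam ^ G := by
      intro U hU hsub
      have hc : (U.card : ℝ) ≠ 0 := by exact_mod_cast hU.card_pos.ne'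
      have he : avg U (val a b lam t) - val a b lam t W0 =
          (∑ W ∈ U, (val a b lam t W - val a b lam t W0)) / U.card := by
        rw [avg, Finset.sum_sub_distrib, Finset.sum_const, nsmul_eq_mul, sub_div]
        field_simp
      rw [he, abs_div, Nat.abs_cast, div_le_iff₀ (by positivity)]
      refine (Finset.abs_sum_le_sum_abs _ _).trans ?_
      refine (Finset.sum_le_sum fun W hW =>
        hclose W (hsub hW) W0 (Finset.mem_union_left _ hW0)).trans ?_
      rw [Finset.sum_const, nsmul_eq_mul]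
      linarith
    rw [hsum]
    have e1 := hnear S ⟨W0, hW0⟩ Finset.subset_union_left
    have e2 := hnear S' hS' Finset.subset_union_right
    have e3 := abs_sub_le (avg S (val a b lam t)) (val a b lam t W0) (avg S' (val a b lam t))
    rw [abs_sub_comm (val a b lam t W0)] at e3
    linarith
  obtain ⟨r, hr⟩ : ∃ r, G = j + (L + 1) + r := ⟨G - (j + (L + 1)), by omega⟩
  have hsplit : ∑ i ∈ Finset.range (j + (L + 1) + r), lam ^ i * d i =
      lam ^ j * ((gapPoly a L j S S').eval lam + t * (gapPoly b L j S S').eval lam) +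
        ∑ i ∈ Finset.range r, lam ^ (j + (L + 1) + i) * d (j + (L + 1) + i) := by
    rw [Finset.sum_range_add, Finset.sum_range_add,
      Finset.sum_eq_zero (fun i hi => by rw [hzero i (Finset.mem_range.1 hi), mul_zero]), zero_add]
    congr 1
    rw [eval_eq_sum_range' (gapPoly_natDegree a L j S S'),
      eval_eq_sum_range' (gapPoly_natDegree b L j S S'), Finset.mul_sum, ← Finset.sum_add_distrib,
      Finset.mul_sum]
    refine Finset.sum_congr rfl fun k hk => ?_
    have := Finset.mem_range.1 hk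
    simp only [gapPoly_coeff, if_pos (Nat.lt_succ_iff.1 this), hd, pow_add]
    ring
  have htail : |∑ i ∈ Finset.range r, lam ^ (j + (L + 1) + i) * d (j + (L + 1) + i)| ≤
      8 * B * lam ^ (j + (L + 1)) := by
    have hgeo : ∑ i ∈ Finset.range r, lam ^ i ≤ 2 := by
      rw [geom_sum_eq (by linarith) _, div_le_iff_of_neg (by linarith)]
      have := pow_nonneg h0.le r
      linarith
    refine (Finset.abs_sum_le_sum_abs _ _).trans ?_
    calc _ ≤ ∑ i ∈ Finset.range r, 4 * B * lam ^ (j + (L + 1)) * lam ^ i := by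
          refine Finset.sum_le_sum fun i _ => ?_
          rw [abs_mul, abs_pow, abs_of_pos h0, pow_add]
          have := mul_le_mul_of_nonneg_left (hdle (j + (L + 1) + i))
            (show 0 ≤ lam ^ (j + (L + 1)) * lam ^ i by positivity)
          linarith
      _ ≤ _ := by
          rw [← Finset.mul_sum]
          have := mul_le_mul_of_nonneg_left hgeo
            (show 0 ≤ 4 * (B : ℝ) * lam ^ (j + (L + 1)) by positivity)
          linarith
  have hG2 : lam ^ G ≤ lam ^ (j + (L + 1)) :=
    pow_le_pow_of_le_one h0.le (by linarith) (by omega)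
  rw [hr, hsplit] at htot
  rw [← hr] at htot
  set V := (gapPoly a L j S S').eval lam + t * (gapPoly b L j S S').eval lam
  have h5 : |lam ^ j * V| ≤ (2 * K + 8 * B) * lam ^ (j + (L + 1)) := by
    have h6 := abs_add_le
      (lam ^ j * V + ∑ i ∈ Finset.range r, lam ^ (j + (L + 1) + i) * d (j + (L + 1) + i))
      (-∑ i ∈ Finset.range r, lam ^ (j + (L + 1) + i) * d (j + (L + 1) + i))
    rw [add_neg_cancel_right, abs_neg] at h6
    have := mul_le_mul_of_nonneg_left hG2 (show 0 ≤ 2 * K by linarith)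
    linarith
  rw [abs_mul, abs_pow, abs_of_pos h0, pow_add, mul_left_comm] at h5
  exact le_of_mul_le_mul_left h5 (pow_pos h0 j)

end Vale.Agent.P114
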